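import Vale.Agent.P272.K.INT.Global

/-! P301, KEY: the integral of a density over an injectively parametrised piece. -/

open scoped Manifold ContDiff Topology
open Filter Set MeasureTheory

noncomputable section

namespace Vale.Agent.P301Z.Key.Int

open Vale.Agent.P272.K Vale.Agent.P272.K.INT

variable {n : ℕ} {Y : Type} [TopologicalSpace Y] [ChartedSpace (Cm n) Y]
  [IsManifold 𝓘(ℂ, Cm n) ω Y] [T2Space Y] [CompactSpace Y]

theorem int_le {D : Chart n Y → Cm n → ℝ} (hD : IsDensity D)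
    (h0 : ∀ e x, At e x → 0 ≤ D e (e x)) {Φ : Cm n → Y} {K : Set (Cm n)} (hK : IsCompact K)
    (hc : ContinuousOn Φ K) (hi : InjOn Φ K)
    (hh : ∀ v ∈ K, ∀ e : Chart n Y, At e (Φ v) → DifferentiableAt ℂ (fun v' => e (Φ v')) v)
    {f : Cm n → ℝ} (hf : ContinuousOn f K) (hf0 : ∀ v ∈ K, 0 ≤ f v)
    (hfD : ∀ v ∈ K, ∀ e : Chart n Y, At e (Φ v) →
      f v ≤ D e (e (Φ v)) * ‖(jmat (fun v' => e (Φ v')) v).det‖ ^ 2) :
    ∫ v in K, f v ≤ intX D := by
  set P := part n Y with hP
  have hρ : ∀ i, ContinuousOn (fun v => P.ρ i (Φ v) * f v) K := fun i =>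
    ((P.cont i).comp_continuousOn hc).mul hf
  have e1 : ∫ v in K, f v = ∑ i, ∫ v in K, P.ρ i (Φ v) * f v := by
    rw [← integral_finsetSum _ fun i _ => (hρ i).integrableOn_compact hK]
    refine integral_congr_ae (Eventually.of_forall fun v => ?_)
    show f v = ∑ i, P.ρ i (Φ v) * f v
    rw [← Finset.sum_mul, P.sum, one_mul]
  rw [e1, intX, ← hP]
  refine Finset.sum_le_sum fun i _ => ?_
  set S := K ∩ Φ ⁻¹' tsupport (P.ρ i) with hS
  have hSc : IsClosed S := hc.preimage_isClosed_of_isClosed hK.isClosed (isClosed_tsupport _)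
  have hAt : ∀ v ∈ S, At (P.e i) (Φ v) := fun v hv => ⟨P.mem i, P.supp i hv.2⟩
  have e2 : ∫ v in K, P.ρ i (Φ v) * f v = ∫ v in S, P.ρ i (Φ v) * f v := by
    refine setIntegral_eq_of_subset_of_forall_sdiff_eq_zero hK.measurableSet inter_subset_left
      fun v hv => ?_
    rw [image_eq_zero_of_notMem_tsupport fun h => hv.2 ⟨hv.1, h⟩, zero_mul]
  have hd : ∀ v ∈ S, HasFDerivWithinAt (fun v' => P.e i (Φ v'))
      (fderiv ℝ (fun v' => P.e i (Φ v')) v) S v := fun v hv =>
    ((hh v hv.1 _ (hAt v hv)).restrictScalars ℝ).hasFDerivAt.hasFDerivWithinAt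
  have hinj : InjOn (fun v' => P.e i (Φ v')) S := fun v hv v' hv' h =>
    hi hv.1 hv'.1 ((P.e i).injOn (hAt v hv).2 (hAt v' hv').2 h)
  have himg : (fun v' => P.e i (Φ v')) '' S ⊆ (P.e i).target := by
    rintro _ ⟨v, hv, rfl⟩
    exact (P.e i).map_source (hAt v hv).2
  have hI := integrableOn_part P hD i
  have hI2 := (integrableOn_image_iff_integrableOn_abs_det_fderiv_smul volume
    hSc.measurableSet hd hinj _).1 (hI.mono_set himg)
  calc ∫ v in K, P.ρ i (Φ v) * f v = ∫ v in S, P.ρ i (Φ v) * f v := e2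
    _ ≤ ∫ v in S, |(fderiv ℝ (fun v' => P.e i (Φ v')) v).det| •
          (P.ρ i ((P.e i).symm (P.e i (Φ v))) * D (P.e i) (P.e i (Φ v))) := by
        refine setIntegral_mono_on (((hρ i).integrableOn_compact hK).mono_set inter_subset_left)
          hI2 hSc.measurableSet fun v hv => ?_
        rw [(P.e i).left_inv (hAt v hv).2, det_fderiv_real (hh v hv.1 _ (hAt v hv)),
          abs_of_nonneg (sq_nonneg _), smul_eq_mul, mul_left_comm, mul_comm _ (D _ _)]
        exact mul_le_mul_of_nonneg_left (hfD v hv.1 _ (hAt v hv)) (P.nonneg i _)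
    _ = ∫ z in (fun v' => P.e i (Φ v')) '' S, P.ρ i ((P.e i).symm z) * D (P.e i) z :=
        (integral_image_eq_integral_abs_det_fderiv_smul volume hSc.measurableSet hd hinj
          fun z => P.ρ i ((P.e i).symm z) * D (P.e i) z).symm
    _ ≤ _ := by
        refine setIntegral_mono_set hI ?_ (LE.le.eventuallyLE himg)
        refine (ae_restrict_iff' (P.e i).open_target.measurableSet).2
          (Eventually.of_forall fun z hz => mul_nonneg (P.nonneg i _) ?_)
        have := h0 _ _ (At.of_target (P.mem i) hz)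
        rwa [(P.e i).right_inv hz] at this

end Vale.Agent.P301Z.Key.Int
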