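import Vale.Agent.P272.K.Iface
import Vale.Agent.P272.K.Inv.Chart
import Vale.Agent.P272.K.C2.ChernLu
import Vale.Agent.P272.K.INT.Global
import Vale.Agent.P272.K.R.DQ

/-!
# P301Z, block KEY: definitions

A degenerating family is described by finitely many polydisc charts of the total space (`Model`),
one fibre with its Ricci flat metric by `Fib`. The statement `KEY` says that the Ricci flat metric
is almost flat on a large piece of a torus bundle.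
-/

open scoped Manifold ContDiff ComplexOrder Topology Matrix
open Set Metric

noncomputable section

namespace Vale.Agent.P301Z.Key

open Vale.Agent.P272.K

/-- fields of matrices in the charts -/
abbrev Fm (n : ℕ) (Y : Type) [TopologicalSpace Y] : Type :=
  Chart n Y → Cm n → Matrix (Fin n) (Fin n) ℂ

/-- the Jacobian matrix of a map between spaces of different dimensions -/
def jr {n p : ℕ} (g : Cm n → Cm p) (z : Cm n) : Matrix (Fin p) (Fin n) ℂ :=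
  Matrix.of fun l i => dz i (fun y => g y l) z

/-- the pull back of a Hermitian matrix -/
def pb {n p : ℕ} (g : Cm n → Cm p) (Q : Matrix (Fin p) (Fin p) ℂ) (z : Cm n) :
    Matrix (Fin n) (Fin n) ℂ :=
  (jr g z)ᵀ * Q * (jr g z).map (starRingEnd ℂ)

/-- the columns of `B` are a basis of the lattice of integer vectors orthogonal to `m` -/
def IsKB {N : ℕ} (m : Fin (N + 1) → ℕ) (B : Matrix (Fin (N + 1)) (Fin N) ℤ) : Prop :=
  (∀ i, ∑ l, (m l : ℤ) * B l i = 0) ∧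
    ∀ v : Fin (N + 1) → ℤ, ∑ l, (m l : ℤ) * v l = 0 → ∃! q : Fin N → ℤ, B.mulVec q = v

/-- The charts of the total space: `a` runs over the charts, `i` over the components of the
central fibre; in the chart `a` the family is `x ↦ cc a * ∏ x l ^ m a l`, the Kähler form has the potential
`ψ a`, and minus the logarithm of the norm of the section cutting out the component `i` is
`φ a i x - log |x l|²` if `sig a i = some l`, and `φ a i x` if `sig a i = none`. -/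
structure Model (N : ℕ) where
  na : ℕ
  ni : ℕ
  m : Fin na → Fin (N + 1) → ℕ
  cc : Fin na → ℂ
  ψ : Fin na → Cm (N + 1) → ℝ
  φ : Fin na → Fin ni → Cm (N + 1) → ℝ
  sig : Fin na → Fin ni → Option (Fin (N + 1))
  B : Fin na → Matrix (Fin (N + 1)) (Fin N) ℤ
  C : ℝ

variable {N : ℕ}

structure Model.Good (M : Model N) : Prop where
  C_pos : 0 < M.C
  cc_ne : ∀ a, M.cc a ≠ 0
  m_ne : ∀ a, ∃ l, 1 ≤ M.m a l
  ψ_sm : ∀ a, ∀ x ∈ ball (0 : Cm (N + 1)) 2, ContDiffAt ℝ ∞ (M.ψ a) x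
  ψ_pos : ∀ a, ∀ x ∈ ball (0 : Cm (N + 1)) 2, (cHess (M.ψ a) x).PosDef
  φ_sm : ∀ a i, ∀ x ∈ ball (0 : Cm (N + 1)) 2, ContDiffAt ℝ ∞ (M.φ a i) x
  sig_iff : ∀ a l, 1 ≤ M.m a l ↔ ∃ i, M.sig a i = some l
  kb : ∀ a, (∀ l, 1 ≤ M.m a l) → IsKB (M.m a) (M.B a)

/-- the function `ρ i` in the chart `a` -/
def Model.lg (M : Model N) (a : Fin M.na) (i : Fin M.ni) (x : Cm (N + 1)) : ℝ :=
  M.φ a i x - (M.sig a i).elim 0 fun l => Real.log (‖x l‖ ^ 2)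

/-- the weight of the logarithmic frame -/
def Model.wt (M : Model N) (a : Fin M.na) (x : Cm (N + 1)) (l : Fin (N + 1)) : ℝ :=
  if 1 ≤ M.m a l then ‖x l‖ ^ 2 else 1

/-- the size of the degeneration -/
def TT (t : ℂ) : ℝ := -Real.log ‖t‖

/-- The fibre over `t` with its Ricci flat metric `w` in the class `lam [χ]`. -/
structure Fib (M : Model N) (Y : Type) [TopologicalSpace Y] [ChartedSpace (Cm N) Y] (t : ℂ) where
  U : Fin M.na → Set Y
  j : Fin M.na → Y → Cm (N + 1)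
  χ : Fm N Y
  w : Fm N Y
  u : Y → ℝ
  lam : ℝ
  ρ : Fin M.ni → Y → ℝ
  opn : ∀ a, IsOpen (U a)
  hol : ∀ a (e : Chart N Y) y, At e y → y ∈ U a → ContDiffAt ℂ ω (fun z => j a (e.symm z)) (e y)
  inj : ∀ a, InjOn (j a) (U a)
  img : ∀ a, j a '' U a =
    {x | x ∈ ball (0 : Cm (N + 1)) 2 ∧ M.cc a * ∏ l, x l ^ M.m a l = t}
  cov : ∀ y, ∃ a, y ∈ U a ∧ j a y ∈ ball (0 : Cm (N + 1)) 1
  χ_k : IsKahler χ
  χ_eq : ∀ a (e : Chart N Y) y, At e y → y ∈ U a →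
    χ e (e y) = cHess (fun z => M.ψ a (j a (e.symm z))) (e y)
  ρ_eq : ∀ a i y, y ∈ U a → ρ i y = M.lg a i (j a y)
  w_k : IsKahler w
  u_sm : SmoothFn (n := N) u
  w_eq : ∀ (e : Chart N Y) y, At e y →
    w e (e y) = (lam : ℂ) • χ e (e y) + cHess (fun z => u (e.symm z)) (e y)
  ric : ∀ (e : Chart N Y) y, At e y → cHess (fun z => Real.log (w e z).det.re) (e y) = 0
  lam_lo : TT t ≤ M.C * lam
  lam_hi : lam ≤ M.C * TT t
  vol : ∃ I : ℝ, IsIntegral (fun (e : Chart N Y) z => (χ e z).det.re) I ∧ I ≤ M.C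
  det_le : ∀ a (e : Chart N Y) y l₀, At e y → y ∈ U a → j a y ∈ ball (0 : Cm (N + 1)) 1 → 1 ≤ M.m a l₀ →
    (w e (e y)).det.re * ∏ l : Fin N, M.wt a (j a y) (l₀.succAbove l) ≤
      M.C * ‖((jr (fun z => j a (e.symm z)) (e y)).submatrix l₀.succAbove id).det‖ ^ 2

/-- the tube domain -/
def Tb (N : ℕ) (R : ℝ) : Set (Cm N) := {v | ∀ i, |(v i).re| < R}

/-- logarithmic coordinates -/
def ex (c : Cm (N + 1)) (B : Matrix (Fin (N + 1)) (Fin N) ℤ) (v : Cm N) : Cm (N + 1) :=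
  fun l => c l * Complex.exp (∑ i, (B l i : ℂ) * v i)

/-- the period attached to an integer vector -/
def per (q : Fin N → ℤ) : Cm N := fun i => 2 * Real.pi * Complex.I * (q i : ℂ)

variable {M : Model N} {Y : Type} [TopologicalSpace Y] [ChartedSpace (Cm N) Y] {t : ℂ}

/-- `Φ` is the parametrisation by logarithmic coordinates centred at `c`. -/
structure Par (F : Fib M Y t) (a : Fin M.na) (c : Cm (N + 1)) (R : ℝ) (Φ : Cm N → Y) : Prop where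
  mem : ∀ v ∈ Tb N R, Φ v ∈ F.U a
  eq : ∀ v ∈ Tb N R, F.j a (Φ v) = ex c (M.B a) v
  cont : ∀ v ∈ Tb N R, ContinuousAt Φ v
  hol : ∀ v ∈ Tb N R, ∀ e : Chart N Y, At e (Φ v) → ContDiffAt ℂ ω (fun v' => e (Φ v')) v
  unit : ∀ v ∈ Tb N R, ∀ e : Chart N Y, At e (Φ v) → (jmat (fun v' => e (Φ v')) v).det ≠ 0
  peri : ∀ v ∈ Tb N R, ∀ q, Φ (v + per q) = Φ v
  inj : ∀ v ∈ Tb N R, ∀ v' ∈ Tb N R, Φ v = Φ v' → ∃ q, v' = v + per q

/-- the pull back of a form under `Φ` -/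
def pl (b : Fm N Y) (Φ : Cm N → Y) (v : Cm N) : Matrix (Fin N) (Fin N) ℂ :=
  (jmat (fun v' => chartAt (Cm N) (Φ v) (Φ v')) v)ᵀ *
    b (chartAt (Cm N) (Φ v)) (chartAt (Cm N) (Φ v) (Φ v)) *
      (jmat (fun v' => chartAt (Cm N) (Φ v) (Φ v')) v).map (starRingEnd ℂ)

/-- `H` is between `1 / C` and `C`, smooth, with derivatives of order `1, …, k` at most `η`. -/
structure Flat (H : Cm N → Matrix (Fin N) (Fin N) ℂ) (C η : ℝ) (k : ℕ) (v : Cm N) : Prop where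
  lo : (H v - ((C⁻¹ : ℝ) : ℂ) • (1 : Matrix (Fin N) (Fin N) ℂ)).PosSemidef
  hi : ((C : ℂ) • (1 : Matrix (Fin N) (Fin N) ℂ) - H v).PosSemidef
  sm : ∀ i i', ContDiffAt ℝ ∞ (fun v' => H v' i i') v
  small : ∀ i i' q, 1 ≤ q → q ≤ k → ‖iteratedFDeriv ℝ q (fun v' => H v' i i') v‖ ≤ η

/-- The Ricci flat metric is almost flat on a large tube. -/
def KEY : Prop :=
  ∀ (N : ℕ) (_ : 1 ≤ N) (M : Model N) (_ : M.Good), ∃ C : ℝ, 0 < C ∧
    ∀ (R η : ℝ) (k : ℕ), 0 < R → 0 < η → ∃ T₀ : ℝ,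
      ∀ (Y : Type) [TopologicalSpace Y] [T2Space Y] [CompactSpace Y] [Nonempty Y]
        [ChartedSpace (Cm N) Y] [IsManifold 𝓘(ℂ, Cm N) ω Y] (t : ℂ) (F : Fib M Y t), T₀ ≤ TT t →
        ∃ (a : Fin M.na) (c : Cm (N + 1)) (Φ : Cm N → Y), (∀ l, 1 ≤ M.m a l) ∧ Par F a c R Φ ∧
          ∀ v ∈ Tb N R, ‖ex c (M.B a) v‖ ≤ η ∧ Flat (pl F.w Φ) C η k v

/-- integer bases exist -/
def KB : Prop :=
  ∀ (N : ℕ) (m : Fin (N + 1) → ℕ), (∃ l, 1 ≤ m l) → ∃ B, IsKB m B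

/-- the form `∑ ∂ρ ∧ ∂̄ρ` -/
def Fib.P (F : Fib M Y t) : Fm N Y := fun e z => Matrix.of fun p q =>
  ∑ i, dz p (fun y => (F.ρ i (e.symm y) : ℂ)) z *
    (starRingEnd ℂ) (dz q (fun y => (F.ρ i (e.symm y) : ℂ)) z)

/-- the Hermitian reference form -/
def Fib.Hh (F : Fib M Y t) (K : ℝ) : Fm N Y := fun e z =>
  F.P e z + ((K * TT t : ℝ) : ℂ) • F.χ e z

/-- the function `∑ ρ² / 2` -/
def Fib.S (F : Fib M Y t) (y : Y) : ℝ := ∑ i, F.ρ i y ^ 2 / 2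

/-- the Kähler reference form -/
def Fib.β (F : Fib M Y t) (K : ℝ) : Fm N Y := fun e z =>
  ((K * TT t : ℝ) : ℂ) • F.χ e z + cHess (fun y => F.S (e.symm y)) z

/-- the potential with `β = (K T / lam) w + i∂∂̄Ψ` -/
def Fib.Ψ (F : Fib M Y t) (K : ℝ) (y : Y) : ℝ := F.S y - K * TT t / F.lam * F.u y

/-- the diagonal model form of the chart `a` -/
def Model.dg (M : Model N) (a : Fin M.na) (T : ℝ) (x : Cm (N + 1)) :
    Matrix (Fin (N + 1)) (Fin (N + 1)) ℂ :=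
  Matrix.diagonal fun l => (((if 1 ≤ M.m a l then (‖x l‖ ^ 2)⁻¹ else 0) + T : ℝ) : ℂ)

/-- the map `j a` read in the chart `e` -/
def Fib.g (F : Fib M Y t) (a : Fin M.na) (e : Chart N Y) : Cm N → Cm (N + 1) :=
  fun z => F.j a (e.symm z)

/-- the potential of the Ricci flat metric in logarithmic coordinates -/
def Fib.pot (F : Fib M Y t) (a : Fin M.na) (c : Cm (N + 1)) (Φ : Cm N → Y) (v : Cm N) : ℝ :=
  F.lam * M.ψ a (ex c (M.B a) v) + F.u (Φ v)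

/-- What the geometry gives on a tube: `φ` is the potential of the metric, `G` the barrier. -/
structure Tube (N : ℕ) (C₁ C₂ T R : ℝ) (φ G : Cm N → ℝ) : Prop where
  φ_sm : ∀ v ∈ Tb N R, ContDiffAt ℝ ∞ φ v
  G_sm : ∀ v ∈ Tb N R, ContDiffAt ℝ ∞ G v
  G_nn : ∀ v ∈ Tb N R, 0 ≤ G v
  G_zero : G 0 = 0
  G_per : ∀ v ∈ Tb N R, ∀ q, G (v + per q) = G v
  lo : ∀ v ∈ Tb N R, (cHess φ v - ((C₁⁻¹ * Real.exp (-(C₁ * G v / T)) : ℝ) : ℂ) •
    (1 : Matrix (Fin N) (Fin N) ℂ)).PosSemidef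
  det : ∀ v ∈ Tb N R, (cHess φ v).det.re ≤ C₁
  ric : ∀ v ∈ Tb N R, cHess (fun v' => Real.log (cHess φ v').det.re) v = 0
  Glo : ∀ v ∈ Tb N R, (cHess G v + (C₂ : ℂ) • (1 : Matrix (Fin N) (Fin N) ℂ)).PosSemidef
  Ghi : ∀ v ∈ Tb N R, ((C₁ : ℂ) • cHess φ v - cHess G v).PosSemidef
  mass : ∀ v₀, closedBall v₀ 1 ⊆ Tb N R →
    ∫ v in closedBall v₀ 1, (cHess φ v).trace.re ≤ C₁ * T ^ N

/-- Families of functions that are smooth, uniformly bounded and uniformly Hölder near `0`. -/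
def GK0 {N : ℕ} {ι : Type} (α : ℝ) (f : ι → Cm N → ℂ) : Prop :=
  ∃ r : ℝ, 0 < r ∧ (∀ i, ∀ x ∈ ball (0 : Cm N) r, ContDiffAt ℝ ∞ (f i) x) ∧
    R.UH α (ball (0 : Cm N) r) f

/-- The same for all derivatives up to order `q`. -/
def GK {N : ℕ} {ι : Type} (α : ℝ) : ℕ → (ι → Cm N → ℂ) → Prop
  | 0, f => GK0 α f
  | q + 1, f => GK0 α f ∧ ∀ b : Cm N, GK α q fun i x => fderiv ℝ (f i) x b

end Vale.Agent.P301Z.Key
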