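import Vale.Agent.P301Z.Key.Rows
import Vale.Agent.P299.H956.D1.RJac

/-!
# P301Z, block KEY: the local formulas
-/

open scoped Manifold ContDiff ComplexOrder Topology Matrix
open Set Metric Filter

noncomputable section

namespace Vale.Agent.P301Z.Key

open Vale.Agent.P272.K Vale.Agent.P299.H956

namespace BasX

theorem two_le : (2 : WithTop ℕ∞) ≤ ∞ := WithTop.coe_le_coe.2 (le_top : (2 : ℕ∞) ≤ ⊤)

theorem log_sm {n : ℕ} {h : Cm n → ℂ} {z : Cm n} (hh : ContDiffAt ℂ ω h z) (h0 : h z ≠ 0) :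
    ContDiffAt ℝ ∞ (fun y => Real.log (‖h y‖ ^ 2)) z :=
  (((hh.restrict_scalars ℝ).of_le le_top).norm_sq ℂ).log (by positivity)

theorem dz_log {n : ℕ} {h : Cm n → ℂ} {z : Cm n} (hh : DifferentiableAt ℂ h z) (h0 : h z ≠ 0)
    (p : Fin n) : dz p (fun y => ((Real.log (‖h y‖ ^ 2) : ℝ) : ℂ)) z = (h z)⁻¹ * dz p h z := by
  have h1 : DifferentiableAt ℝ h z := hh.restrictScalars ℝ
  have e : ∀ y, ((‖h y‖ ^ 2 : ℝ) : ℂ) = h y * cj (h y) := fun y => by
    rw [Complex.mul_conj, Complex.normSq_eq_norm_sq]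
  have h2 : cj (h z) ≠ 0 := by simpa using h0
  rw [C2.dz_comp_real p (u := fun y => ‖h y‖ ^ 2) (Real.hasDerivAt_log (by positivity))
    (h1.norm_sq ℂ), Complex.ofReal_inv]
  simp only [e]
  rw [dz_mul (g := fun y => cj (h y)) h1 (Complex.conjCLE.differentiableAt.comp z h1), dz_cj h1,
    dzb_of_holo hh, show cj 0 = 0 from map_zero _]
  field_simp
  ring

theorem dz_coord {n : ℕ} (p l : Fin n) (z : Cm n) :
    dz p (fun y : Cm n => y l) z = if l = p then 1 else 0 := by
  rw [dz_of_holo (differentiableAt_apply l z), (hasFDerivAt_apply l z).fderiv]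
  simp [Pi.single_apply]

variable {N : ℕ} {M : Model N} {a : Fin M.na} {i : Fin M.ni} {x : Cm (N + 1)}

theorem lg_all (hM : M.Good) (hx : x ∈ ball (0 : Cm (N + 1)) 2)
    (h0 : ∀ l, 1 ≤ M.m a l → x l ≠ 0) :
    ContDiffAt ℝ ∞ (M.lg a i) x ∧ cHess (M.lg a i) x = cHess (M.φ a i) x ∧
      ∀ l, dz l (fun y => (M.lg a i y : ℂ)) x =
        dz l (fun y => (M.φ a i y : ℂ)) x - if M.sig a i = some l then (x l)⁻¹ else 0 := by
  have h1 := hM.φ_sm a i x hx
  unfold Model.lg
  rcases hs : M.sig a i with _ | l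
  · simpa using h1
  · have h2 : x l ≠ 0 := h0 l ((hM.sig_iff a l).2 ⟨i, hs⟩)
    have h3 : ContDiffAt ℂ ω (fun y : Cm (N + 1) => y l) x := contDiffAt_apply ℂ ℂ l x
    have h4 := log_sm h3 h2
    simp only [Option.elim_some, Option.some.injEq]
    refine ⟨h1.sub h4, ?_, fun p => ?_⟩
    · rw [cHess_sub (h1.of_le two_le) (h4.of_le two_le),
        cHess_log_norm_sq h3 h2, sub_zero]
    · simp only [Complex.ofReal_sub]
      rw [dz_sub ((ofReal_contDiffAt h1).differentiableAt (by simp))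
        ((ofReal_contDiffAt h4).differentiableAt (by simp)),
        dz_log (differentiableAt_apply l x) h2, dz_coord]
      split_ifs with e
      · rw [e, mul_one]
      · rw [mul_zero]

end BasX

open BasX in
theorem bas : BAS := by
  intro N M hM Y _ _ _ t F ht
  have mem : ∀ a y, y ∈ F.U a → F.j a y ∈ ball (0 : Cm (N + 1)) 2 ∧
      M.cc a * ∏ l, F.j a y l ^ M.m a l = t := fun a y hy => by
    have : F.j a y ∈ F.j a '' F.U a := mem_image_of_mem _ hy
    rwa [F.img a] at this
  have ne : ∀ a y l, y ∈ F.U a → 1 ≤ M.m a l → F.j a y l ≠ 0 := fun a y l hy hl h0 => by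
    have h1 := (mem a y hy).2
    rw [Finset.prod_eq_zero (Finset.mem_univ l) (by rw [h0, zero_pow (by omega)]), mul_zero] at h1
    simp [TT, ← h1] at ht
  have hg : ∀ a (e : Chart N Y) y, At e y → F.g a e (e y) = F.j a y := fun a e y h => by
    rw [Fib.g, h.left_inv]
  have ev : ∀ a i (e : Chart N Y) y, At e y → y ∈ F.U a →
      (fun z => F.ρ i (e.symm z)) =ᶠ[𝓝 (e y)] fun z => M.lg a i (F.g a e z) := by
    intro a i e y h hy
    have : ∀ᶠ z in 𝓝 (e y), e.symm z ∈ F.U a :=
      (e.continuousAt_symm h.mem_target).eventually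
        ((F.opn a).mem_nhds (by rw [h.left_inv]; exact hy))
    filter_upwards [this] with z hz using F.ρ_eq a i _ hz
  have lg := fun a i y hy => lg_all (a := a) (i := i) hM (mem a y hy).1 fun l => ne a y l hy
  refine ⟨mem, ne, fun i e y h => ?_, fun a e y h hy => ?_, fun a i e y h hy => ?_,
    fun a i e y p h hy => ?_⟩
  · obtain ⟨a, hy, -⟩ := F.cov y
    refine ContDiffAt.congr_of_eventuallyEq ?_ (ev a i e y h hy)
    refine ContDiffAt.comp (e y) (g := M.lg a i) (f := F.g a e) ?_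
      (((F.hol a e y h hy).restrict_scalars ℝ).of_le le_top)
    rw [hg a e y h]
    exact (lg a i y hy).1
  · rw [F.χ_eq a e y h hy, ← hg a e y h]
    refine cHess_compR (f := M.ψ a) (τ := F.g a e) ?_ (F.hol a e y h hy)
    rw [hg a e y h]
    exact (hM.ψ_sm a _ (mem a y hy).1).of_le two_le
  · rw [cHess_congr (ev a i e y h hy), ← (lg a i y hy).2.1, ← hg a e y h]
    refine cHess_compR (f := M.lg a i) (τ := F.g a e) ?_ (F.hol a e y h hy)
    rw [hg a e y h]
    exact (lg a i y hy).1.of_le two_le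
  · rw [dz_congr (g := fun z => (M.lg a i (F.g a e z) : ℂ))
      ((ev a i e y h hy).mono fun z hz => congrArg _ hz),
      dz_compR (f := fun x => (M.lg a i x : ℂ)) (τ := F.g a e)
        (by
          rw [hg a e y h]
          exact (ofReal_contDiffAt (lg a i y hy).1).differentiableAt (by simp))
        ((F.hol a e y h hy).differentiableAt (by simp)), hg a e y h]
    exact Finset.sum_congr rfl fun l _ => by rw [(lg a i y hy).2.2 l]; rfl

end Vale.Agent.P301Z.Key
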