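import Vale.Agent.P301Z.Key.Rows

/-!
# P301Z, block KEY: the bootstrap for the Monge-Ampère equation
-/

open scoped ContDiff ComplexOrder Topology Matrix
open Set Metric Filter

noncomputable section

namespace Vale.Agent.P301Z.Key

open Vale.Agent.P272.K Vale.Agent.P272.K.C2

namespace BootX

variable {N : ℕ} {x : Cm N}

lemma three_le : (3 : WithTop ℕ∞) ≤ ∞ := WithTop.coe_le_coe.2 (le_top (a := (3 : ℕ∞)))

lemma DD_one (b : Cm N) (f : Cm N → ℂ) : DD 1 0 b b f = fun z => fderiv ℝ f z b := by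
  funext z
  simp [DD]

lemma fd_real (v : Cm N → ℝ) (x b : Cm N) :
    fderiv ℝ (fun y => (v y : ℂ)) x b = ((fderiv ℝ v x b : ℝ) : ℂ) := by
  by_cases h : DifferentiableAt ℝ v x
  · have h1 : HasFDerivAt (fun y => (v y : ℂ)) (Complex.ofRealCLM.comp (fderiv ℝ v x)) x :=
      Complex.ofRealCLM.hasFDerivAt.comp x h.hasFDerivAt
    rw [h1.fderiv]
    rfl
  · rw [fderiv_zero_of_not_differentiableAt h, fderiv_zero_of_not_differentiableAt]
    · simp
    · intro h'
      exact h (by simpa [Function.comp_def] using (Complex.reCLM.differentiableAt.comp x h'))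

/-- directional derivatives commute with the complex Hessian -/
lemma fd_cHess {v : Cm N → ℝ} (hv : ContDiffAt ℝ ∞ v x) (b : Cm N) (p p' : Fin N) :
    fderiv ℝ (fun y => cHess v y p p') x b = cHess (fun y => fderiv ℝ v y b) x p p' := by
  have h3 : ContDiffAt ℝ 3 (fun y => (v y : ℂ)) x :=
    contDiffAt_ofReal (hv.of_le three_le)
  have h2 : ContDiffAt ℝ 2 (dzb p' fun y => (v y : ℂ)) x := contDiffAt_dzb _ h3 (by norm_num)
  have e1 : (fun y => ((fderiv ℝ v y b : ℝ) : ℂ)) = DD 1 0 b b fun y => (v y : ℂ) := by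
    rw [DD_one]
    exact funext fun y => (fd_real v y b).symm
  have e2 : (dzb p' (DD 1 0 b b fun y => (v y : ℂ))) =ᶠ[𝓝 x]
      DD 1 0 b b (dzb p' fun y => (v y : ℂ)) := by
    filter_upwards [(h3.of_le (m := 2) (by norm_num)).eventually (by simp)] with y hy
    rw [dzb_eq_DD', dzb_eq_DD']
    exact DD_comm _ _ _ _ _ _ _ _ hy
  rw [C2.cHess_apply, e1, dz_congr _ e2, dz_eq_DD, DD_comm _ _ _ _ _ _ _ _ h2, ← dz_eq_DD', DD_one]
  rfl

/-- the derivative of the logarithm of the determinant -/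
lemma fd_logdet {G : Cm N → Matrix (Fin N) (Fin N) ℂ} (hG : MC 1 G x)
    (hpos : ∀ᶠ y in 𝓝 x, (G y).PosDef) (b : Cm N) :
    fderiv ℝ (fun y => ((Real.log (G y).det.re : ℝ) : ℂ)) x b =
      ((G x)⁻¹ * Matrix.of fun i j => fderiv ℝ (fun y => G y i j) x b).trace := by
  have one : (1 : WithTop ℕ∞) ≠ 0 := by norm_num
  have h3 : (G x).PosDef := hpos.self_of_nhds
  have hd : DifferentiableAt ℝ (fun y => (G y).det.re) x :=
    Complex.reCLM.differentiableAt.comp x (hG.det.differentiableAt one)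
  have h1 := DD_comp_real 1 0 b b (Real.hasDerivAt_log (det_re_pos h3).ne') hd
  have e2 : (fun y => (((G y).det.re : ℝ) : ℂ)) =ᶠ[𝓝 x] fun y => (G y).det := by
    filter_upwards [hpos] with y' h4 using det_re_eq h4
  rw [DD_congr 1 0 b b e2, DD_det 1 0 b b (hG.md one)] at h1
  simp only [DD_one] at h1
  rw [h1, Matrix.inv_def, Ring.inverse_eq_inv', Matrix.smul_mul, Matrix.trace_smul, smul_eq_mul,
    Complex.ofReal_inv, det_re_eq h3]

variable {α : ℝ} {ι : Type}

lemma gk0 {q : ℕ} {f : ι → Cm N → ℂ} (h : GK α q f) : GK0 α f := by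
  cases q with
  | zero => exact h
  | succ q => exact h.1

lemma le (A : GKAlg N α) {q q' : ℕ} (hq : q ≤ q') {f : ι → Cm N → ℂ} (h : GK α q' f) :
    GK α q f := by
  induction hq with
  | refl => exact h
  | step _ ih => exact ih (A.mono _ _ _ h)

lemma sub (A : GKAlg N α) {q : ℕ} {f g : ι → Cm N → ℂ} (hf : GK α q f) (hg : GK α q g) :
    GK α q fun i x => f i x - g i x := by
  refine A.congr _ _ _ _ ⟨1, one_pos, fun i x _ => ?_⟩
    (A.add _ _ _ _ hf (A.mul _ _ _ _ (A.const ι q (-1)) hg))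
  ring

lemma tr (A : GKAlg N α) {q : ℕ} {P Q : ι → Cm N → Matrix (Fin N) (Fin N) ℂ}
    (hP : ∀ p p', GK α q fun i x => P i x p p') (hQ : ∀ p p', GK α q fun i x => Q i x p p') :
    GK α q fun i x => (P i x * Q i x).trace :=
  A.sum ι (Fin N) Finset.univ q (fun p i x => ∑ p', P i x p p' * Q i x p' p) fun p _ =>
    A.sum ι (Fin N) Finset.univ q (fun p' i x => P i x p p' * Q i x p' p) fun p' _ =>
      A.mul _ _ _ _ (hP p p') (hQ p' p)

/-- a finite family is smooth on a common ball -/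
lemma sm_mat {q : ℕ} {P : ι → Cm N → Matrix (Fin N) (Fin N) ℂ}
    (hP : ∀ p p', GK α q fun i x => P i x p p') :
    ∀ᶠ x in 𝓝 (0 : Cm N), ∀ i p p', ContDiffAt ℝ ∞ (fun y => P i y p p') x := by
  have h1 : ∀ᶠ x in 𝓝 (0 : Cm N), ∀ p p' i, ContDiffAt ℝ ∞ (fun y => P i y p p') x := by
    refine eventually_all.2 fun p => eventually_all.2 fun p' => ?_
    obtain ⟨r, hr, h, -⟩ := gk0 (hP p p')
    filter_upwards [ball_mem_nhds (0 : Cm N) hr] with x hx i using h i x hx
  filter_upwards [h1] with x hx i p p' using hx p p' i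

lemma sm_real {q : ℕ} {v : ι → Cm N → ℝ} (hv : GK α q fun i x => (v i x : ℂ)) :
    ∀ᶠ x in 𝓝 (0 : Cm N), ∀ i, ContDiffAt ℝ ∞ (v i) x := by
  obtain ⟨r, hr, h, -⟩ := gk0 hv
  filter_upwards [ball_mem_nhds (0 : Cm N) hr] with x hx i
  exact Complex.reCLM.contDiff.contDiffAt.comp x (h i x hx)

lemma congr (A : GKAlg N α) {q : ℕ} {f g : ι → Cm N → ℂ}
    (h : ∀ᶠ x in 𝓝 (0 : Cm N), ∀ i, f i x = g i x) (hf : GK α q f) : GK α q g := by
  obtain ⟨r, hr, h1⟩ := Metric.eventually_nhds_iff_ball.1 h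
  exact A.congr _ _ _ _ ⟨r, hr, fun i x hx => h1 x hx i⟩ hf

lemma der {q : ℕ} {v : ι → Cm N → ℝ} (hv : GK α (q + 1) fun i x => (v i x : ℂ)) (b : Cm N) :
    GK α q fun i x => ((fderiv ℝ (v i) x b : ℝ) : ℂ) := by
  simpa only [fd_real] using hv.2 b

lemma succ {q : ℕ} {v : ι → Cm N → ℝ} (h0 : GK0 α fun i x => (v i x : ℂ))
    (hv : ∀ b : Cm N, GK α q fun i x => ((fderiv ℝ (v i) x b : ℝ) : ℂ)) :
    GK α (q + 1) fun i x => (v i x : ℂ) :=
  ⟨h0, fun b => by simpa only [fd_real] using hv b⟩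

lemma posDef {H : Matrix (Fin N) (Fin N) ℂ} {lam : ℝ} (hl : 0 < lam)
    (h : (H - (lam : ℂ) • (1 : Matrix (Fin N) (Fin N) ℂ)).PosSemidef) : H.PosDef := by
  have h1 : ((lam : ℂ) • (1 : Matrix (Fin N) (Fin N) ℂ)).PosDef :=
    Matrix.PosDef.one.smul (by exact_mod_cast hl)
  simpa using h1.add_posSemidef h

end BootX

open BootX in
/-- **BOOT** -/
theorem boot_of (hA : GKA) (hL : ∀ q, LINq q) : BOOT := by
  intro N α h0 h1 ι K v f hK hf hv ⟨r, lam, hr, hl, hH⟩ q
  have A := hA N α h0 h1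
  induction q with
  | zero => exact hv
  | succ q ih =>
    refine succ (gk0 hv) fun b => ?_
    have h2 : ∀ p p', GK α q fun i x => (K i x + cHess (v i) x) p p' := fun p p' =>
      A.add _ _ _ _ (hK q p p') (A.hess _ _ _ ih p p')
    obtain ⟨h3, h4⟩ := A.inv ι q (fun i x => K i x + cHess (v i) x) h2
      ⟨r, lam, hr, hl, fun i x hx => (hH i x hx).1⟩
    refine hL q N α h0 h1 ι (fun i x => (K i x + cHess (v i) x)⁻¹)
      (fun i x => fderiv ℝ (v i) x b) h3 h4 (le A (by omega) (der ih b)) ?_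
    have h5 := sub A ((hf (q + 1)).2 b) (tr A (Q := fun i x => Matrix.of fun p p' =>
      fderiv ℝ (fun y => K i y p p') x b) h3 fun p p' => (hK (q + 1) p p').2 b)
    refine congr A ?_ h5
    filter_upwards [sm_mat (hK 0), sm_real hv, (isOpen_ball.eventually_mem
      (mem_ball_self hr)).eventually_nhds] with x k1 k2 k3 i
    have k4 : ∀ p p', ContDiffAt ℝ 1 (fun y => cHess (v i) y p p') x := fun p p' =>
      C2.contDiffAt_cHess ((k2 i).of_le three_le) (by norm_num) p p'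
    have k5 : ∀ p p', ContDiffAt ℝ 1 (fun y => K i y p p') x := fun p p' =>
      (k1 i p p').of_le (by exact_mod_cast le_top)
    have k6 : MC 1 (fun y => K i y + cHess (v i) y) x := fun p p' => (k5 p p').add (k4 p p')
    have k7 : (fun y => (f i y : ℂ)) =ᶠ[𝓝 x]
        fun y => ((Real.log (K i y + cHess (v i) y).det.re : ℝ) : ℂ) := by
      filter_upwards [k3] with y hy
      rw [(hH i y hy).2]
    have k8 := fd_logdet k6 (k3.mono fun y hy => posDef hl (hH i y hy).1) b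
    show fderiv ℝ (fun y => (f i y : ℂ)) x b - _ = _
    rw [k7.fderiv_eq, k8, ← Matrix.trace_sub, ← Matrix.mul_sub]
    congr 2
    ext p p'
    simp only [Matrix.sub_apply, Matrix.of_apply, Matrix.add_apply]
    rw [fderiv_fun_add ((k5 p p').differentiableAt one_ne_zero)
      ((k4 p p').differentiableAt one_ne_zero), _root_.add_apply, fd_cHess (k2 i),
      add_sub_cancel_left]

end Vale.Agent.P301Z.Key
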