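import Vale.Agent.P301Z.Key.Cl0

/-! P301, KEY: lower supports for the logarithm of the trace. -/

open scoped Manifold ContDiff ComplexOrder Topology Matrix
open Set Metric Filter

noncomputable section

namespace Vale.Agent.P301Z.Key

open Vale.Agent.P272.K
open Vale.Agent.P272.K.C2 (tau)

namespace ClX

variable {N : ℕ} {M : Model N}

theorem psi_low (hM : M.Good) (a : Fin M.na) : ∃ C : ℝ, 0 ≤ C ∧
    ∀ x ∈ closedBall (0 : Cm (N + 1)) 1, ((C : ℂ) • cHess (M.ψ a) x - 1).PosSemidef := by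
  have hs : closedBall (0 : Cm (N + 1)) 1 ⊆ ball 0 2 := closedBall_subset_ball one_lt_two
  obtain ⟨B, hB0, hB⟩ : ∃ B : ℝ, 0 ≤ B ∧ ∀ x ∈ closedBall (0 : Cm (N + 1)) 1, ∀ i j,
      ‖(cHess (M.ψ a) x)⁻¹ i j‖ ≤ B := by
    have h1 : ∀ i j, ∃ B : ℝ, ∀ x ∈ closedBall (0 : Cm (N + 1)) 1,
        ‖(cHess (M.ψ a) x)⁻¹ i j‖ ≤ B := fun i j =>
      (isCompact_closedBall _ _).exists_bound_of_continuousOn fun x hx =>
        (C2.MC.inv (m := 0)
          (fun i j => C2.contDiffAt_cHess (hM.ψ_sm a x (hs hx)) (by norm_cast) i j)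
          (hM.ψ_pos a x (hs hx)).det_pos.ne' i j).continuousAt.continuousWithinAt
    choose B hB using h1
    obtain ⟨B', h⟩ := Finite.exists_le fun q : Fin (N + 1) × Fin (N + 1) => B q.1 q.2
    exact ⟨|B'|, abs_nonneg _, fun x hx i j => (hB i j x hx).trans ((h (i, j)).trans (le_abs_self _))⟩
  exact ⟨Fintype.card (Fin (N + 1)) * B, by positivity, fun x hx =>
    Sup.low_of_inv (hM.ψ_pos a x (hs hx)) (hB x hx)⟩

theorem tr_mono {P A B : Matrix (Fin N) (Fin N) ℂ} (hP : P.PosSemidef) (h : (A - B).PosSemidef) :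
    (P * B).trace.re ≤ (P * A).trace.re := by
  have := (Complex.le_def.1 (C2.trace_mul_nonneg hP h)).1
  rw [Matrix.mul_sub, Matrix.trace_sub, Complex.sub_re, Complex.zero_re] at this
  linarith

theorem tr_smul (P A : Matrix (Fin N) (Fin N) ℂ) (c : ℝ) :
    (P * ((c : ℂ) • A)).trace.re = c * (P * A).trace.re := by
  rw [Matrix.mul_smul, Matrix.trace_smul, smul_eq_mul, Complex.re_ofReal_mul]

theorem pb_psd {p : ℕ} (g : Cm N → Cm p) {Q : Matrix (Fin p) (Fin p) ℂ} (hQ : Q.PosSemidef)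
    (z : Cm N) : (pb g Q z).PosSemidef := by
  have : (jr g z).map (starRingEnd ℂ) = ((jr g z)ᵀ)ᴴ := by ext i j; simp
  rw [pb, this]
  exact hQ.mul_mul_conjTranspose_same _

end ClX

open ClX in
theorem cl : CL := by
  intro N hN M hM K hK
  have : NeZero N := ⟨by omega⟩
  choose C₁ hC₁ h₁ using fun a : Fin M.na => Sup.sup (Bm M a K)
    (fun ε x hx i j => Bm_smooth hM K ε hx i j) fun ε _ x hx => Bm_pos hM hK ε hx
  choose C₂ hC₂ h₂ using fun a : Fin M.na => psi_low hM a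
  obtain ⟨C, hC⟩ := Finite.exists_le fun a => C₁ a * C₂ a / K
  refine ⟨|C| + 1, by positivity, ?_⟩
  intro Y _ _ _ t F hT hB hH e y h
  have hT0 : 0 < TT t := by linarith
  obtain ⟨a, hy, hx⟩ := F.cov y
  obtain ⟨σ, hσ⟩ : ∃ σ, σ = Real.sqrt (TT t) := ⟨_, rfl⟩
  have hσ1 : 1 ≤ σ := by rw [hσ]; exact Real.one_le_sqrt.2 hT
  have hσ0 : 0 < σ := by linarith
  have hσT : σ * σ = TT t := by rw [hσ]; exact Real.mul_self_sqrt hT0.le
  obtain ⟨Q, hQa, hQ0, hQ⟩ := h₁ a σ⁻¹ ⟨by positivity, inv_le_one_of_one_le₀ hσ1⟩ (F.j a y)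
    (ball_subset_closedBall hx)
  have hg : ContDiffAt ℂ ω (F.g a e) (e y) := F.hol a e y h hy
  have hg0 : F.g a e (e y) = F.j a y := by rw [Fib.g, h.left_inv]
  obtain ⟨K', hK'⟩ : ∃ K' : Cm N → Matrix (Fin N) (Fin M.ni ⊕ Fin (N + 1)) ℂ,
    K' = fun z => Km M a σ (F.g a e) z * Q (F.g a e z) := ⟨_, rfl⟩
  have hKa : ∀ i j, AnalyticAt ℂ (fun z => K' z i j) (e y) := fun i j => by
    simp only [hK', Matrix.mul_apply]
    refine Finset.analyticAt_fun_sum _ fun k _ => AnalyticAt.mul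
      (Km_an hg (fun i l hl => ?_) i k) (AnalyticAt.comp (g := fun x => Q x k j) (hQa _ k j)
        hg.analyticAt)
    rw [hg0]
    exact hB.ne a y l hy ((hM.sig_iff a l).2 ⟨i, hl⟩)
  have hKK : ∀ z, K' z * (K' z)ᴴ = Km M a σ (F.g a e) z *
      (Q (F.g a e z) * (Q (F.g a e z))ᴴ) * (Km M a σ (F.g a e) z)ᴴ := fun z => by
    simp only [hK', Matrix.conjTranspose_mul, Matrix.mul_assoc]
  have h0 : K' (e y) * (K' (e y))ᴴ = F.Hh K e (e y) := by
    rw [hKK, hg0, hQ0, Hh_eq hB K hσ0 hσT h hy]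
  have hm : ∀ m, C2.MC m (fun z => K' z * (K' z)ᴴ) (e y) := fun m =>
    (Flt.mc_of_an hKa m).mul (Flt.mc_of_an hKa m).conjTranspose
  have hp : ∀ᶠ z in 𝓝 (e y), (K' z * (K' z)ᴴ).PosDef := by
    filter_upwards [C2.det_ne_zero_eventually (hm 0)
      (by rw [h0]; exact (hH.herm.posDef e y h).det_pos.ne')] with z hz
    exact (Matrix.posSemidef_self_mul_conjTranspose _).posDef_iff_det_ne_zero.2 hz
  have hw : C2.MC 2 (F.w e) (e y) := C2.mc_of_smooth F.w_k.toIsHermitian h 2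
  have hwp := C2.eventually_posDef F.w_k.posDef h
  have hwc : ∀ᶠ z in 𝓝 (e y), ∀ i j k,
      dz k (fun y => F.w e y i j) z = dz i (fun y => F.w e y k j) z := by
    filter_upwards [h.nhds_target] with z hz i j k
    have := F.w_k.closed e (e.symm z) (At.of_target h.1 hz) i j k
    rwa [e.right_inv hz] at this
  have hfl := Flt.flat hw hwp hwc (F.ric e y h) hKa hp
  obtain ⟨τ, hτ⟩ : ∃ τ, τ = tau (F.w e) fun z => K' z * (K' z)ᴴ := ⟨_, rfl⟩
  rw [← hτ] at hfl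
  have hτp : ∀ᶠ z in 𝓝 (e y), 0 < τ z := by
    filter_upwards [hwp, hp] with z h1 h2
    rw [hτ]; exact C2.trace_re_pos h1 h2
  have hτs : ContDiffAt ℝ 2 τ (e y) := by
    rw [hτ]
    exact Complex.reCLM.contDiff.contDiffAt.comp _
      ((hw.inv hwp.self_of_nhds.det_pos.ne').mul (hm 2)).trace
  have hl : ContDiffAt ℝ 2 (fun z => Real.log (τ z)) (e y) := hτs.log hτp.self_of_nhds.ne'
  have hq : ContDiffAt ℝ 2 (fun z => ∑ l, ‖F.g a e z l - F.j a y l‖ ^ 2) (e y) :=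
    ContDiffAt.comp (g := fun x => ∑ l, ‖x l - F.j a y l‖ ^ 2) (e y) (sq_smooth _ _)
      ((hg.restrict_scalars ℝ).of_le le_top)
  refine ⟨fun z => -C₁ a * ∑ l, ‖F.g a e z l - F.j a y l‖ ^ 2 + Real.log (τ z),
    (contDiffAt_const.mul hq).add hl, ?_, ?_, ?_⟩
  · simp [hg0, hτ, tau, h0]
  · have hU : ∀ᶠ z in 𝓝 (e y), e.symm z ∈ F.U a :=
      (e.continuousAt_symm h.mem_target).eventually
        (by rw [h.left_inv]; exact (F.opn a).mem_nhds hy)
    rw [← hg0] at hQ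
    filter_upwards [h.nhds_target, hU, hg.continuousAt.eventually hQ, hτp, hwp] with z hz hzU hzQ
      hzτ hzw
    have e1 := Hh_eq hB K hσ0 hσT (At.of_target h.1 hz) hzU
    rw [e.right_inv hz] at e1
    have h1 := hzQ.mul_mul_conjTranspose_same (Km M a σ (F.g a e) z)
    rw [Matrix.mul_sub, Matrix.sub_mul, Matrix.mul_smul, Matrix.smul_mul, ← hKK, hg0] at h1
    have h2 := tr_mono hzw.inv.posSemidef h1
    rw [tr_smul] at h2
    have h3 : Real.exp (-(C₁ a * ∑ l, ‖F.g a e z l - F.j a y l‖ ^ 2)) * τ z ≤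
        tau (F.w e) (F.Hh K e) z := by
      rw [tau, e1, hτ]; exact h2
    have h4 := Real.log_le_log (by positivity) h3
    rwa [Real.log_mul (Real.exp_pos _).ne' hzτ.ne', Real.log_exp, ← neg_mul] at h4
  · have e1 : cHess (fun z => ∑ l, ‖F.g a e z l - F.j a y l‖ ^ 2) (e y) = pb (F.g a e) 1 (e y) := by
      rw [← cHess_sq (F.j a y) (F.g a e (e y))]
      exact P299.H956.cHess_compR (f := fun x => ∑ l, ‖x l - F.j a y l‖ ^ 2) (sq_smooth _ _) hg
    have hP := hwp.self_of_nhds.inv.posSemidef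
    have h1 := pb_psd (F.g a e) (h₂ a _ (ball_subset_closedBall hx)) (e y)
    have e2 : pb (F.g a e) ((C₂ a : ℂ) • cHess (M.ψ a) (F.j a y) - 1) (e y) =
        (C₂ a : ℂ) • F.χ e (e y) - pb (F.g a e) 1 (e y) := by
      rw [hB.χ_pb a e y h hy]
      simp only [pb, Matrix.mul_sub, Matrix.sub_mul, Matrix.mul_smul, Matrix.smul_mul]
    rw [e2] at h1
    have h2 := tr_mono hP h1
    have h3 := tr_mono hP (A := F.Hh K e (e y)) (B := ((K * TT t : ℝ) : ℂ) • F.χ e (e y))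
      (by simpa [Fib.Hh] using hH.P_psd e y h)
    rw [tr_smul] at h2 h3
    rw [C2.cHess_add (contDiffAt_const.mul hq) hl, C2.cHess_const_mul _ hq, e1, Matrix.mul_add,
      Matrix.trace_add, Complex.add_re, tr_smul, tau]
    have h4 : 0 ≤ ((F.w e (e y))⁻¹ * F.χ e (e y)).trace.re :=
      (Complex.le_def.1 (C2.trace_mul_nonneg hP (F.χ_k.posDef e y h).posSemidef)).1
    have h5 : C₁ a * C₂ a ≤ (|C| + 1) * K := by
      have := (div_le_iff₀ hK).1 ((hC a).trans (le_abs_self C))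
      linarith
    have h6 := mul_le_mul_of_nonneg_left h2 (hC₁ a).le
    have h7 := mul_le_mul_of_nonneg_right h5 h4
    have h8 := mul_le_mul_of_nonneg_left h3 (by positivity : 0 ≤ (|C| + 1) / TT t)
    have h9 : (|C| + 1) / TT t * (K * TT t * ((F.w e (e y))⁻¹ * F.χ e (e y)).trace.re) =
        (|C| + 1) * K * ((F.w e (e y))⁻¹ * F.χ e (e y)).trace.re := by field_simp
    nlinarith

end Vale.Agent.P301Z.Key
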