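import Vale.Agent.P301Z.Key.Rows
import Vale.Agent.P272.K.Inv.Consts

/-!
# P301Z, block KEY: comparison with the diagonal model form
-/

open scoped Manifold ContDiff ComplexOrder Topology Matrix
open Set Metric

noncomputable section

namespace Vale.Agent.P301Z.Key

open Vale.Agent.P272.K

namespace CmpX

variable {p : ℕ} {ι : Type} [Fintype ι]

/-- the Gram matrix of a family of covectors -/
def gr (a : ι → Fin p → ℂ) : Matrix (Fin p) (Fin p) ℂ :=
  Matrix.of fun l l' => ∑ i, a i l * (starRingEnd ℂ) (a i l')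

lemma gr_herm (a : ι → Fin p → ℂ) : (gr a).IsHermitian := by
  ext l l'
  simp [gr, Matrix.conjTranspose_apply, mul_comm]

lemma quad_gr (a : ι → Fin p → ℂ) (ξ : Cm p) :
    (quad (gr a) ξ).re = ∑ i, ‖∑ l, a i l * ξ l‖ ^ 2 := by
  have : quad (gr a) ξ = ∑ i, (∑ l, a i l * ξ l) * (starRingEnd ℂ) (∑ l, a i l * ξ l) := by
    simp only [quad, gr, Matrix.of_apply, map_sum, map_mul, Finset.sum_mul, Finset.mul_sum]
    rw [Finset.sum_comm]
    refine (Finset.sum_congr rfl fun _ _ => Finset.sum_comm).trans (Finset.sum_comm.trans ?_)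
    refine Finset.sum_congr rfl fun i _ => Finset.sum_congr rfl fun l _ =>
      Finset.sum_congr rfl fun l' _ => ?_
    ring
  rw [this, Complex.re_sum]
  refine Finset.sum_congr rfl fun i _ => ?_
  rw [Complex.mul_conj, Complex.ofReal_re, Complex.normSq_eq_norm_sq]

lemma gr_pb {n : ℕ} (a : ι → Fin p → ℂ) (J : Matrix (Fin p) (Fin n) ℂ) :
    Jᵀ * gr a * J.map (starRingEnd ℂ) = gr fun i q => ∑ l, a i l * J l q := by
  ext q q'
  simp only [gr, Matrix.mul_apply, Matrix.of_apply, Matrix.transpose_apply, Matrix.map_apply,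
    map_sum, map_mul, Finset.sum_mul, Finset.mul_sum]
  refine (Finset.sum_congr rfl fun _ _ => Finset.sum_comm).trans (Finset.sum_comm.trans ?_)
  refine Finset.sum_congr rfl fun i _ => Finset.sum_congr rfl fun l _ =>
    Finset.sum_congr rfl fun l' _ => ?_
  ring

lemma quad_diag (d : Fin p → ℝ) (ξ : Cm p) :
    (quad (Matrix.diagonal fun l => (d l : ℂ)) ξ).re = ∑ l, d l * ‖ξ l‖ ^ 2 := by
  rw [quad, Complex.re_sum]
  refine Finset.sum_congr rfl fun l _ => ?_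
  rw [Finset.sum_eq_single l (fun k _ hk => by rw [Matrix.diagonal_apply_ne _ hk.symm, zero_mul])
    (fun h => absurd (Finset.mem_univ l) h), Matrix.diagonal_apply_eq, Complex.mul_conj,
    Complex.normSq_eq_norm_sq, ← Complex.ofReal_mul, Complex.ofReal_re]

lemma quad_one (ξ : Cm p) : (quad 1 ξ).re = ∑ l, ‖ξ l‖ ^ 2 := by
  have := quad_diag (fun _ : Fin p => (1 : ℝ)) ξ
  simpa using this

lemma quad_comb (c : ℝ) (A B : Matrix (Fin p) (Fin p) ℂ) (ξ : Cm p) :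
    (quad ((c : ℂ) • A - B) ξ).re = c * (quad A ξ).re - (quad B ξ).re := by
  have : quad ((c : ℂ) • A - B) ξ = c * quad A ξ - quad B ξ := by
    simp only [quad, Matrix.sub_apply, Matrix.smul_apply, smul_eq_mul, sub_mul,
      Finset.sum_sub_distrib, Finset.mul_sum, mul_assoc]
  rw [this, Complex.sub_re, Complex.re_ofReal_mul]

lemma quad_add (c : ℝ) (A B : Matrix (Fin p) (Fin p) ℂ) (ξ : Cm p) :
    (quad (A + (c : ℂ) • B) ξ).re = (quad A ξ).re + c * (quad B ξ).re := by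
  have : quad (A + (c : ℂ) • B) ξ = quad A ξ + c * quad B ξ := by
    simp only [quad, Matrix.add_apply, Matrix.smul_apply, smul_eq_mul, add_mul,
      Finset.sum_add_distrib, Finset.mul_sum, mul_assoc]
  rw [this, Complex.add_re, Complex.re_ofReal_mul]

lemma herm_smul (c : ℝ) {A : Matrix (Fin p) (Fin p) ℂ} (hA : A.IsHermitian) :
    ((c : ℂ) • A).IsHermitian := by
  rw [Matrix.IsHermitian, Matrix.conjTranspose_smul, hA.eq]
  simp

lemma psd_pb {n : ℕ} {A B : Matrix (Fin p) (Fin p) ℂ} {c : ℝ} (hA : A.IsHermitian)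
    (hB : B.IsHermitian) (h : ∀ ξ, (quad B ξ).re ≤ c * (quad A ξ).re) (g : Cm n → Cm p)
    (z : Cm n) : ((c : ℂ) • pb g A z - pb g B z).PosSemidef := by
  have h1 : ((c : ℂ) • A - B).PosSemidef :=
    posSemidef_of_quad ((herm_smul c hA).sub hB) fun ξ => by
      rw [quad_comb]
      linarith [h ξ]
  have h2 := h1.conjTranspose_mul_mul_same ((jr g z).map (starRingEnd ℂ))
  have h3 : ((jr g z).map (starRingEnd ℂ)).conjTranspose = (jr g z)ᵀ := by
    ext i j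
    simp [Matrix.conjTranspose_apply, Matrix.map_apply]
  rw [h3, Matrix.mul_sub, Matrix.sub_mul, Matrix.mul_smul, Matrix.smul_mul] at h2
  exact h2

lemma sq_sub (u v : ℂ) : ‖u - v‖ ^ 2 ≤ 2 * ‖u‖ ^ 2 + 2 * ‖v‖ ^ 2 := by
  have h := norm_sub_le u v
  have h0 := norm_nonneg (u - v)
  nlinarith [sq_nonneg (‖u‖ - ‖v‖)]

variable {N : ℕ} (M : Model N)

/-- the differential of `ρ i` in the chart `a` -/
def av (a : Fin M.na) (x : Cm (N + 1)) (i : Fin M.ni) (l : Fin (N + 1)) : ℂ :=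
  dz l (fun x => (M.φ a i x : ℂ)) x - if M.sig a i = some l then (x l)⁻¹ else 0

/-- the ambient form -/
def Qm (a : Fin M.na) (c : ℝ) (x : Cm (N + 1)) : Matrix (Fin (N + 1)) (Fin (N + 1)) ℂ :=
  gr (av M a x) + (c : ℂ) • cHess (M.ψ a) x

lemma amb (hM : M.Good) {K : ℝ} (hK : 0 < K) (a : Fin M.na) : ∃ C : ℝ, 0 < C ∧ ∀ C', C ≤ C' →
    ∀ T, 1 ≤ T → ∀ x ∈ ball (0 : Cm (N + 1)) 1, ∀ ξ,
      (quad (M.dg a T x) ξ).re ≤ C' * (quad (Qm M a (K * T) x) ξ).re ∧
      (quad (Qm M a (K * T) x) ξ).re ≤ C' * (quad (M.dg a T x) ξ).re := by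
  have hsub : closedBall (0 : Cm (N + 1)) 1 ⊆ ball 0 2 := closedBall_subset_ball (by norm_num)
  have hinf : (∞ : WithTop ℕ∞) + 1 ≤ ∞ := le_rfl
  have hH : ∀ i j, ContinuousOn (fun z => cHess (M.ψ a) z i j) (closedBall 0 1) :=
    fun i j z hz => (contDiffAt_cHess (m := ∞) (hM.ψ_sm a z (hsub hz)) le_rfl i
      j).continuousAt.continuousWithinAt
  have hd : ∀ i l, ContinuousOn (fun z => dz l (fun x => (M.φ a i x : ℂ)) z) (closedBall 0 1) :=
    fun i l z hz => (contDiffAt_dz (m := ∞) (ofReal_contDiffAt (hM.φ_sm a i z (hsub hz)))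
      hinf).continuousAt.continuousWithinAt
  have h1 : ∀ i j, ContinuousOn (fun _ : Cm (N + 1) =>
      (1 : Matrix (Fin (N + 1)) (Fin (N + 1)) ℂ) i j) (closedBall 0 1) :=
    fun _ _ => continuousOn_const
  obtain ⟨C₁, hC₁, b₁⟩ := exists_quad_lower (isCompact_closedBall 0 1) (fun _ => 1)
    (fun z => gr fun i l => dz l (fun x => (M.φ a i x : ℂ)) z) h1
    (fun l l' => by
      simp only [gr, Matrix.of_apply]
      exact continuousOn_finsetSum _ fun i _ => (hd i l).mul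
        (Complex.continuous_conj.comp_continuousOn (hd i l'))) fun _ _ => Matrix.PosDef.one
  obtain ⟨C₂, hC₂, b₂⟩ := exists_quad_lower (isCompact_closedBall 0 1) (cHess (M.ψ a))
    (fun _ => 1) hH h1 fun z hz => hM.ψ_pos a z (hsub hz)
  obtain ⟨C₃, hC₃, b₃⟩ := exists_quad_lower (isCompact_closedBall 0 1) (fun _ => 1)
    (cHess (M.ψ a)) h1 hH fun _ _ => Matrix.PosDef.one
  obtain ⟨D, hD⟩ : ∃ D : ℝ, D = (2 * (N + 1) * C₁ + 1) * C₂ / K := ⟨_, rfl⟩
  have hD0 : 0 < D := by rw [hD]; positivity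
  refine ⟨2 * C₁ + 2 * M.ni + K * C₃ + 2 * (N + 1) + D, by positivity, ?_⟩
  intro C' hC' T hT x hx ξ
  have hx' := ball_subset_closedBall hx
  have c₁ := b₁ x hx' ξ
  have c₂ := b₂ x hx' ξ
  have c₃ := b₃ x hx' ξ
  have hh := quad_nonneg (hM.ψ_pos a x (hsub hx')).posSemidef ξ
  rw [quad_gr] at c₁
  rw [quad_one] at c₁ c₂ c₃
  rw [Qm, quad_add, quad_gr, Model.dg, quad_diag]
  obtain ⟨α, hα⟩ : ∃ α : Fin M.ni → ℂ, ∀ i,
    α i = ∑ l, dz l (fun x => (M.φ a i x : ℂ)) x * ξ l := ⟨_, fun _ => rfl⟩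
  obtain ⟨β, hβ⟩ : ∃ β : Fin M.ni → ℂ, ∀ i,
    β i = ∑ l, (if M.sig a i = some l then (x l)⁻¹ else 0) * ξ l := ⟨_, fun _ => rfl⟩
  obtain ⟨τ, hτ⟩ : ∃ τ : Fin (N + 1) → ℝ, ∀ l,
    τ l = (if 1 ≤ M.m a l then (‖x l‖ ^ 2)⁻¹ else 0) * ‖ξ l‖ ^ 2 := ⟨_, fun _ => rfl⟩
  have e1 : ∀ i, ∑ l, av M a x i l * ξ l = α i - β i := fun i => by
    simp only [av, sub_mul, Finset.sum_sub_distrib, hα, hβ]
  have e2 : ∑ l, ((if 1 ≤ M.m a l then (‖x l‖ ^ 2)⁻¹ else 0) + T) * ‖ξ l‖ ^ 2 =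
      ∑ l, τ l + T * ∑ l, ‖ξ l‖ ^ 2 := by
    simp only [add_mul, Finset.sum_add_distrib, hτ, Finset.mul_sum]
  simp only [e1, e2]
  simp only [← hα] at c₁
  have hτ0 : ∀ l, 0 ≤ τ l := fun l => by
    rw [hτ]
    split_ifs <;> positivity
  have hβτ : ∀ i l, M.sig a i = some l → ‖β i‖ ^ 2 = τ l := fun i l hl => by
    rw [hβ, hτ, if_pos ((hM.sig_iff a l).mpr ⟨i, hl⟩), Finset.sum_eq_single l
      (fun k _ hk => by
        rw [if_neg (by rw [hl]; exact fun h => hk (Option.some.inj h).symm), zero_mul])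
      (fun h => absurd (Finset.mem_univ l) h), if_pos hl, norm_mul, norm_inv, mul_pow, inv_pow]
  have hE0 : 0 ≤ ∑ l, τ l := Finset.sum_nonneg fun l _ => hτ0 l
  have hβE : ∑ i, ‖β i‖ ^ 2 ≤ M.ni * ∑ l, τ l := by
    refine (Finset.sum_le_card_nsmul _ _ (∑ l, τ l) fun i _ => ?_).trans (by simp)
    cases hs : M.sig a i with
    | none => simpa [hβ, hs] using hE0
    | some l =>
      rw [hβτ i l hs]
      exact Finset.single_le_sum (fun k _ => hτ0 k) (Finset.mem_univ l)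
  have hEβ : ∑ l, τ l ≤ (N + 1) * ∑ i, ‖β i‖ ^ 2 := by
    refine (Finset.sum_le_card_nsmul _ _ (∑ i, ‖β i‖ ^ 2) fun l _ => ?_).trans (by simp)
    by_cases hl : 1 ≤ M.m a l
    · obtain ⟨i, hi⟩ := (hM.sig_iff a l).mp hl
      rw [← hβτ i l hi]
      exact Finset.single_le_sum (f := fun i => ‖β i‖ ^ 2) (fun k _ => sq_nonneg _)
        (Finset.mem_univ i)
    · rw [hτ, if_neg hl, zero_mul]
      exact Finset.sum_nonneg fun k _ => sq_nonneg _
  have hP : ∑ i, ‖α i - β i‖ ^ 2 ≤ 2 * ∑ i, ‖α i‖ ^ 2 + 2 * ∑ i, ‖β i‖ ^ 2 := by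
    rw [Finset.mul_sum, Finset.mul_sum, ← Finset.sum_add_distrib]
    exact Finset.sum_le_sum fun i _ => sq_sub _ _
  have hB : ∑ i, ‖β i‖ ^ 2 ≤ 2 * ∑ i, ‖α i‖ ^ 2 + 2 * ∑ i, ‖α i - β i‖ ^ 2 := by
    rw [Finset.mul_sum, Finset.mul_sum, ← Finset.sum_add_distrib]
    refine Finset.sum_le_sum fun i _ => ?_
    have := sq_sub (α i) (α i - β i)
    rwa [sub_sub_cancel] at this
  have hP0 : 0 ≤ ∑ i, ‖α i - β i‖ ^ 2 := Finset.sum_nonneg fun k _ => sq_nonneg _
  have hn0 : 0 ≤ ∑ l, ‖ξ l‖ ^ 2 := Finset.sum_nonneg fun k _ => sq_nonneg _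
  generalize ∑ i, ‖α i - β i‖ ^ 2 = P at *
  generalize ∑ i, ‖α i‖ ^ 2 = A at *
  generalize ∑ i, ‖β i‖ ^ 2 = B at *
  generalize ∑ l, ‖ξ l‖ ^ 2 = s at *
  generalize ∑ l, τ l = E at *
  generalize (quad (cHess (M.ψ a) x) ξ).re = h at *
  have hT0 : 0 ≤ T := by linarith
  have hs : s ≤ T * s := le_mul_of_one_le_left hn0 hT
  have hN0 : (0 : ℝ) ≤ N + 1 := by positivity
  have hi0 : (0 : ℝ) ≤ M.ni := by positivity
  have hKC : 0 < K * C₃ := by positivity
  constructor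
  · have f1 : T * s ≤ C₂ * (T * h) := by nlinarith
    have f2 : E ≤ (N + 1) * (2 * (C₁ * (T * s)) + 2 * P) := by
      refine hEβ.trans (mul_le_mul_of_nonneg_left ?_ hN0)
      nlinarith
    have f3 : (2 * (N + 1) * C₁ + 1) * (T * s) ≤ D * (K * T * h) := by
      have : D * (K * T * h) = (2 * (N + 1) * C₁ + 1) * (C₂ * (T * h)) := by
        rw [hD]
        field_simp
      rw [this]
      exact mul_le_mul_of_nonneg_left f1 (by positivity)
    have f4 : 2 * (N + 1) * P ≤ C' * P := mul_le_mul_of_nonneg_right (by linarith) hP0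
    have f5 : D * (K * T * h) ≤ C' * (K * T * h) :=
      mul_le_mul_of_nonneg_right (by linarith) (by positivity)
    nlinarith
  · have f1 : K * T * h ≤ K * C₃ * (T * s) := by
      have : K * T * h ≤ K * T * (C₃ * s) := mul_le_mul_of_nonneg_left c₃ (by positivity)
      nlinarith
    have f2 : A ≤ C₁ * (T * s) := c₁.trans (mul_le_mul_of_nonneg_left hs hC₁.le)
    have f3 : 2 * M.ni * E ≤ C' * E := mul_le_mul_of_nonneg_right (by linarith) hE0
    have f4 : (2 * C₁ + K * C₃) * (T * s) ≤ C' * (T * s) :=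
      mul_le_mul_of_nonneg_right (by linarith) (by positivity)
    nlinarith

end CmpX

open CmpX in
theorem cmp : CMP := by
  intro N M hM K hK
  choose C hC hb using amb M hM hK
  refine ⟨∑ a, C a + 1, add_pos_of_nonneg_of_pos (Finset.sum_nonneg fun a _ => (hC a).le) one_pos,
    ?_⟩
  intro Y _ _ _ t F hT hB a e y he hy hx
  have hle : C a ≤ ∑ a, C a + 1 :=
    (Finset.single_le_sum (fun k _ => (hC k).le) (Finset.mem_univ a)).trans (by linarith)
  have hq := hb a _ hle (TT t) hT _ hx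
  have hH : F.Hh K e (e y) = pb (F.g a e) (Qm M a (K * TT t) (F.j a y)) (e y) := by
    rw [Fib.Hh, hB.χ_pb a e y he hy, Qm, pb, pb, Matrix.mul_add, Matrix.add_mul, Matrix.mul_smul,
      Matrix.smul_mul, gr_pb]
    refine congrArg (· + _) ?_
    ext p q
    simp only [Fib.P, gr, Matrix.of_apply, hB.ρ_dz a _ e y _ he hy, av]
  have h1 : (Qm M a (K * TT t) (F.j a y)).IsHermitian :=
    (gr_herm _).add (herm_smul _ (hM.ψ_pos a _ (hB.mem a y hy).1).isHermitian)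
  have h2 : (M.dg a (TT t) (F.j a y)).IsHermitian := by
    rw [Model.dg]
    exact Matrix.isHermitian_diagonal_of_self_adjoint _ (funext fun l => Complex.conj_ofReal _)
  rw [hH]
  exact ⟨psd_pb h1 h2 (fun ξ => (hq ξ).1) _ _, psd_pb h2 h1 (fun ξ => (hq ξ).2) _ _⟩

end Vale.Agent.P301Z.Key
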