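import Vale.Agent.P272.K.QN.H86.Diag
import Vale.Agent.P272.K.C2.Wirt
import Mathlib.Analysis.Calculus.ParametricIntegral
import Mathlib.Analysis.Calculus.BumpFunction.FiniteDimension

/-! P301, KEY: translates of a smooth function averaged over a set. -/

open MeasureTheory Metric Filter Set
open scoped Topology ContDiff

noncomputable section

namespace Vale.Agent.P301Z.Key.Gb

open Vale.Agent.P272.K

variable {n : ℕ}

theorem par_fderiv {F : Type} [NormedAddCommGroup F] [NormedSpace ℝ F] {g : Cm n → F}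
    (hg : ContDiff ℝ 1 g) (hc : HasCompactSupport g) (ν : Measure (Cm n)) [IsFiniteMeasure ν]
    (h : Cm n) :
    HasFDerivAt (fun h => ∫ c, g (c + h) ∂ν) (∫ c, fderiv ℝ g (c + h) ∂ν) h := by
  have hd : Continuous (fderiv ℝ g) := hg.continuous_fderiv one_ne_zero
  obtain ⟨B, hB⟩ := hd.bounded_above_of_compact_support (hc.fderiv ℝ)
  obtain ⟨B', hB'⟩ := hg.continuous.bounded_above_of_compact_support hc
  refine hasFDerivAt_integral_of_dominated_of_fderiv_le (F' := fun h c => fderiv ℝ g (c + h))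
    (bound := fun _ => B) (s := univ) univ_mem ?_ ?_ ?_ ?_ (integrable_const B) ?_
  · exact Eventually.of_forall fun x =>
      (hg.continuous.comp (continuous_id.add continuous_const)).aestronglyMeasurable
  · exact Integrable.of_bound
      (hg.continuous.comp (continuous_id.add continuous_const)).aestronglyMeasurable B'
      (Eventually.of_forall fun c => hB' _)
  · exact (hd.comp (continuous_id.add continuous_const)).aestronglyMeasurable
  · exact Eventually.of_forall fun c x _ => hB _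
  · refine Eventually.of_forall fun c x _ => ?_
    have h1 : HasFDerivAt g (fderiv ℝ g (c + x)) (c + x) :=
      (hg.differentiable one_ne_zero _).hasFDerivAt
    have h2 := h1.comp x ((hasFDerivAt_id x).const_add c)
    simpa [Function.comp_def] using h2

theorem par_contDiff (ν : Measure (Cm n)) [IsFiniteMeasure ν] (k : ℕ) :
    ∀ {F : Type} [NormedAddCommGroup F] [NormedSpace ℝ F] {g : Cm n → F}, ContDiff ℝ ∞ g →
      HasCompactSupport g → ContDiff ℝ k (fun h => ∫ c, g (c + h) ∂ν) := by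
  induction k with
  | zero =>
    intro F _ _ g hg hc
    rw [Nat.cast_zero, contDiff_zero]
    exact continuous_iff_continuousAt.2 fun h =>
      (par_fderiv (hg.of_le (by simp)) hc ν h).continuousAt
  | succ k ih =>
    intro F _ _ g hg hc
    have h1 : ContDiff ℝ 1 g := hg.of_le (by simp)
    rw [Nat.cast_succ, contDiff_succ_iff_fderiv]
    refine ⟨fun h => (par_fderiv h1 hc ν h).differentiableAt, by simp, ?_⟩
    have e : fderiv ℝ (fun h => ∫ c, g (c + h) ∂ν) = fun h => ∫ c, fderiv ℝ g (c + h) ∂ν :=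
      funext fun h => (par_fderiv h1 hc ν h).fderiv
    rw [e]
    exact ih (hg.fderiv_right (m := ∞) (by simp)) (hc.fderiv ℝ)

theorem diag_eq {f : Cm n → ℝ} {z : Cm n} (h : DifferentiableAt ℝ (fderiv ℝ f) z) (k : Fin n) :
    (cHess f z k k).re = (fderiv ℝ (fderiv ℝ f) z (Pi.single k 1) (Pi.single k 1) +
      fderiv ℝ (fderiv ℝ f) z (Pi.single k Complex.I) (Pi.single k Complex.I)) / 4 := by
  rw [N.cHess_eq_lev h, N.lev_apply]
  simp

theorem par_int {F : Type} [NormedAddCommGroup F] {g : Cm n → F} (hg : Continuous g)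
    (hc : HasCompactSupport g) (ν : Measure (Cm n)) [IsFiniteMeasure ν] (h : Cm n) :
    Integrable (fun c => g (c + h)) ν := by
  obtain ⟨B, hB⟩ := hg.bounded_above_of_compact_support hc
  exact Integrable.of_bound (hg.comp (continuous_id.add continuous_const)).aestronglyMeasurable B
    (Eventually.of_forall fun c => hB _)

theorem par_dir {g : Cm n → ℝ} (hg : ContDiff ℝ ∞ g) (hc : HasCompactSupport g)
    (ν : Measure (Cm n)) [IsFiniteMeasure ν] (h v : Cm n) :
    fderiv ℝ (fun h => ∫ c, g (c + h) ∂ν) h v = ∫ c, fderiv ℝ g (c + h) v ∂ν := by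
  have h1 : ContDiff ℝ 1 g := hg.of_le (by simp)
  have hi : Integrable (fun c => fderiv ℝ g (c + h)) ν :=
    par_int (h1.continuous_fderiv one_ne_zero) (hc.fderiv ℝ) ν h
  rw [(par_fderiv h1 hc ν h).fderiv, ContinuousLinearMap.integral_apply hi]

theorem fd2 {f : Cm n → ℝ} {z : Cm n} (h : DifferentiableAt ℝ (fderiv ℝ f) z) (v w : Cm n) :
    fderiv ℝ (fderiv ℝ f) z v w = fderiv ℝ (fun y => fderiv ℝ f y w) z v := by
  rw [fderiv_clm_apply h (differentiableAt_const w)]
  simp

theorem par_dir2 {g : Cm n → ℝ} (hg : ContDiff ℝ ∞ g) (hc : HasCompactSupport g)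
    (ν : Measure (Cm n)) [IsFiniteMeasure ν] (h v : Cm n) :
    Integrable (fun c => fderiv ℝ (fderiv ℝ g) (c + h) v v) ν ∧
    fderiv ℝ (fderiv ℝ fun h => ∫ c, g (c + h) ∂ν) h v v =
      ∫ c, fderiv ℝ (fderiv ℝ g) (c + h) v v ∂ν := by
  have hg' : ContDiff ℝ ∞ (fderiv ℝ g) := hg.fderiv_right (m := ∞) (by simp)
  have hv : ContDiff ℝ ∞ (fun y => fderiv ℝ g y v) := hg'.clm_apply contDiff_const
  have hcv : HasCompactSupport (fun y => fderiv ℝ g y v) := hc.fderiv_apply ℝ v
  have d3 : DifferentiableAt ℝ (fderiv ℝ fun h => ∫ c, g (c + h) ∂ν) h :=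
    ((par_contDiff ν 2 hg hc).fderiv_right (m := 1) (by norm_num)).differentiable one_ne_zero h
  have e : (fun y => fderiv ℝ (fun h => ∫ c, g (c + h) ∂ν) y v) =
      fun y => ∫ c, fderiv ℝ g (c + y) v ∂ν := funext fun y => par_dir hg hc ν y v
  have e3 : ∀ c, fderiv ℝ (fderiv ℝ g) (c + h) v v =
      fderiv ℝ (fun y => fderiv ℝ g y v) (c + h) v :=
    fun c => fd2 (hg'.differentiable (by simp) _) v v
  simp only [e3]
  refine ⟨par_int (g := fun z => fderiv ℝ (fun y => fderiv ℝ g y v) z v)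
    (((hv.fderiv_right (m := ∞) (by simp)).clm_apply contDiff_const).continuous)
    (hcv.fderiv_apply ℝ v) ν h, ?_⟩
  rw [fd2 d3, e, par_dir hv hcv ν h v]

theorem par_diag {g : Cm n → ℝ} (hg : ContDiff ℝ ∞ g) (hc : HasCompactSupport g)
    (ν : Measure (Cm n)) [IsFiniteMeasure ν] (h : Cm n) (k : Fin n) :
    (cHess (fun h => ∫ c, g (c + h) ∂ν) h k k).re = ∫ c, (cHess g (c + h) k k).re ∂ν := by
  have hg' : ContDiff ℝ ∞ (fderiv ℝ g) := hg.fderiv_right (m := ∞) (by simp)
  have d3 : DifferentiableAt ℝ (fderiv ℝ fun h => ∫ c, g (c + h) ∂ν) h :=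
    ((par_contDiff ν 2 hg hc).fderiv_right (m := 1) (by norm_num)).differentiable one_ne_zero h
  have e3 : ∀ c, (cHess g (c + h) k k).re =
      (fderiv ℝ (fderiv ℝ g) (c + h) (Pi.single k 1) (Pi.single k 1) +
      fderiv ℝ (fderiv ℝ g) (c + h) (Pi.single k Complex.I) (Pi.single k Complex.I)) / 4 :=
    fun c => diag_eq (hg'.differentiable (by simp) _) k
  have a1 := par_dir2 hg hc ν h (Pi.single k 1)
  have a2 := par_dir2 hg hc ν h (Pi.single k Complex.I)
  rw [diag_eq d3, a1.2, a2.2]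
  simp only [e3]
  rw [integral_div, integral_add a1.1 a2.1]

/-- a smooth function on a ball agrees on a smaller ball with a global one -/
theorem exists_cut {G : Cm n → ℝ} {s ρ : ℝ} (hs : 0 < s) (hρ : 6 * s < ρ)
    (hG : ∀ z ∈ ball (0 : Cm n) ρ, ContDiffAt ℝ ∞ G z) :
    ∃ g : Cm n → ℝ, ContDiff ℝ ∞ g ∧ HasCompactSupport g ∧
      ∀ z ∈ ball (0 : Cm n) (5 * s), g z = G z := by
  let ψ : ContDiffBump (0 : Cm n) := ⟨5 * s, 6 * s, by positivity, by linarith⟩
  refine ⟨fun z => ψ z * G z, contDiff_iff_contDiffAt.2 fun z => ?_,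
    ψ.hasCompactSupport.mul_right, fun z hz => ?_⟩
  · by_cases hz : z ∈ ball (0 : Cm n) ρ
    · exact ψ.contDiff.contDiffAt.mul (hG z hz)
    · have h1 : z ∉ tsupport ψ := by
        rw [ψ.tsupport_eq]
        intro h
        exact hz (closedBall_subset_ball hρ h)
      have h2 : (fun z => ψ z * G z) =ᶠ[𝓝 z] fun _ => 0 := by
        filter_upwards [notMem_tsupport_iff_eventuallyEq.1 h1] with y hy
        rw [hy, Pi.zero_apply, zero_mul]
      exact contDiffAt_const.congr_of_eventuallyEq h2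
  · show ψ z * G z = G z
    rw [ψ.one_of_mem_closedBall (ball_subset_closedBall hz), one_mul]

/-- volumes of balls -/
theorem vol_ball (c : Cm n) {s : ℝ} (hs : 0 < s) :
    volume.real (ball c s) = s ^ Module.finrank ℝ (Cm n) * volume.real (ball (0 : Cm n) 1) := by
  rw [Measure.real, Measure.addHaar_ball_of_pos _ c hs, ENNReal.toReal_mul,
    ENNReal.toReal_ofReal (by positivity), Measure.real]

theorem vol_pos (c : Cm n) {s : ℝ} (hs : 0 < s) : 0 < volume.real (ball c s) :=
  ENNReal.toReal_pos (measure_ball_pos _ c hs).ne' measure_ball_lt_top.ne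

theorem vol_mul (c c' : Cm n) {s a : ℝ} (hs : 0 < s) (ha : 0 < a) :
    volume.real (ball c (a * s)) = a ^ Module.finrank ℝ (Cm n) * volume.real (ball c' s) := by
  rw [vol_ball c (by positivity), vol_ball c' hs, mul_pow, mul_assoc]

end Vale.Agent.P301Z.Key.Gb
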