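import Vale.Agent.P301Z.Key.Rows
import Vale.Agent.P301Z.Key.Gb0
import Mathlib.Analysis.Calculus.ContDiff.Convolution

/-! # P301Z, block KEY: smoothing by convolution with a circle invariant kernel -/

open scoped ContDiff ComplexOrder Topology Real
open Set Metric MeasureTheory Complex ContinuousLinearMap

set_option linter.all false

noncomputable section

namespace Vale.Agent.P301Z.Key

open Vale.Agent.P272.K

namespace CnvX

variable {n : ℕ}

theorem two_le : (2 : WithTop ℕ∞) ≤ ∞ := WithTop.coe_le_coe.2 (le_top : (2 : ℕ∞) ≤ ⊤)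

theorem exists_ker (n : ℕ) : ∃ η : Cm n → ℝ, ContDiff ℝ ∞ η ∧ (∀ w, 0 ≤ η w) ∧
    tsupport η ⊆ closedBall 0 (1 / 8) ∧ ∫ w, η w = 1 ∧
    ∀ (θ : ℝ) w, η (cexp (θ * I) • w) = η w := by
  let b : ContDiffBump (0 : ℝ) := ⟨1 / 128, 1 / 64, by norm_num, by norm_num⟩
  let k : Cm n → ℝ := fun w => b (∑ i, ‖w i‖ ^ 2)
  have h1 : ContDiff ℝ ∞ k := b.contDiff.comp
    (ContDiff.sum fun i _ => (contDiff_norm_sq ℝ).comp (contDiff_apply ℝ ℂ i))
  have h2 : tsupport k ⊆ closedBall 0 (1 / 8) := by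
    refine closure_minimal (fun w hw => ?_) isClosed_closedBall
    have k1 : (∑ i, ‖w i‖ ^ 2) ∈ Function.support b := hw
    rw [b.support_eq, mem_ball_zero_iff, Real.norm_eq_abs] at k1
    rw [mem_closedBall_zero_iff, pi_norm_le_iff_of_nonneg (by norm_num)]
    intro i
    have k2 : ‖w i‖ ^ 2 ≤ ∑ i, ‖w i‖ ^ 2 :=
      Finset.single_le_sum (f := fun i => ‖w i‖ ^ 2) (fun i _ => sq_nonneg _) (Finset.mem_univ i)
    have k3 : (∑ i, ‖w i‖ ^ 2) < 1 / 64 := (le_abs_self _).trans_lt k1
    nlinarith [norm_nonneg (w i)]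
  have h3 : HasCompactSupport k :=
    (isCompact_closedBall _ _).of_isClosed_subset isClosed_closure h2
  have h4 : 0 < ∫ w, k w :=
    h1.continuous.integral_pos_of_hasCompactSupport_nonneg_nonzero (x := 0) h3
      (fun w => b.nonneg) (by
        have : k 0 = 1 := b.one_of_mem_closedBall (by simp [b])
        rw [this]
        exact one_ne_zero)
  refine ⟨fun w => (∫ w, k w)⁻¹ * k w, contDiff_const.mul h1,
    fun w => mul_nonneg (inv_nonneg.2 h4.le) b.nonneg,
    (tsupport_mul_subset_right (f := fun _ => (∫ w, k w)⁻¹)).trans h2, ?_, fun θ w => ?_⟩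
  · rw [integral_const_mul, inv_mul_cancel₀ h4.ne']
  · simp [k, norm_exp_ofReal_mul_I]

/-- derivatives fall on the smooth factor -/
theorem bd {U : Type} [NormedAddCommGroup U] [NormedSpace ℝ U] {u : Cm n → U}
    (hu : LocallyIntegrable u volume) {B : ℝ} (hB : 0 ≤ B) (z : Cm n) (q : ℕ) :
    ∀ {E F : Type} [NormedAddCommGroup E] [NormedSpace ℝ E] [NormedAddCommGroup F]
      [NormedSpace ℝ F] [CompleteSpace F] (L : U →L[ℝ] E →L[ℝ] F) (k : Cm n → E),
      ContDiff ℝ ∞ k → HasCompactSupport k → (∀ t, z - t ∈ tsupport k → ‖u t‖ ≤ B) →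
      ‖iteratedFDeriv ℝ q (convolution u k L volume) z‖ ≤
        ‖L‖ * B * ∫ t, ‖iteratedFDeriv ℝ q k t‖ := by
  induction q with
  | zero =>
    intro E F _ _ _ _ _ L k hk hc h
    simp only [norm_iteratedFDeriv_zero]
    rw [convolution_def, ← integral_sub_left_eq_self (fun t => ‖k t‖) volume z,
      ← integral_const_mul]
    refine norm_integral_le_of_norm_le
      (((hk.continuous.integrable_of_hasCompactSupport hc).norm.comp_sub_left z).const_mul _)
      (Filter.Eventually.of_forall fun t => ?_)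
    by_cases h0 : k (z - t) = 0
    · simp [h0]
    · refine (L.le_opNorm₂ _ _).trans ?_
      gcongr
      exact h t (subset_tsupport _ h0)
  | succ q ih =>
    intro E F _ _ _ _ _ L k hk hc h
    have e : fderiv ℝ (convolution u k L volume) =
        convolution u (fderiv ℝ k) (L.precompR (Cm n)) volume :=
      funext fun y => (hc.hasFDerivAt_convolution_right L hu (hk.of_le (by simp)) y).fderiv
    simp only [← norm_iteratedFDeriv_fderiv]
    rw [e]
    refine (ih _ _ (hk.fderiv_right (m := ∞) (by simp)) (hc.fderiv ℝ)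
      fun t ht => h t (tsupport_fderiv_subset ℝ ht)).trans ?_
    have := integral_nonneg (μ := (volume : Measure (Cm n)))
      (f := fun t => ‖iteratedFDeriv ℝ q (fderiv ℝ k) t‖) fun t => norm_nonneg _
    gcongr
    exact L.norm_precompR_le _

/-- a first order operator with constant coefficients -/
def op (T : (Cm n →L[ℝ] ℂ) →L[ℝ] ℂ) (f : Cm n → ℂ) : Cm n → ℂ := fun a => T (fderiv ℝ f a)

theorem op_sm (T : (Cm n →L[ℝ] ℂ) →L[ℝ] ℂ) {f : Cm n → ℂ} (hf : ContDiff ℝ ∞ f) :
    ContDiff ℝ ∞ (op T f) := T.contDiff.comp (hf.fderiv_right (m := ∞) (by simp))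

theorem op_cs (T : (Cm n →L[ℝ] ℂ) →L[ℝ] ℂ) {f : Cm n → ℂ} (hf : HasCompactSupport f) :
    HasCompactSupport (op T f) := (hf.fderiv ℝ).comp_left (map_zero T)

theorem op_conv (T : (Cm n →L[ℝ] ℂ) →L[ℝ] ℂ) {η : Cm n → ℝ} (hη : LocallyIntegrable η volume)
    {f : Cm n → ℂ} (hf : ContDiff ℝ ∞ f) (hc : HasCompactSupport f) :
    op T (convolution η f (lsmul ℝ ℝ) volume) = convolution η (op T f) (lsmul ℝ ℝ) volume := by
  funext y
  have h1 : ContDiff ℝ 1 f := hf.of_le (by simp)
  have h2 := (hc.fderiv ℝ).convolutionExists_right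
    ((lsmul ℝ ℝ : ℝ →L[ℝ] ℂ →L[ℝ] ℂ).precompR (Cm n)) hη (h1.continuous_fderiv one_ne_zero) y
  rw [op, (hc.hasFDerivAt_convolution_right _ hη h1 y).fderiv, convolution_def, convolution_def,
    ← T.integral_comp_comm h2]
  refine integral_congr_ae (Filter.Eventually.of_forall fun t => ?_)
  have h3 : (lsmul ℝ ℝ : ℝ →L[ℝ] ℂ →L[ℝ] ℂ).precompR (Cm n) (η t) (fderiv ℝ f (y - t)) =
      η t • fderiv ℝ f (y - t) := by
    ext v
    simp
  simp only [h3, map_smul, lsmul_apply, op]

theorem exists_op (j k : Fin n) : ∃ T T' : (Cm n →L[ℝ] ℂ) →L[ℝ] ℂ, ∀ (f : Cm n → ℝ) y,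
    cHess f y j k = op T (op T' fun x => (f x : ℂ)) y := by
  refine ⟨(2⁻¹ : ℂ) • (apply ℝ ℂ (Pi.single j 1) - I • apply ℝ ℂ (Pi.single j I)),
    (2⁻¹ : ℂ) • (apply ℝ ℂ (Pi.single k 1) + I • apply ℝ ℂ (Pi.single k I)), fun f y => ?_⟩
  have e : op ((2⁻¹ : ℂ) • (apply ℝ ℂ (Pi.single k 1) + I • apply ℝ ℂ (Pi.single k I)))
      (fun x => (f x : ℂ)) = dzb k fun x => (f x : ℂ) := by
    funext x
    simp [op, dzb, div_eq_inv_mul, mul_add]
  rw [e]
  simp [op, cHess, dz, div_eq_inv_mul]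

theorem hess_conv {η : Cm n → ℝ} (hη : LocallyIntegrable η volume) {g : Cm n → ℝ}
    (hg : ContDiff ℝ ∞ g) (hc : HasCompactSupport g) (j k : Fin n) :
    (fun y => cHess (convolution η g (lsmul ℝ ℝ) volume) y j k) =
      convolution η (fun y => cHess g y j k) (lsmul ℝ ℝ) volume := by
  obtain ⟨T, T', h⟩ := exists_op j k
  have h1 : ContDiff ℝ ∞ fun x => (g x : ℂ) := ofRealCLM.contDiff.comp hg
  have h2 : HasCompactSupport fun x => (g x : ℂ) := hc.comp_left ofReal_zero
  have e : (fun x => ((convolution η g (lsmul ℝ ℝ) volume x : ℝ) : ℂ)) =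
      convolution η (fun x => (g x : ℂ)) (lsmul ℝ ℝ) volume := by
    funext x
    rw [convolution_def, convolution_def, ← integral_complex_ofReal]
    simp
  simp only [h]
  rw [e, op_conv T' hη h1 h2]
  exact op_conv T hη (op_sm T' h1) (op_cs T' h2)

/-- the sub mean value inequality for the kernel -/
theorem sub {η : Cm n → ℝ} (hη : Integrable η volume) (h0 : ∀ w, 0 ≤ η w) (hη' : Continuous η)
    (hs : tsupport η ⊆ closedBall 0 (1 / 8)) (h1 : ∫ w, η w = 1)
    (hr : ∀ (θ : ℝ) w, η (cexp (θ * I) • w) = η w) {f : Cm n → ℝ} (hf : ContDiff ℝ ∞ f)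
    (hc : HasCompactSupport f) {A : ℝ} (hA : 0 ≤ A) {z : Cm n}
    (hL : ∀ y ∈ closedBall z (1 / 8),
      (cHess f y + (A : ℂ) • (1 : Matrix (Fin n) (Fin n) ℂ)).PosSemidef) :
    f z ≤ (∫ t, η t * f (z - t)) + A * n * (1 / 8) ^ 2 := by
  have hpi : (-π) ≤ π := by linarith [Real.pi_pos]
  obtain ⟨B, hB⟩ := hf.continuous.bounded_above_of_compact_support hc
  let H : ℝ → Cm n → ℝ := fun θ t => η t * f (z + cexp (θ * I) • (-t))
  have hH : Integrable (Function.uncurry H) ((volume.restrict (Ioc (-π) π)).prod volume) := by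
    refine ((integrable_const B).mul_prod hη.norm).mono'
      (Continuous.aestronglyMeasurable ?_) (Filter.Eventually.of_forall fun p => ?_)
    · exact (hη'.comp continuous_snd).mul (hf.continuous.comp (by fun_prop))
    · show ‖η p.2 * f _‖ ≤ _
      rw [norm_mul, mul_comm]
      exact mul_le_mul_of_nonneg_right (hB _) (norm_nonneg _)
  have k1 : ∀ θ : ℝ, ∫ t, H θ t = ∫ t, η t * f (z - t) := by
    intro θ
    have hemb : MeasurableEmbedding (fun v : Cm n => cexp (θ * I) • v) :=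
      (Homeomorph.smulOfNeZero _ (exp_ne_zero _)).measurableEmbedding
    rw [← (QN.H86.measurePreserving_smul_circle θ).integral_comp hemb
      fun t => η t * f (z - t)]
    simp only [H, hr, smul_neg, sub_eq_add_neg]
  have k2 : ∫ t, ∫ θ in Ioc (-π) π, H θ t = 2 * π * ∫ t, η t * f (z - t) := by
    rw [← integral_integral_swap hH]
    simp only [k1, setIntegral_const, smul_eq_mul]
    congr 1
    rw [measureReal_def, Real.volume_Ioc, ENNReal.toReal_ofReal (by linarith [Real.pi_pos])]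
    ring
  have k3 : ∫ t, η t * (2 * π * f z - 2 * π * (A * n * (1 / 8) ^ 2)) ≤
      ∫ t, ∫ θ in Ioc (-π) π, H θ t := by
    refine integral_mono (hη.mul_const _) hH.integral_prod_right fun t => ?_
    simp only [H, integral_const_mul]
    by_cases ht : η t = 0
    · simp [ht]
    · refine mul_le_mul_of_nonneg_left ?_ (h0 t)
      have h := QN.H86.circle_submean_Cm hA (fun y _ => hf.contDiffAt.of_le two_le) hL
        (v := -t) (by simpa using hs (subset_tsupport _ ht))
      rw [intervalIntegral.integral_of_le hpi] at h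
      linarith
  rw [k2, integral_mul_const, h1] at k3
  refine le_of_mul_le_mul_left ?_ (show 0 < 2 * π by positivity)
  linarith

end CnvX

open CnvX

theorem cnv : CNV := by
  intro N
  obtain ⟨η, e1, e2, e3, e4, e5⟩ := exists_ker N
  have ec : HasCompactSupport η := (isCompact_closedBall _ _).of_isClosed_subset isClosed_closure e3
  have ei : Integrable η volume := e1.continuous.integrable_of_hasCompactSupport ec
  have hI : ∀ q, 0 ≤ ∫ t, ‖iteratedFDeriv ℝ q η t‖ := fun q =>
    integral_nonneg fun t => norm_nonneg _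
  have hN : (0 : ℝ) ≤ N := Nat.cast_nonneg N
  refine ⟨fun q => (N + 1) * ((∫ t, ‖iteratedFDeriv ℝ q η t‖) + 1), fun Lam φ hLam hφ => ?_⟩
  obtain ⟨g, g1, g2, g3⟩ := Gb.exists_cut (G := φ) (s := 3 / 20) (ρ := 1) (by norm_num)
    (by norm_num) fun z hz => (hφ z hz).1
  have hb : ball (0 : Cm N) (5 * (3 / 20)) ⊆ ball 0 1 := ball_subset_ball (by norm_num)
  have g4 : ∀ y ∈ ball (0 : Cm N) (5 * (3 / 20)), cHess g y = cHess φ y := fun y hy =>
    C2.cHess_congr (Filter.eventuallyEq_of_mem (isOpen_ball.mem_nhds hy) g3)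
  refine ⟨convolution η g (lsmul ℝ ℝ) volume, fun z hz => ?_⟩
  have hz1 : closedBall z (1 / 8) ⊆ ball (0 : Cm N) (5 * (3 / 20)) := by
    refine closedBall_subset_ball' ?_
    have := mem_ball.1 hz
    linarith
  have hz2 : ∀ t, z - t ∈ tsupport η → t ∈ ball (0 : Cm N) (5 * (3 / 20)) := fun t ht =>
    hz1 (by simpa [mem_closedBall, dist_comm t z, dist_eq_norm] using e3 ht)
  have key : ∀ {U : Type} [NormedAddCommGroup U] [NormedSpace ℝ U] [CompleteSpace U]
      (u : Cm N → U) (B : ℝ) (q : ℕ), Continuous u →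
      (∀ t ∈ ball (0 : Cm N) (5 * (3 / 20)), ‖u t‖ ≤ B) →
      ‖iteratedFDeriv ℝ q (convolution η u (lsmul ℝ ℝ) volume) z‖ ≤
        ((∫ t, ‖iteratedFDeriv ℝ q η t‖) + 1) * B := by
    intro U _ _ _ u B q hu h
    have hB : 0 ≤ B := (norm_nonneg _).trans (h 0 (mem_ball_self (by norm_num)))
    rw [← convolution_flip]
    refine (bd hu.locallyIntegrable hB z q _ η e1 ec fun t ht => h t (hz2 t ht)).trans ?_
    have h1 : ‖(lsmul ℝ ℝ : ℝ →L[ℝ] U →L[ℝ] U).flip‖ ≤ 1 := by
      rw [opNorm_flip]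
      exact opNorm_lsmul_le
    have h2 := hI q
    calc _ ≤ 1 * B * ∫ t, ‖iteratedFDeriv ℝ q η t‖ := by gcongr
      _ ≤ _ := by nlinarith
  refine ⟨(g2.contDiff_convolution_right _ ei.locallyIntegrable g1).contDiffAt, ?_,
    fun q i i' => ?_, fun B hB q => ?_⟩
  · have a1 := sub ei e2 e1.continuous e3 e4 e5 g1 g2 le_rfl (z := z) fun y hy => by
      rw [g4 y (hz1 hy)]
      simpa using (hφ y (hb (hz1 hy))).2.1
    have a2 := sub ei e2 e1.continuous e3 e4 e5 g1.neg g2.neg hLam (z := z) fun y hy => by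
      rw [C2.cHess_neg (g1.contDiffAt.of_le two_le), g4 y (hz1 hy), neg_add_eq_sub]
      exact (hφ y (hb (hz1 hy))).2.2
    simp only [mul_neg, integral_neg] at a2
    rw [← g3 z (hz1 (mem_closedBall_self (by norm_num))), convolution_def]
    simp only [lsmul_apply, smul_eq_mul]
    have a3 := mul_nonneg (mul_nonneg (add_nonneg hN zero_le_one) (hI 0)) hLam
    have a4 := mul_nonneg hN hLam
    rw [abs_le]
    constructor <;> nlinarith
  · rw [hess_conv ei.locallyIntegrable g1 g2]
    refine (key _ (N * Lam) q (continuous_iff_continuousAt.2 fun y =>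
      (C2.contDiffAt_cHess (m := 0) (g1.contDiffAt.of_le two_le) (by norm_num) i i').continuousAt)
      fun t ht => ?_).trans ?_
    · rw [g4 t ht]
      refine (C2.norm_entry_le_trace (hφ t (hb ht)).2.1 i i').trans ?_
      have a1 := (Complex.le_def.1 (hφ t (hb ht)).2.2.trace_nonneg).1
      simp only [Matrix.trace_sub, Matrix.trace_smul, Matrix.trace_one, Fintype.card_fin,
        smul_eq_mul, sub_re, zero_re, mul_re, ofReal_re, natCast_re, ofReal_im, zero_mul,
        sub_zero] at a1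
      linarith
    · have a1 := mul_nonneg (add_nonneg (hI q) zero_le_one) hLam
      nlinarith
  · refine (key g B q g1.continuous fun t ht => ?_).trans ?_
    · rw [g3 t ht]
      exact hB t (hb ht)
    · have a0 : 0 ≤ B := (abs_nonneg _).trans (hB 0 (mem_ball_self one_pos))
      have a1 := mul_nonneg hN (mul_nonneg (add_nonneg (hI q) zero_le_one) a0)
      nlinarith

end Vale.Agent.P301Z.Key
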