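import Vale.Agent.P301Z.Key.Rows
import Vale.Agent.P272.K.Inv.Compact
import Mathlib.LinearAlgebra.LinearIndependent.BaseChange

/-!
# P301Z, block KEY: the determinant and the model form in logarithmic coordinates
-/

open scoped Manifold ContDiff ComplexOrder Topology Matrix
open Set Metric Filter

noncomputable section

namespace Vale.Agent.P301Z.Key

open Vale.Agent.P272.K

namespace ExbX

variable {N : ℕ}

theorem dom {A B : Matrix (Fin N) (Fin N) ℂ} (hA : A.PosDef) (hB : B.IsHermitian) :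
    ∀ᶠ C : ℝ in atTop, ((C : ℂ) • A - B).PosSemidef := by
  obtain ⟨C₀, -, h⟩ := exists_quad_lower (isCompact_singleton (x := (0 : Cm N))) (fun _ => A)
    (fun _ => B) (fun _ _ => continuousOn_const) (fun _ _ => continuousOn_const) fun _ _ => hA
  filter_upwards [eventually_ge_atTop C₀] with C hC
  refine posSemidef_of_quad ((hA.1.smul (Complex.conj_ofReal C)).sub hB) fun ξ => ?_
  have e : quad ((C : ℂ) • A - B) ξ = C * quad A ξ - quad B ξ := by
    simp only [quad, Matrix.sub_apply, Matrix.smul_apply, smul_eq_mul, sub_mul,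
      Finset.sum_sub_distrib, Finset.mul_sum, mul_assoc]
  rw [e, Complex.sub_re, Complex.re_ofReal_mul]
  exact sub_nonneg.2 ((h 0 rfl ξ).trans
    (mul_le_mul_of_nonneg_right hC (quad_nonneg hA.posSemidef ξ)))

theorem inj {m : Fin (N + 1) → ℕ} {B : Matrix (Fin (N + 1)) (Fin N) ℤ} (h : IsKB m B) :
    Function.Injective (B.map (Int.cast : ℤ → ℂ)).mulVec := by
  have h1 : Function.Injective B.mulVec := (injective_iff_map_eq_zero B.mulVecLin).2 fun q hq =>
    (h.2 0 (by simp)).unique hq (Matrix.mulVec_zero B)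
  rw [Matrix.mulVec_injective_iff] at h1 ⊢
  exact (linearIndependent_algebraMap_comp_iff (R := ℤ) (S := ℂ)).2 h1

theorem dia (B : Matrix (Fin (N + 1)) (Fin N) ℂ) {r : Fin (N + 1) → ℝ} (h : ∀ l, 0 ≤ r l) :
    (Bᴴ * Matrix.diagonal (fun l => (r l : ℂ)) * B).PosSemidef :=
  (Matrix.PosSemidef.diagonal fun l => Complex.zero_le_real.2 (h l)).conjTranspose_mul_mul_same B

theorem form (B : Matrix (Fin (N + 1)) (Fin N) ℤ) {x : Cm (N + 1)} (hx : ∀ l, x l ≠ 0) (T : ℝ) :
    (Matrix.diagonal x * B.map (Int.cast : ℤ → ℂ))ᵀ *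
      Matrix.diagonal (fun l => (((‖x l‖ ^ 2)⁻¹ + T : ℝ) : ℂ)) *
      (Matrix.diagonal x * B.map (Int.cast : ℤ → ℂ)).map (starRingEnd ℂ) =
    (B.map (Int.cast : ℤ → ℂ))ᴴ * Matrix.diagonal (fun l => ((1 + T * ‖x l‖ ^ 2 : ℝ) : ℂ)) *
      B.map (Int.cast : ℤ → ℂ) := by
  ext i j
  simp only [Matrix.mul_apply (M := _ * Matrix.diagonal _), Matrix.mul_diagonal, Matrix.map_apply,
    Matrix.transpose_apply, Matrix.diagonal_mul, Matrix.conjTranspose_apply, map_mul, map_intCast,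
    star_intCast]
  refine Finset.sum_congr rfl fun l _ => ?_
  have h1 : (‖x l‖ : ℂ) ≠ 0 := Complex.ofReal_ne_zero.2 (norm_ne_zero_iff.2 (hx l))
  have h2 := Complex.mul_conj' (x l)
  push_cast
  linear_combination (B l i * B l j * (((‖x l‖ : ℂ) ^ 2)⁻¹ + T)) * h2 +
    (B l i * B l j : ℂ) * inv_mul_cancel₀ (pow_ne_zero 2 h1)

end ExbX

open ExbX in
theorem exb : EXB := by
  intro N M hM
  have h1 : ∀ a, ∀ᶠ C : ℝ in atTop, (∀ l, 1 ≤ M.m a l) →
      M.C * ‖(((M.B a).map (Int.cast : ℤ → ℂ)).submatrix (Fin.succAbove 0) id).det‖ ^ 2 ≤ C ∧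
      ((C : ℂ) • (((M.B a).map (Int.cast : ℤ → ℂ))ᴴ * (M.B a).map (Int.cast : ℤ → ℂ)) -
        1).PosSemidef ∧ ((C : ℂ) • 1 - ((M.B a).map (Int.cast : ℤ → ℂ))ᴴ *
          (M.B a).map (Int.cast : ℤ → ℂ)).PosSemidef := fun a => by
    by_cases h : ∀ l, 1 ≤ M.m a l
    · have h2 := Matrix.PosDef.conjTranspose_mul_self _ (inj (hM.kb a h))
      filter_upwards [eventually_ge_atTop _, dom h2 Matrix.isHermitian_one,
        dom Matrix.PosDef.one h2.1] with C c1 c2 c3 _ using ⟨c1, c2, c3⟩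
    · exact .of_forall fun _ k => absurd k h
  obtain ⟨C, hC, h2⟩ := ((eventually_gt_atTop 0).and (eventually_all.2 h1)).exists
  refine ⟨C, hC, fun Y _ _ _ t F hT hB a c R Φ hm hP hQ v hv hb => ?_⟩
  obtain ⟨c1, c2, c3⟩ := h2 a hm
  have hx : ∀ l, ex c (M.B a) v l ≠ 0 := fun l => hP.eq v hv ▸ hB.ne a _ l (hP.mem v hv) (hm l)
  obtain ⟨B, hB'⟩ : ∃ B, (M.B a).map (Int.cast : ℤ → ℂ) = B := ⟨_, rfl⟩
  have e : pb (ex c (M.B a)) (M.dg a (TT t) (ex c (M.B a) v)) v =
      Bᴴ * Matrix.diagonal (fun l => ((1 + TT t * ‖ex c (M.B a) v l‖ ^ 2 : ℝ) : ℂ)) * B := by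
    rw [pb, hQ.jex, Model.dg, ← hB']
    simp only [if_pos (hm _)]
    exact form _ hx _
  rw [hB'] at c2 c3
  refine ⟨?_, ?_, fun Z hZ => ?_⟩
  · have he : At (chartAt (Cm N) (Φ v)) (Φ v) := ⟨chart_mem_atlas _ _, mem_chart_source _ _⟩
    have k1 := F.det_le a _ _ 0 he (hP.mem v hv) (hP.eq v hv ▸ hb) (hm 0)
    have k2 := congrArg (fun A => ‖(A.submatrix (Fin.succAbove 0) id).det‖ ^ 2)
      ((hQ.jac v hv _ he).trans (hQ.jex v))
    have k3 : ∀ (x : Cm (N + 1)) (A : Matrix (Fin (N + 1)) (Fin N) ℂ),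
        (Matrix.diagonal x * A).submatrix (Fin.succAbove 0) id =
          Matrix.diagonal (fun l => x (Fin.succAbove 0 l)) * A.submatrix (Fin.succAbove 0) id :=
      fun x A => by ext i j; simp only [Matrix.submatrix_apply, Matrix.diagonal_mul]
    simp only [k3, ← Matrix.submatrix_mul_equiv _ _ _
      (Equiv.refl _), Equiv.coe_refl, Matrix.submatrix_id_id, Matrix.det_mul, Matrix.det_diagonal,
      norm_mul, norm_prod, mul_pow, ← Finset.prod_pow] at k2
    simp only [Model.wt, if_pos (hm _), hP.eq v hv] at k1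
    have k4 : 0 < ∏ l : Fin N, ‖ex c (M.B a) v (Fin.succAbove 0 l)‖ ^ 2 :=
      Finset.prod_pos fun l _ => pow_pos (norm_pos_iff.2 (hx _)) 2
    rw [pl, Matrix.det_mul, Matrix.det_mul, Matrix.det_transpose, ← RingHom.mapMatrix_apply,
      ← RingHom.map_det, mul_right_comm, Complex.mul_conj', ← Complex.ofReal_pow,
      Complex.re_ofReal_mul]
    refine (le_of_mul_le_mul_right ?_ k4).trans c1
    rw [mul_assoc, mul_right_comm M.C, mul_assoc M.C, ← k2]
    exact (mul_le_mul_of_nonneg_left k1 (sq_nonneg _)).trans_eq (by unfold Fib.g; ring)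
  · have k := ((dia B fun l => mul_nonneg hT.le (sq_nonneg ‖ex c (M.B a) v l‖)).smul
      (Complex.zero_le_real.2 hC.le)).add c2
    refine (congrArg _ ?_).mp k
    ext i j
    simp only [e, Matrix.mul_apply (N := B), Matrix.mul_diagonal, Matrix.add_apply, Matrix.sub_apply,
      Matrix.smul_apply, smul_eq_mul, ← add_sub_assoc, ← mul_add, ← Finset.sum_add_distrib]
    congr 2
    exact Finset.sum_congr rfl fun l _ => by push_cast; ring
  · have hZ0 : 0 ≤ 1 + Z := add_nonneg zero_le_one ((mul_nonneg hT.le (sq_nonneg _)).trans (hZ 0))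
    have k := (c3.smul (Complex.zero_le_real.2 hZ0)).add (dia B fun l => sub_nonneg.2 (hZ l))
    refine (congrArg _ ?_).mp k
    ext i j
    simp only [e, Matrix.mul_apply (N := B), Matrix.mul_diagonal, Matrix.add_apply, Matrix.sub_apply,
      Matrix.smul_apply, smul_eq_mul, mul_sub, Finset.mul_sum]
    rw [sub_add, ← Finset.sum_sub_distrib]
    congr 1
    · push_cast; ring
    · exact Finset.sum_congr rfl fun l _ => by push_cast; ring

end Vale.Agent.P301Z.Key
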