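import Vale.Agent.P301Z.Key.Rows

/-!
# P301Z, block KEY: assembly of the geometric part
-/

open scoped Manifold ContDiff ComplexOrder Topology Matrix
open Set Metric MeasureTheory

noncomputable section

namespace Vale.Agent.P301Z.Key

open Vale.Agent.P272.K Vale.Agent.P272.K.C2

namespace GeoX

variable {n : ℕ}

/-- the order of Hermitian matrices -/
def Le (A B : Matrix (Fin n) (Fin n) ℂ) : Prop := (B - A).PosSemidef

theorem psd_smul {A : Matrix (Fin n) (Fin n) ℂ} {c : ℝ} (hc : 0 ≤ c) (h : A.PosSemidef) :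
    ((c : ℂ) • A).PosSemidef := h.smul (by exact_mod_cast hc)

theorem Le.trans {A B C : Matrix (Fin n) (Fin n) ℂ} (h : Le A B) (h' : Le B C) : Le A C := by
  have := Matrix.PosSemidef.add h h'
  unfold Le
  rwa [show B - A + (C - B) = C - A by abel] at this

theorem Le.smul {A B : Matrix (Fin n) (Fin n) ℂ} {c : ℝ} (hc : 0 ≤ c) (h : Le A B) :
    Le ((c : ℂ) • A) ((c : ℂ) • B) := by
  have := psd_smul hc h
  unfold Le
  rwa [smul_sub] at this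

theorem le_sc {A : Matrix (Fin n) (Fin n) ℂ} {c d : ℝ} (hA : A.PosSemidef) (h : c ≤ d) :
    Le ((c : ℂ) • A) ((d : ℂ) • A) := by
  have := psd_smul (sub_nonneg.2 h) hA
  unfold Le
  rwa [Complex.ofReal_sub, sub_smul] at this

/-- congruence -/
def cg (J A : Matrix (Fin n) (Fin n) ℂ) : Matrix (Fin n) (Fin n) ℂ :=
  Jᵀ * A * J.map (starRingEnd ℂ)

theorem cg_psd (J : Matrix (Fin n) (Fin n) ℂ) {A : Matrix (Fin n) (Fin n) ℂ} (h : A.PosSemidef) :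
    (cg J A).PosSemidef := by
  have := h.mul_mul_conjTranspose_same Jᵀ
  have e : (Jᵀ)ᴴ = J.map (starRingEnd ℂ) := by
    ext i j
    rfl
  rwa [e] at this

theorem cg_sub (J A B : Matrix (Fin n) (Fin n) ℂ) : cg J (A - B) = cg J A - cg J B := by
  simp only [cg, Matrix.mul_sub, Matrix.sub_mul]

theorem cg_add (J A B : Matrix (Fin n) (Fin n) ℂ) : cg J (A + B) = cg J A + cg J B := by
  simp only [cg, Matrix.mul_add, Matrix.add_mul]

theorem cg_smul (J A : Matrix (Fin n) (Fin n) ℂ) (c : ℂ) : cg J (c • A) = c • cg J A := by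
  simp only [cg, Matrix.mul_smul, Matrix.smul_mul]

theorem Le.cg {A B : Matrix (Fin n) (Fin n) ℂ} (h : Le A B) (J : Matrix (Fin n) (Fin n) ℂ) :
    Le (cg J A) (cg J B) := by
  have := cg_psd J h
  unfold Le
  rwa [cg_sub] at this

theorem cg_pb {p : ℕ} {g x : Cm n → Cm p} {z v : Cm n} {J : Matrix (Fin n) (Fin n) ℂ}
    (h : jr g z * J = jr x v) (Q : Matrix (Fin p) (Fin p) ℂ) : cg J (pb g Q z) = pb x Q v := by
  unfold cg pb
  rw [← h, Matrix.transpose_mul, Matrix.map_mul]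
  simp only [Matrix.mul_assoc]

theorem sm_sm (c d : ℝ) (A : Matrix (Fin n) (Fin n) ℂ) :
    (c : ℂ) • (d : ℂ) • A = ((c * d : ℝ) : ℂ) • A := by
  rw [smul_smul, Complex.ofReal_mul]

theorem cHess_const_sub {f : Cm n → ℝ} {z : Cm n} (c : ℝ) (hf : ContDiffAt ℝ 2 f z) :
    cHess (fun y => c - f y) z = -cHess f z := by
  rw [C2.cHess_sub contDiffAt_const hf, C2.cHess_const, zero_sub]

theorem norm_ex_le {c : Cm (n + 1)} {B : Matrix (Fin (n + 1)) (Fin n) ℤ} {R b : ℝ} (hR : 0 < R)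
    {v : Cm n} (hv : v ∈ Tb n R) {l : Fin (n + 1)} (hb : ∑ i, |(B l i : ℝ)| ≤ b) :
    ‖ex c B v l‖ ≤ ‖c l‖ * Real.exp (R * b) := by
  unfold ex
  rw [norm_mul, Complex.norm_exp]
  refine mul_le_mul_of_nonneg_left (Real.exp_le_exp.2 ?_) (norm_nonneg _)
  rw [Complex.re_sum]
  calc ∑ i, ((B l i : ℂ) * v i).re ≤ ∑ i, R * |(B l i : ℝ)| := by
        refine Finset.sum_le_sum fun i _ => ?_
        have e : ((B l i : ℂ) * v i).re = (B l i : ℝ) * (v i).re := by simp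
        rw [e]
        refine (le_abs_self _).trans ?_
        rw [abs_mul, mul_comm]
        exact mul_le_mul_of_nonneg_right (hv i).le (abs_nonneg _)
    _ = R * ∑ i, |(B l i : ℝ)| := by rw [Finset.mul_sum]
    _ ≤ R * b := mul_le_mul_of_nonneg_left hb hR.le

theorem ex_zero (c : Cm (n + 1)) (B : Matrix (Fin (n + 1)) (Fin n) ℤ) : ex c B 0 = c := by
  funext l
  simp [ex]

end GeoX

open GeoX

theorem geo_of (hbas : BAS) (hher : HER) (href : REF) (hcl : CL) (hmax : MAX) (hcmp : CMP)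
    (hloc : LOC) (hpar : PAR) (hpbk : PBK) (hexb : EXB) (hmass : MASS) : GEO := by
  intro N hN M hM
  have hMC := hM.C_pos
  have hN0 : (0 : ℝ) < N := by exact_mod_cast hN
  obtain ⟨K, hK, hREF⟩ := href N M hM
  obtain ⟨Ccl, hCcl, hCL⟩ := hcl N hN M hM K hK
  obtain ⟨Cc, hCc, hCMP⟩ := hcmp N M hM K hK
  obtain ⟨Ce, hCe, hEXB⟩ := hexb N M hM
  obtain ⟨C0, hC0d⟩ : ∃ C0 : ℝ, C0 = 4 * (K * M.C) * N := ⟨_, rfl⟩
  have hC0 : 0 < C0 := by rw [hC0d]; positivity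
  obtain ⟨Cl, Tl, hCl, hLOC⟩ := hloc N hN M hM (Cc * C0) (by positivity)
  obtain ⟨Cs, hCs, hMASS⟩ := hmass N hN M hM K (2 * Cc * Ce)⁻¹ hK (by positivity)
  obtain ⟨b, hb⟩ : ∃ b : ℝ, ∀ a l, ∑ i, |(M.B a l i : ℝ)| ≤ b := by
    refine ⟨∑ a, ∑ l, ∑ i, |(M.B a l i : ℝ)|, fun a l => ?_⟩
    calc ∑ i, |(M.B a l i : ℝ)| ≤ ∑ l, ∑ i, |(M.B a l i : ℝ)| :=
          Finset.single_le_sum (f := fun l => ∑ i, |(M.B a l i : ℝ)|)
            (fun _ _ => by positivity) (Finset.mem_univ l)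
      _ ≤ _ := Finset.single_le_sum (f := fun a => ∑ l, ∑ i, |(M.B a l i : ℝ)|)
            (fun _ _ => by positivity) (Finset.mem_univ a)
  obtain ⟨C1, h1, h2, h3, h4, h5⟩ : ∃ C1 : ℝ, Ce * (Cc * C0) ≤ C1 ∧ 4 * Ccl ≤ C1 ∧ Ce ≤ C1 ∧
      K * M.C ≤ C1 ∧ Cs ≤ C1 := by
    have p1 : 0 < Ce * (Cc * C0) := by positivity
    have p2 : 0 < K * M.C := by positivity
    exact ⟨Ce * (Cc * C0) + 4 * Ccl + Ce + K * M.C + Cs, by linarith, by linarith, by linarith,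
      by linarith, by linarith⟩
  have hC1 : 0 < C1 := hCe.trans_le h3
  refine ⟨C1, hC1, fun R η hR hη => ?_⟩
  obtain ⟨Z, hZd⟩ : ∃ Z : ℝ, Z = Cl * Real.exp (R * b) ^ 2 := ⟨_, rfl⟩
  have hZ : 0 < Z := by rw [hZd]; positivity
  obtain ⟨μ, hμ, hμη, hμ1⟩ : ∃ μ : ℝ, 0 < μ ∧ μ ≤ η ∧ μ < 1 :=
    ⟨min η (1 / 2), lt_min hη (by norm_num), min_le_left _ _,
      (min_le_right _ _).trans_lt (by norm_num)⟩
  refine ⟨2 * (Cc * (Ce * (1 + Z))), max (max 1 Tl) (Z / μ ^ 2), by positivity, ?_⟩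
  intro Y _ _ _ _ _ _ t F hT
  have hT1 : 1 ≤ TT t := ((le_max_left _ _).trans (le_max_left _ _)).trans hT
  have hTl : Tl ≤ TT t := ((le_max_right _ _).trans (le_max_left _ _)).trans hT
  have hTZ : Z / μ ^ 2 ≤ TT t := (le_max_right _ _).trans hT
  have hT0 : 0 < TT t := one_pos.trans_le hT1
  have hB := hbas N M hM Y t F hT0
  have hH := hher N M hM Y t F K hK hT0 hB
  have hR' := hREF Y t F hT1 hB hH
  have hlam := hH.lam_pos
  obtain ⟨A, hAd⟩ : ∃ A : ℝ, A = K * TT t / F.lam := ⟨_, rfl⟩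
  have hA : 0 < A := by rw [hAd]; positivity
  have hAK : A ≤ K * M.C := by
    rw [hAd, div_le_iff₀ hlam, mul_assoc]
    exact mul_le_mul_of_nonneg_left F.lam_lo hK.le
  have hβ : ∀ (e : Chart N Y) y, At e y → F.β K e (e y) =
      (A : ℂ) • F.w e (e y) + cHess (fun z => F.Ψ K (e.symm z)) (e y) := fun e y h => by
    rw [hAd]; exact hH.β_eq e y h
  obtain ⟨y₀, hy₀, hmx⟩ := hmax N hN Y F.w (F.Hh K) (F.Ψ K) A (Ccl / TT t) hA (by positivity)
    F.w_k.toIsHermitian hH.herm hH.Ψ_sm (hCL Y t F hT1 hB hH) (fun e y h => by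
      rw [← hβ e y h]; exact (hR' e y h).1)
  -- the bound with a uniform constant
  have hmx' : ∀ (e : Chart N Y) y, At e y → Le (F.Hh K e (e y))
      (((C0 * Real.exp (4 * (Ccl / TT t) * (F.Ψ K y₀ - F.Ψ K y)) : ℝ) : ℂ) • F.w e (e y)) := by
    intro e y h
    refine Le.trans (hmx e y h) (le_sc (F.w_k.posDef e y h).posSemidef ?_)
    refine mul_le_mul_of_nonneg_right ?_ (Real.exp_pos _).le
    rw [hC0d]
    exact mul_le_mul_of_nonneg_right (by linarith) hN0.le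
  obtain ⟨a, ha, ha1⟩ := F.cov y₀
  have hat : ∀ y : Y, At (chartAt (Cm N) y) y := fun y =>
    ⟨chart_mem_atlas _ y, mem_chart_source _ y⟩
  obtain ⟨hm, hc⟩ := hLOC Y t F hTl hB a _ y₀ (hat y₀) ha ha1 (by
    have k1 : Le _ _ := (hCMP Y t F hT1 hB a _ y₀ (hat y₀) ha ha1).1
    have k2 := (hmx' _ y₀ (hat y₀)).smul hCc.le
    rw [sub_self, mul_zero, Real.exp_zero, mul_one, sm_sm] at k2
    exact k1.trans k2)
  have hZb : ∀ v ∈ Tb N R, ∀ l, TT t * ‖ex (F.j a y₀) (M.B a) v l‖ ^ 2 ≤ Z := by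
    intro v hv l
    have k1 := norm_ex_le (c := F.j a y₀) hR hv (hb a l)
    have k2 : ‖ex (F.j a y₀) (M.B a) v l‖ ^ 2 ≤ (‖F.j a y₀ l‖ * Real.exp (R * b)) ^ 2 :=
      pow_le_pow_left₀ (norm_nonneg _) k1 2
    calc _ ≤ TT t * (‖F.j a y₀ l‖ * Real.exp (R * b)) ^ 2 := mul_le_mul_of_nonneg_left k2 hT0.le
      _ = TT t * ‖F.j a y₀ l‖ ^ 2 * Real.exp (R * b) ^ 2 := by ring
      _ ≤ Z := by
        rw [hZd]
        exact mul_le_mul_of_nonneg_right (hc l) (by positivity)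
  have hμb : ∀ v ∈ Tb N R, ‖ex (F.j a y₀) (M.B a) v‖ ≤ μ := by
    intro v hv
    refine (pi_norm_le_iff_of_nonneg hμ.le).2 fun l => ?_
    have k1 := hZb v hv l
    have k2 : Z ≤ TT t * μ ^ 2 := (div_le_iff₀ (by positivity)).1 hTZ
    have k3 : ‖ex (F.j a y₀) (M.B a) v l‖ ^ 2 ≤ μ ^ 2 := le_of_mul_le_mul_left (k1.trans k2) hT0
    exact (pow_le_pow_iff_left₀ (norm_nonneg _) hμ.le two_ne_zero).1 k3
  have hb1 : ∀ v ∈ Tb N R, ex (F.j a y₀) (M.B a) v ∈ ball (0 : Cm (N + 1)) 1 := fun v hv =>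
    mem_ball_zero_iff.2 ((hμb v hv).trans_lt hμ1)
  obtain ⟨Φ, hΦ⟩ := hpar N M hM Y t F hT0 hB a (F.j a y₀) R hm (hB.mem a y₀ ha).2 hb1
  have hP := hpbk N M hM Y t F hB a _ R Φ hΦ
  have hE := hEXB Y t F hT0 hB a _ R Φ hm hΦ hP
  have h0 : (0 : Cm N) ∈ Tb N R := fun i => by simpa using hR
  have hΦ0 : Φ 0 = y₀ := F.inj a (hΦ.mem 0 h0) ha (by rw [hΦ.eq 0 h0, ex_zero])
  -- comparison of the pulled back forms
  have key : ∀ v ∈ Tb N R,
      Le (1 : Matrix (Fin N) (Fin N) ℂ) (((Ce * Cc : ℝ) : ℂ) • pl (F.Hh K) Φ v) ∧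
      Le (pl (F.Hh K) Φ v) (((Cc * (Ce * (1 + Z)) : ℝ) : ℂ) • (1 : Matrix (Fin N) (Fin N) ℂ)) ∧
      Le (pl (F.Hh K) Φ v) (((2 : ℝ) : ℂ) • pl (F.β K) Φ v) ∧
      Le (pl (F.β K) Φ v) (((2 : ℝ) : ℂ) • pl (F.Hh K) Φ v) ∧
      Le (pl (F.Hh K) Φ v)
        (((C0 * Real.exp (4 * (Ccl / TT t) * (F.Ψ K y₀ - F.Ψ K (Φ v))) : ℝ) : ℂ) • pl F.w Φ v) ∧
      pl (F.β K) Φ v = (A : ℂ) • pl F.w Φ v + cHess (fun v' => F.Ψ K (Φ v')) v ∧
      (pl F.w Φ v).PosSemidef := by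
    intro v hv
    have hpl : ∀ c : Fm N Y, pl c Φ v = cg (jmat (fun v' => chartAt (Cm N) (Φ v) (Φ v')) v)
        (c (chartAt (Cm N) (Φ v)) (chartAt (Cm N) (Φ v) (Φ v))) := fun _ => rfl
    have hj := hΦ.eq v hv
    obtain ⟨c1, c2⟩ := hCMP Y t F hT1 hB a _ (Φ v) (hat _) (hΦ.mem v hv) (by
      rw [hj]; exact hb1 v hv)
    obtain ⟨-, e1, e2⟩ := hE v hv (hb1 v hv)
    have c1' := Le.cg c1 (jmat (fun v' => chartAt (Cm N) (Φ v) (Φ v')) v)
    have c2' := Le.cg c2 (jmat (fun v' => chartAt (Cm N) (Φ v) (Φ v')) v)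
    rw [cg_smul, cg_pb (hP.jac v hv _ (hat _)), ← hpl, hj] at c1' c2'
    obtain ⟨r1, r2⟩ := hR' _ (Φ v) (hat _)
    have r1' := Le.cg r1 (jmat (fun v' => chartAt (Cm N) (Φ v) (Φ v')) v)
    have r2' := Le.cg r2 (jmat (fun v' => chartAt (Cm N) (Φ v) (Φ v')) v)
    rw [cg_smul, ← hpl, ← hpl] at r1' r2'
    have m1 := (hmx' _ (Φ v) (hat _)).cg (jmat (fun v' => chartAt (Cm N) (Φ v) (Φ v')) v)
    rw [cg_smul, ← hpl, ← hpl] at m1
    refine ⟨?_, ?_, by simpa using r1', by simpa using r2', m1, ?_, ?_⟩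
    · have k := Le.trans e1 (c1'.smul hCe.le)
      rwa [sm_sm] at k
    · have k := c2'.trans (Le.smul hCc.le (e2 Z (hZb v hv)))
      rwa [sm_sm] at k
    · rw [hpl, hβ _ _ (hat _), cg_add, cg_smul, ← hpl, ← hP.hess _ hH.Ψ_sm v hv]
      rfl
    · rw [hpl]
      exact cg_psd _ (F.w_k.posDef _ _ (hat _)).posSemidef
  have hβlo : ∀ v ∈ Tb N R, Le ((((2 * Cc * Ce)⁻¹ : ℝ) : ℂ) • (1 : Matrix (Fin N) (Fin N) ℂ))
      (pl (F.β K) Φ v) := by
    intro v hv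
    obtain ⟨k1, -, k3, -⟩ := key v hv
    have k := (k1.trans (k3.smul (by positivity))).smul (c := (2 * Cc * Ce)⁻¹) (by positivity)
    rw [sm_sm, sm_sm, show (2 * Cc * Ce)⁻¹ * (Ce * Cc) * 2 = 1 by field_simp] at k
    simpa using k
  have hGh : ∀ v ∈ Tb N R, cHess (fun v' => F.Ψ K y₀ - F.Ψ K (Φ v')) v =
      (A : ℂ) • pl F.w Φ v - pl (F.β K) Φ v := by
    intro v hv
    rw [cHess_const_sub _ ((hP.sm _ hH.Ψ_sm v hv).of_le (by norm_cast)), (key v hv).2.2.2.2.2.1]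
    abel
  refine ⟨a, F.j a y₀, Φ, F.pot a (F.j a y₀) Φ, fun v => F.Ψ K y₀ - F.Ψ K (Φ v), hm, hΦ,
    fun v hv => ⟨(hμb v hv).trans hμη, hP.pot_eq v hv⟩,
    { φ_sm := hP.pot_sm
      G_sm := fun v hv => contDiffAt_const.sub (hP.sm _ hH.Ψ_sm v hv)
      G_nn := fun v _ => sub_nonneg.2 (hy₀ _)
      G_zero := by simp only [hΦ0, sub_self]
      G_per := fun v hv q => by simp only [hΦ.peri v hv q]
      lo := fun v hv => ?_
      det := fun v hv => ?_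
      ric := hP.ric
      Glo := fun v hv => ?_
      Ghi := fun v hv => ?_
      mass := fun v₀ hv₀ => ?_ }⟩
  · obtain ⟨k1, -, -, -, k5, -, k7⟩ := key v hv
    rw [← hP.pot_eq v hv]
    obtain ⟨G, hG⟩ : ∃ G, G = F.Ψ K y₀ - F.Ψ K (Φ v) := ⟨_, rfl⟩
    have hG0 : 0 ≤ G := by rw [hG]; exact sub_nonneg.2 (hy₀ _)
    rw [← hG] at k5 ⊢
    have k := k1.trans (k5.smul (by positivity))
    rw [sm_sm] at k
    have hle : Ce * Cc * (C0 * Real.exp (4 * (Ccl / TT t) * G)) ≤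
        C1 * Real.exp (C1 * G / TT t) := by
      have i1 : Real.exp (4 * (Ccl / TT t) * G) ≤ Real.exp (C1 * G / TT t) := by
        refine Real.exp_le_exp.2 ?_
        rw [show 4 * (Ccl / TT t) * G = 4 * Ccl * G / TT t by ring]
        exact div_le_div_of_nonneg_right (mul_le_mul_of_nonneg_right h2 hG0) hT0.le
      calc _ = Ce * (Cc * C0) * Real.exp (4 * (Ccl / TT t) * G) := by ring
        _ ≤ _ := mul_le_mul h1 i1 (Real.exp_pos _).le hC1.le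
    have k' := (k.trans (le_sc k7 hle)).smul
      (c := C1⁻¹ * Real.exp (-(C1 * G / TT t))) (by positivity)
    rw [sm_sm, show C1⁻¹ * Real.exp (-(C1 * G / TT t)) * (C1 * Real.exp (C1 * G / TT t)) = 1 by
      rw [Real.exp_neg]; field_simp, Complex.ofReal_one, one_smul] at k'
    exact k'
  · rw [← hP.pot_eq v hv]
    exact (hE v hv (hb1 v hv)).1.trans h3
  · obtain ⟨-, k2, -, k4, -, -, k7⟩ := key v hv
    have k := k4.trans (k2.smul (c := 2) (by norm_num))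
    rw [sm_sm] at k
    have k' := Matrix.PosSemidef.add k (psd_smul hA.le k7)
    rw [hGh v hv]
    have e : ∀ P Q S : Matrix (Fin N) (Fin N) ℂ, P - Q + S = S - Q + P := fun P Q S => by abel
    rw [e]
    exact k'
  · obtain ⟨-, -, -, -, -, -, k7⟩ := key v hv
    have k1 : Le _ _ := le_sc k7 (hAK.trans h4)
    have k2 : (pl (F.β K) Φ v).PosSemidef := by
      have k := Matrix.PosSemidef.add (hβlo v hv)
        (psd_smul (c := (2 * Cc * Ce)⁻¹) (by positivity) Matrix.PosSemidef.one)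
      rwa [sub_add_cancel] at k
    have k' := Matrix.PosSemidef.add k1 k2
    rw [hGh v hv, ← hP.pot_eq v hv]
    have e : ∀ P Q S : Matrix (Fin N) (Fin N) ℂ, P - (Q - S) = P - Q + S := fun P Q S => by abel
    rw [e]
    exact k'
  · refine (hMASS Y t F hT1 hB hH (fun e y h => ?_) a _ R Φ hΦ hP hβlo v₀ hv₀).trans
      (mul_le_mul_of_nonneg_right h5 (by positivity))
    have k := psd_smul (c := 1 / 2) (by norm_num)
      (Matrix.PosSemidef.add (hR' e y h).1 (hH.herm.posDef e y h).posSemidef)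
    rw [sub_add_cancel, smul_smul] at k
    have e2 : ((1 / 2 : ℝ) : ℂ) * 2 = 1 := by push_cast; ring
    rwa [e2, one_smul] at k

end Vale.Agent.P301Z.Key
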