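import Vale.Agent.P301Z.Key.Rows
import Vale.Agent.P272.K.C2.PosLin
import Mathlib.Analysis.Calculus.ContDiff.Bounds

/-!
# P301Z, block KEY: the algebra of the classes `GK`
-/

open scoped ContDiff ComplexOrder Topology Matrix
open Set Metric

noncomputable section

namespace Vale.Agent.P301Z.Key

open Vale.Agent.P272.K

namespace GkaX

variable {N : ℕ} {α : ℝ} {ι : Type}

theorem gk0 {q : ℕ} {f : ι → Cm N → ℂ} (h : GK α q f) : GK0 α f := by
  cases q with
  | zero => exact h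
  | succ q => exact h.1

theorem le1 {r s : ℝ} : ball (0 : Cm N) (min r s) ⊆ ball 0 r := ball_subset_ball (min_le_left _ _)

theorem le2 {r s : ℝ} : ball (0 : Cm N) (min r s) ⊆ ball 0 s := ball_subset_ball (min_le_right _ _)

theorem ev_eq {r : ℝ} {f g : Cm N → ℂ} (h : ∀ x ∈ ball (0 : Cm N) r, f x = g x) {x : Cm N}
    (hx : x ∈ ball (0 : Cm N) r) : f =ᶠ[𝓝 x] g :=
  Filter.eventually_of_mem (isOpen_ball.mem_nhds hx) h

theorem congr0 {f g : ι → Cm N → ℂ} {r : ℝ} (hr : 0 < r)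
    (h : ∀ i, ∀ x ∈ ball (0 : Cm N) r, f i x = g i x) (hf : GK0 α f) : GK0 α g := by
  obtain ⟨s, hs, h1, h2⟩ := hf
  exact ⟨min r s, lt_min hr hs, fun i x hx =>
    (h1 i x (le2 hx)).congr_of_eventuallyEq (ev_eq (h i) (le1 hx)).symm,
    (h2.mono_set le2).congr fun i x hx => h i x (le1 hx)⟩

theorem congr {q : ℕ} {f g : ι → Cm N → ℂ} {r : ℝ} (hr : 0 < r)
    (h : ∀ i, ∀ x ∈ ball (0 : Cm N) r, f i x = g i x) (hf : GK α q f) : GK α q g := by
  induction q generalizing f g with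
  | zero => exact congr0 hr h hf
  | succ q ih =>
    exact ⟨congr0 hr h hf.1, fun b => ih (fun i x hx => by
      rw [(ev_eq (h i) hx).fderiv_eq]) (hf.2 b)⟩

theorem mono {q : ℕ} {f : ι → Cm N → ℂ} (h : GK α (q + 1) f) : GK α q f := by
  induction q generalizing f with
  | zero => exact h.1
  | succ q ih => exact ⟨h.1, fun b => ih (h.2 b)⟩

theorem const0 (c : ℂ) : GK0 α fun (_ : ι) (_ : Cm N) => c :=
  ⟨1, one_pos, fun _ _ _ => contDiffAt_const, R.UH.const (norm_nonneg c)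
    ((R.hol_const α c _).mono_const (norm_nonneg c)) fun _ _ => le_rfl⟩

theorem const (q : ℕ) (c : ℂ) : GK α q fun (_ : ι) (_ : Cm N) => c := by
  induction q generalizing c with
  | zero => exact const0 c
  | succ q ih => exact ⟨const0 c, fun b => congr one_pos (fun i x _ => by simp) (ih 0)⟩

theorem diff {f : ι → Cm N → ℂ} (hf : GK0 α f) : ∃ r : ℝ, 0 < r ∧ ∀ i, ∀ x ∈ ball (0 : Cm N) r,
    DifferentiableAt ℝ (f i) x := by
  obtain ⟨r, hr, h1, -⟩ := hf
  exact ⟨r, hr, fun i x hx => (h1 i x hx).differentiableAt (by simp)⟩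

theorem add0 {f g : ι → Cm N → ℂ} (hf : GK0 α f) (hg : GK0 α g) :
    GK0 α fun i x => f i x + g i x := by
  obtain ⟨r, hr, h1, h2⟩ := hf
  obtain ⟨s, hs, h3, h4⟩ := hg
  exact ⟨min r s, lt_min hr hs, fun i x hx => (h1 i x (le1 hx)).add (h3 i x (le2 hx)),
    (h2.mono_set le1).add (h4.mono_set le2)⟩

theorem add {q : ℕ} {f g : ι → Cm N → ℂ} (hf : GK α q f) (hg : GK α q g) :
    GK α q fun i x => f i x + g i x := by
  induction q generalizing f g with
  | zero => exact add0 hf hg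
  | succ q ih =>
    obtain ⟨r, hr, h1⟩ := diff hf.1
    obtain ⟨s, hs, h2⟩ := diff hg.1
    exact ⟨add0 hf.1 hg.1, fun b => congr (lt_min hr hs) (fun i x hx => by
      rw [fderiv_fun_add (h1 i x (le1 hx)) (h2 i x (le2 hx))]
      rfl) (ih (hf.2 b) (hg.2 b))⟩

theorem mul0 {f g : ι → Cm N → ℂ} (hf : GK0 α f) (hg : GK0 α g) :
    GK0 α fun i x => f i x * g i x := by
  obtain ⟨r, hr, h1, h2⟩ := hf
  obtain ⟨s, hs, h3, h4⟩ := hg
  exact ⟨min r s, lt_min hr hs, fun i x hx => (h1 i x (le1 hx)).mul (h3 i x (le2 hx)),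
    (h2.mono_set le1).bilin (ContinuousLinearMap.mul ℝ ℂ) (h4.mono_set le2)⟩

theorem mul {q : ℕ} {f g : ι → Cm N → ℂ} (hf : GK α q f) (hg : GK α q g) :
    GK α q fun i x => f i x * g i x := by
  induction q generalizing f g with
  | zero => exact mul0 hf hg
  | succ q ih =>
    obtain ⟨r, hr, h1⟩ := diff hf.1
    obtain ⟨s, hs, h2⟩ := diff hg.1
    exact ⟨mul0 hf.1 hg.1, fun b => congr (lt_min hr hs) (fun i x hx => by
      rw [fderiv_fun_mul (h1 i x (le1 hx)) (h2 i x (le2 hx))]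
      rfl) (add (ih (mono hf) (hg.2 b)) (ih (mono hg) (hf.2 b)))⟩

theorem sum {κ : Type} (s : Finset κ) {q : ℕ} {f : κ → ι → Cm N → ℂ}
    (h : ∀ k ∈ s, GK α q (f k)) : GK α q fun i x => ∑ k ∈ s, f k i x := by
  classical
  induction s using Finset.induction_on with
  | empty => exact congr one_pos (fun i x _ => by simp) (const q 0)
  | insert a s ha ih =>
    exact congr one_pos (fun i x _ => by rw [Finset.sum_insert ha])
      (add (h a (Finset.mem_insert_self _ _)) (ih fun k hk => h k (Finset.mem_insert_of_mem hk)))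

theorem prod {κ : Type} (s : Finset κ) {q : ℕ} {f : κ → ι → Cm N → ℂ}
    (h : ∀ k ∈ s, GK α q (f k)) : GK α q fun i x => ∏ k ∈ s, f k i x := by
  classical
  induction s using Finset.induction_on with
  | empty => exact congr one_pos (fun i x _ => by simp) (const q 1)
  | insert a s ha ih =>
    exact congr one_pos (fun i x _ => by rw [Finset.prod_insert ha])
      (mul (h a (Finset.mem_insert_self _ _)) (ih fun k hk => h k (Finset.mem_insert_of_mem hk)))

theorem inv0 {d : ι → Cm N → ℂ} {r c : ℝ} (hr : 0 < r) (hc : 0 < c)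
    (h : ∀ i, ∀ x ∈ ball (0 : Cm N) r, c ≤ ‖d i x‖) (hd : GK0 α d) :
    GK0 α fun i x => (d i x)⁻¹ := by
  obtain ⟨s, hs, h1, C, hC, h2⟩ := hd
  have h0 : ∀ i, ∀ x ∈ ball (0 : Cm N) r, d i x ≠ 0 := fun i x hx =>
    norm_pos_iff.1 (hc.trans_le (h i x hx))
  have h3 : ∀ i, ∀ x ∈ ball (0 : Cm N) r, ‖(d i x)⁻¹‖ ≤ c⁻¹ := fun i x hx => by
    rw [norm_inv]
    exact inv_anti₀ hc (h i x hx)
  refine ⟨min r s, lt_min hr hs, fun i x hx => (h1 i x (le2 hx)).inv (h0 i x (le1 hx)),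
    R.UH.mk' (A := c⁻¹) (B := c⁻¹ * c⁻¹ * C) (fun i x hx => h3 i x (le1 hx))
      fun i x hx y hy => ?_⟩
  have e : (d i x)⁻¹ - (d i y)⁻¹ = -((d i x)⁻¹ * (d i y)⁻¹ * (d i x - d i y)) := by
    have a1 := h0 i x (le1 hx)
    have a2 := h0 i y (le1 hy)
    field_simp
    ring
  rw [e, norm_neg, norm_mul, norm_mul, mul_assoc (c⁻¹ * c⁻¹)]
  exact mul_le_mul (mul_le_mul (h3 i x (le1 hx)) (h3 i y (le1 hy)) (norm_nonneg _)
    (by positivity)) ((h2 i).1 x (le2 hx) y (le2 hy)) (norm_nonneg _) (by positivity)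

theorem inv {q : ℕ} {d : ι → Cm N → ℂ} {r c : ℝ} (hr : 0 < r) (hc : 0 < c)
    (h : ∀ i, ∀ x ∈ ball (0 : Cm N) r, c ≤ ‖d i x‖) (hd : GK α q d) :
    GK α q fun i x => (d i x)⁻¹ := by
  induction q with
  | zero => exact inv0 hr hc h hd
  | succ q ih =>
    obtain ⟨s, hs, h1⟩ := diff hd.1
    have h2 := ih (mono hd)
    refine ⟨inv0 hr hc h hd.1, fun b => congr (lt_min hr hs) (fun i x hx => ?_)
      (mul (const q (-1)) (mul (mul h2 h2) (hd.2 b)))⟩
    have h0 : d i x ≠ 0 := norm_pos_iff.1 (hc.trans_le (h i x (le1 hx)))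
    have h3 := ((hasFDerivAt_inv' (𝕜 := ℝ) h0).comp x (h1 i x (le2 hx)).hasFDerivAt).fderiv
    show _ = fderiv ℝ (Inv.inv ∘ d i) x b
    rw [h3]
    simp only [ContinuousLinearMap.comp_apply, neg_apply,
      ContinuousLinearMap.mulLeftRight_apply]
    ring

theorem det {q : ℕ} {H : ι → Cm N → Matrix (Fin N) (Fin N) ℂ}
    (h : ∀ p p', GK α q fun i x => H i x p p') : GK α q fun i x => (H i x).det :=
  congr one_pos (fun i x _ => by rw [Matrix.det_apply'])
    (sum Finset.univ fun (σ : Equiv.Perm (Fin N)) _ =>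
      mul (const q ((Equiv.Perm.sign σ : ℤ) : ℂ)) (prod Finset.univ fun k _ => h (σ k) k))

theorem adj {q : ℕ} {H : ι → Cm N → Matrix (Fin N) (Fin N) ℂ}
    (h : ∀ p p', GK α q fun i x => H i x p p') (p p' : Fin N) :
    GK α q fun i x => (H i x).adjugate p p' := by
  refine congr one_pos (fun i x _ => (Matrix.adjugate_apply _ _ _).symm) (det fun a b => ?_)
  by_cases ha : a = p'
  · exact congr one_pos (fun i x _ => by rw [ha, Matrix.updateRow_self]) (const q _)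
  · exact congr one_pos (fun i x _ => by rw [Matrix.updateRow_ne ha]) (h a b)

theorem det_lb {H : Matrix (Fin N) (Fin N) ℂ} {lam : ℝ} (hl : 0 < lam)
    (h : (H - (lam : ℂ) • (1 : Matrix (Fin N) (Fin N) ℂ)).PosSemidef) : lam ^ N ≤ ‖H.det‖ := by
  have h1 := Matrix.eval_charpoly (H - (lam : ℂ) • (1 : Matrix (Fin N) (Fin N) ℂ)) (-(lam : ℂ))
  have h2 : Matrix.scalar (Fin N) (-(lam : ℂ)) - (H - (lam : ℂ) • (1 : Matrix (Fin N) (Fin N) ℂ)) =
      -H := by
    rw [Matrix.scalar_apply, ← Matrix.smul_one_eq_diagonal, neg_smul]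
    abel
  rw [h2, h.1.charpoly_eq, Polynomial.eval_prod, Matrix.det_neg] at h1
  have h3 := congrArg norm h1
  rw [norm_mul, norm_pow, norm_neg, norm_one, one_pow, one_mul, norm_prod] at h3
  rw [← h3]
  calc lam ^ N = ∏ _i : Fin N, lam := by simp
    _ ≤ _ := Finset.prod_le_prod (fun _ _ => hl.le) fun k _ => by
        have h4 := h.eigenvalues_nonneg k
        have h5 : Polynomial.eval (-(lam : ℂ)) (Polynomial.X - Polynomial.C
            (RCLike.ofReal (h.1.eigenvalues k) : ℂ)) = ((-(lam + h.1.eigenvalues k) : ℝ) : ℂ) := by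
          rw [Polynomial.eval_sub, Polynomial.eval_X, Polynomial.eval_C]
          push_cast
          show _ - ((h.1.eigenvalues k : ℝ) : ℂ) = _
          ring
        rw [h5, Complex.norm_real, Real.norm_eq_abs, abs_neg, abs_of_nonneg (by linarith)]
        linarith

theorem inv_lb {H : Matrix (Fin N) (Fin N) ℂ} (hH : H.PosSemidef) (h0 : H.det ≠ 0) {L : ℝ}
    (hL : 0 < L) (h : ((L : ℂ) • (1 : Matrix (Fin N) (Fin N) ℂ) - H).PosSemidef) :
    (H⁻¹ - ((L⁻¹ : ℝ) : ℂ) • (1 : Matrix (Fin N) (Fin N) ℂ)).PosSemidef := by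
  have h1 := (hH.inv.conjTranspose_mul_mul_same ((L : ℂ) • 1 - H)).add h
  have hu : IsUnit H.det := isUnit_iff_ne_zero.2 h0
  have h2 := h1.smul (a := ((L⁻¹ * L⁻¹ : ℝ) : ℂ)) (by
    rw [Complex.zero_le_real]
    positivity)
  have hL' : (L : ℂ) ≠ 0 := by exact_mod_cast hL.ne'
  have e : ((L : ℂ) • (1 : Matrix (Fin N) (Fin N) ℂ) - H)ᴴ * H⁻¹ * ((L : ℂ) • 1 - H) +
      ((L : ℂ) • 1 - H) = ((L : ℂ) * L) • H⁻¹ - (L : ℂ) • 1 := by
    rw [h.1.eq, Matrix.sub_mul, Matrix.mul_nonsing_inv _ hu, Matrix.smul_mul, Matrix.one_mul,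
      Matrix.sub_mul, Matrix.one_mul, Matrix.smul_mul, Matrix.mul_sub, Matrix.nonsing_inv_mul _ hu,
      Matrix.mul_smul, Matrix.mul_one, smul_sub, smul_smul]
    abel
  have e1 : ((L⁻¹ * L⁻¹ : ℝ) : ℂ) * ((L : ℂ) * L) = 1 := by
    push_cast
    field_simp
  have e2 : ((L⁻¹ * L⁻¹ : ℝ) : ℂ) * (L : ℂ) = ((L⁻¹ : ℝ) : ℂ) := by
    push_cast
    field_simp
  rw [e, smul_sub, smul_smul, smul_smul, e1, e2, one_smul] at h2
  exact h2

theorem up_bd {H : Matrix (Fin N) (Fin N) ℂ} (hH : H.PosSemidef) {L : ℝ} (h : H.trace.re ≤ L) :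
    ((L : ℂ) • (1 : Matrix (Fin N) (Fin N) ℂ) - H).PosSemidef := by
  have h1 := C2.trace_smul_one_sub_posSemidef hH
  have h2 : (0 : ℂ) ≤ (L : ℂ) - H.trace := by
    have h3 := Complex.le_def.1 hH.trace_nonneg
    refine Complex.le_def.2 ⟨?_, ?_⟩
    · simpa using h
    · simpa using h3.2.symm
  have h4 := ((Matrix.PosSemidef.one (n := Fin N) (R := ℂ)).smul h2).add h1
  rwa [sub_smul, sub_add_sub_cancel] at h4

theorem minv {q : ℕ} {H : ι → Cm N → Matrix (Fin N) (Fin N) ℂ}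
    (h : ∀ p p', GK α q fun i x => H i x p p') {r lam : ℝ} (hr : 0 < r) (hl : 0 < lam)
    (hH : ∀ i, ∀ x ∈ ball (0 : Cm N) r,
      (H i x - (lam : ℂ) • (1 : Matrix (Fin N) (Fin N) ℂ)).PosSemidef) :
    (∀ p p', GK α q fun i x => (H i x)⁻¹ p p') ∧
    ∃ r lam : ℝ, 0 < r ∧ 0 < lam ∧ ∀ i, ∀ x ∈ ball (0 : Cm N) r,
      ((H i x)⁻¹ - (lam : ℂ) • (1 : Matrix (Fin N) (Fin N) ℂ)).PosSemidef := by
  have hc : 0 < lam ^ N := by positivity
  have hd : ∀ i, ∀ x ∈ ball (0 : Cm N) r, lam ^ N ≤ ‖(H i x).det‖ := fun i x hx =>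
    det_lb hl (hH i x hx)
  refine ⟨fun p p' => congr one_pos (fun i x _ => ?_) (mul (inv hr hc hd (det h)) (adj h p p')), ?_⟩
  · rw [Matrix.inv_def, Ring.inverse_eq_inv', Matrix.smul_apply, smul_eq_mul]
  · obtain ⟨s, hs, -, C, hC, h2⟩ := gk0 (sum Finset.univ fun p _ => h p p)
    refine ⟨min r s, (C + 1)⁻¹, lt_min hr hs, by positivity, fun i x hx => ?_⟩
    have h3 : (H i x).PosSemidef := by
      have h4 := (hH i x (le1 hx)).add ((Matrix.PosSemidef.one (n := Fin N) (R := ℂ)).smul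
        (Complex.zero_le_real.2 hl.le))
      rwa [sub_add_cancel] at h4
    refine inv_lb h3 (norm_pos_iff.1 (hc.trans_le (hd i x (le1 hx)))) (by positivity)
      (up_bd h3 ?_)
    have h5 : ‖(H i x).trace‖ ≤ C := (h2 i).2 x (le2 hx)
    linarith [Complex.re_le_norm (H i x).trace]

theorem gdz {q : ℕ} {f : ι → Cm N → ℂ} (h : GK α (q + 1) f) (j : Fin N) :
    GK α q fun i => dz j (f i) :=
  congr one_pos (fun i x _ => by
    unfold dz
    ring) (add (mul (const q (1 / 2)) (h.2 (Pi.single j 1)))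
      (mul (const q (-Complex.I / 2)) (h.2 (Pi.single j Complex.I))))

theorem gdzb {q : ℕ} {f : ι → Cm N → ℂ} (h : GK α (q + 1) f) (j : Fin N) :
    GK α q fun i => dzb j (f i) :=
  congr one_pos (fun i x _ => by
    unfold dzb
    ring) (add (mul (const q (1 / 2)) (h.2 (Pi.single j 1)))
      (mul (const q (Complex.I / 2)) (h.2 (Pi.single j Complex.I))))

theorem of_bdd0 (h1 : α < 1) {f : ι → Cm N → ℂ} {r : ℝ} (hr : 0 < r)
    (hf : ∀ i, ∀ x ∈ ball (0 : Cm N) r, ContDiffAt ℝ ∞ (f i) x)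
    (hb : ∀ j, ∃ C : ℝ, ∀ i, ∀ x ∈ ball (0 : Cm N) r, ‖iteratedFDeriv ℝ j (f i) x‖ ≤ C) :
    GK0 α f := by
  obtain ⟨A, hA⟩ := hb 0
  obtain ⟨B, hB⟩ := hb 1
  refine ⟨min r (1 / 2), lt_min hr (by norm_num), fun i x hx => hf i x (le1 hx),
    R.UH.mk' (A := A) (B := max B 0) (fun i x hx => ?_) fun i x hx y hy => ?_⟩
  · rw [← norm_iteratedFDeriv_zero (𝕜 := ℝ)]
    exact hA i x (le1 hx)
  · have h2 := (convex_ball (0 : Cm N) (min r (1 / 2))).norm_image_sub_le_of_norm_fderiv_le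
      (𝕜 := ℝ) (f := f i) (C := max B 0)
      (fun z hz => (hf i z (le1 hz)).differentiableAt (by simp)) (fun z hz => by
        rw [← norm_iteratedFDeriv_one]
        exact (hB i z (le1 hz)).trans (le_max_left _ _)) hy hx
    refine h2.trans (mul_le_mul_of_nonneg_left
      (Real.self_le_rpow_of_le_one (norm_nonneg _) ?_ h1.le) (le_max_right _ _))
    have a1 := mem_ball_zero_iff.1 (le2 hx)
    have a2 := mem_ball_zero_iff.1 (le2 hy)
    linarith [norm_sub_le x y]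

theorem of_bdd (h1 : α < 1) {q : ℕ} {f : ι → Cm N → ℂ} {r : ℝ} (hr : 0 < r)
    (hf : ∀ i, ∀ x ∈ ball (0 : Cm N) r, ContDiffAt ℝ ∞ (f i) x)
    (hb : ∀ j, ∃ C : ℝ, ∀ i, ∀ x ∈ ball (0 : Cm N) r, ‖iteratedFDeriv ℝ j (f i) x‖ ≤ C) :
    GK α q f := by
  induction q generalizing f with
  | zero => exact of_bdd0 h1 hr hf hb
  | succ q ih =>
    have h2 : ∀ i, ∀ x ∈ ball (0 : Cm N) r, ContDiffAt ℝ ∞ (fderiv ℝ (f i)) x := fun i x hx =>
      (hf i x hx).fderiv_right (m := ∞) (by simp)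
    refine ⟨of_bdd0 h1 hr hf hb, fun b => ih
      (fun i x hx => (h2 i x hx).clm_apply contDiffAt_const) fun j => ?_⟩
    obtain ⟨C, hC⟩ := hb (j + 1)
    refine ⟨‖b‖ * C, fun i x hx => (norm_iteratedFDeriv_clm_apply_const (h2 i x hx)
      (by exact_mod_cast le_top)).trans (mul_le_mul_of_nonneg_left ?_ (norm_nonneg _))⟩
    rw [norm_iteratedFDeriv_fderiv]
    exact hC i x hx

theorem to_bdd {q : ℕ} {f : ι → Cm N → ℂ} (h : GK α q f) :
    ∃ C : ℝ, ∀ i, ‖iteratedFDeriv ℝ q (f i) 0‖ ≤ C := by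
  induction q generalizing f with
  | zero =>
    obtain ⟨r, hr, -, C, -, h2⟩ := h
    exact ⟨C, fun i => by
      rw [norm_iteratedFDeriv_zero]
      exact (h2 i).2 0 (mem_ball_self hr)⟩
  | succ q ih =>
    obtain ⟨r, hr, h1, -⟩ := h.1
    obtain ⟨K, hK, h2⟩ := (Module.finBasis ℝ (Cm N)).exists_opNorm_le (F := ℂ)
    choose C hC using fun k => ih (h.2 (Module.finBasis ℝ (Cm N) k))
    have hS : 0 ≤ ∑ k, |C k| := Finset.sum_nonneg fun _ _ => abs_nonneg _
    refine ⟨K * ∑ k, |C k|, fun i => ?_⟩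
    have h3 : ContDiffAt ℝ ∞ (fderiv ℝ (f i)) 0 :=
      (h1 i 0 (mem_ball_self hr)).fderiv_right (m := ∞) (by simp)
    rw [← norm_iteratedFDeriv_fderiv]
    refine ContinuousMultilinearMap.opNorm_le_bound (by positivity) fun m => ?_
    rw [mul_assoc]
    refine h2 (by positivity) fun k => ?_
    have h4 := (ContinuousLinearMap.apply ℝ ℂ (Module.finBasis ℝ (Cm N) k)).iteratedFDeriv_comp_left
      h3 (i := q) (by exact_mod_cast le_top)
    have h5 : iteratedFDeriv ℝ q (fderiv ℝ (f i)) 0 m (Module.finBasis ℝ (Cm N) k) =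
        iteratedFDeriv ℝ q (fun x => fderiv ℝ (f i) x (Module.finBasis ℝ (Cm N) k)) 0 m :=
      (congrArg (fun T => T m) h4).symm
    rw [h5]
    refine (ContinuousMultilinearMap.le_opNorm _ _).trans
      (mul_le_mul_of_nonneg_right ((hC k i).trans ((le_abs_self _).trans ?_)) (by positivity))
    exact Finset.single_le_sum (f := fun k => |C k|) (fun _ _ => abs_nonneg _) (Finset.mem_univ k)

end GkaX

open GkaX in
theorem gka : GKA := fun _ _ _ h1 =>
  { mono := fun _ _ _ => mono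
    congr := fun _ _ _ _ ⟨_, hr, h⟩ => GkaX.congr hr h
    const := fun _ => const
    add := fun _ _ _ _ => add
    mul := fun _ _ _ _ => mul
    sum := fun _ _ s _ _ => sum s
    inv := fun _ _ _ h ⟨_, _, hr, hl, hH⟩ => minv h hr hl hH
    hess := fun _ _ _ h p p' => gdz (gdzb h p') p
    of_bdd := fun _ _ _ ⟨_, hr, hf, hb⟩ => of_bdd h1 hr hf hb
    to_bdd := fun _ _ _ => to_bdd }

end Vale.Agent.P301Z.Key
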