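import Vale.Agent.P301Z.Key.Rows

/-!
# P301Z, block KEY: the reference forms
-/

open scoped Manifold ContDiff ComplexOrder Topology Matrix
open Set Filter

noncomputable section

namespace Vale.Agent.P301Z.Key

open Vale.Agent.P272.K

namespace HerX

variable {N : ℕ}

theorem two {u : Cm N → ℝ} {z : Cm N} (h : ContDiffAt ℝ ∞ u z) : ContDiffAt ℝ 2 u z :=
  h.of_le (by norm_cast)

theorem cHess_sum {ι : Type} (s : Finset ι) {u : ι → Cm N → ℝ} {z : Cm N}
    (h : ∀ i, ContDiffAt ℝ 2 (u i) z) :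
    cHess (fun y => ∑ i ∈ s, u i y) z = ∑ i ∈ s, cHess (u i) z := by
  classical
  induction s using Finset.induction_on with
  | empty => simpa using C2.cHess_const (z := z) 0
  | insert i s hi ih =>
    simp only [Finset.sum_insert hi]
    rw [C2.cHess_add (h i) (ContDiffAt.sum fun j _ => h j), ih]

theorem cHess_sq {u : Cm N → ℝ} {z : Cm N} (h : ContDiffAt ℝ 2 u z) (p q : Fin N) :
    cHess (fun y => u y ^ 2 / 2) z p q = dz p (fun y => (u y : ℂ)) z *
      (starRingEnd ℂ) (dz q (fun y => (u y : ℂ)) z) + (u z : ℂ) * cHess u z p q := by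
  have := C2.cHess_comp (ψ := fun s => s ^ 2 / 2) (ψ₁ := fun s => s) (ψ₂ := 1)
    (Eventually.of_forall fun s => by simpa using (hasDerivAt_pow 2 s).div_const 2)
    (hasDerivAt_id _) h p q
  rw [this, C2.dzb_real q (h.differentiableAt (by norm_num)), Complex.ofReal_one, one_mul,
    add_comm]

variable {M : Model N} {Y : Type} [TopologicalSpace Y] [ChartedSpace (Cm N) Y] {t : ℂ}

/-- the matrix of the gradients -/
def A (F : Fib M Y t) (e : Chart N Y) (z : Cm N) : Matrix (Fin N) (Fin M.ni) ℂ :=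
  Matrix.of fun p i => dz p (fun y => (F.ρ i (e.symm y) : ℂ)) z

theorem P_eq (F : Fib M Y t) (e : Chart N Y) (z : Cm N) : F.P e z = A F e z * (A F e z)ᴴ := rfl

theorem P_form [IsManifold 𝓘(ℂ, Cm N) ω Y] {F : Fib M Y t} (hB : Bas F) : IsForm F.P := by
  intro e e' y h h'
  have h1 : A F e (e y) = (jacM e e' y)ᵀ * A F e' (e' y) := by
    ext p i
    have k1 : (fun z => (F.ρ i (e.symm z) : ℂ)) =ᶠ[𝓝 (e y)]
        fun z => (F.ρ i (e'.symm (e' (e.symm z))) : ℂ) := by
      filter_upwards [h.nhds_at h'] with z hz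
      rw [hz.2.2.left_inv]
    have k2 := dz_comp_holo (i := p) (f := fun z => (F.ρ i (e'.symm z) : ℂ))
      (τ := fun z => e' (e.symm z)) (z := e y) (by
        rw [h.left_inv]
        exact (C2.contDiffAt_ofReal (hB.ρ_sm i e' y h')).differentiableAt (by simp))
      (transition_differentiableAt h h')
    rw [h.left_inv] at k2
    exact ((C2.dz_congr p k1).trans k2).trans (Finset.sum_congr rfl fun _ _ => mul_comm _ _)
  rw [P_eq, P_eq, h1, Matrix.conjTranspose_mul]
  simp only [Matrix.mul_assoc]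
  rfl

end HerX

open HerX in
theorem her : HER := by
  intro N M hM Y _ _ _ t F K hK hT hB
  have hl : 0 < F.lam := (mul_pos_iff_of_pos_left hM.C_pos).1 (hT.trans_le F.lam_lo)
  have hP : ∀ (e : Chart N Y) z, (F.P e z).PosSemidef := fun e z =>
    P_eq F e z ▸ Matrix.posSemidef_self_mul_conjTranspose _
  have hq : ∀ i, SmoothFn (n := N) fun y => F.ρ i y ^ 2 / 2 := fun i e y h =>
    ((hB.ρ_sm i e y h).pow 2).div_const 2
  have hS : SmoothFn (n := N) F.S := fun e y h => ContDiffAt.sum fun i _ => hq i e y h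
  have hu : SmoothFn (n := N) fun y => K * TT t / F.lam * F.u y := fun e y h =>
    contDiffAt_const.mul (F.u_sm e y h)
  refine ⟨hl, fun e y _ => hP e _, ⟨fun e y h p q => ?_, fun e y h => ?_,
    (P_form hB).add (F.χ_k.toIsHermitian.isForm.smul _)⟩, hS,
    fun e y h => (hS e y h).sub (hu e y h), (F.χ_k.toIsHermitian.isForm.smul _).add
      (isForm_cHess fun e y h => two (hS e y h)), fun e y h => ?_, fun e y h => ?_⟩
  · have d : ∀ i p, ContDiffAt ℝ ∞ (dz p fun z => (F.ρ i (e.symm z) : ℂ)) (e y) := fun i p =>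
      C2.contDiffAt_dz p (C2.contDiffAt_ofReal (hB.ρ_sm i e y h)) le_rfl
    exact (ContDiffAt.sum (s := Finset.univ) fun i _ =>
      (d i p).mul (C2.contDiffAt_conj (d i q))).add
      ((contDiffAt_const (c := ((K * TT t : ℝ) : ℂ))).mul (F.χ_k.smooth e y h p q))
  · exact Matrix.PosDef.posSemidef_add (hP e _)
      ((F.χ_k.posDef e y h).smul (Complex.zero_lt_real.2 (mul_pos hK hT)))
  · have e1 : cHess (fun z => F.Ψ K (e.symm z)) (e y) = cHess (fun z => F.S (e.symm z)) (e y) -
        ((K * TT t / F.lam : ℝ) : ℂ) • cHess (fun z => F.u (e.symm z)) (e y) := by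
      rw [← C2.cHess_const_mul _ (two (F.u_sm e y h))]
      exact C2.cHess_sub (two (hS e y h)) (two (hu e y h))
    rw [e1, F.w_eq e y h, smul_add, smul_smul, ← Complex.ofReal_mul, div_mul_cancel₀ _ hl.ne',
      Fib.β]
    abel
  · have e1 : cHess (fun z => F.S (e.symm z)) (e y) = F.P e (e y) +
        ∑ i, (F.ρ i y : ℂ) • cHess (fun z => F.ρ i (e.symm z)) (e y) := by
      refine (cHess_sum (u := fun i z => F.ρ i (e.symm z) ^ 2 / 2) _
        fun i => two (hq i e y h)).trans ?_
      ext p q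
      simp only [Matrix.sum_apply, Matrix.add_apply, Matrix.smul_apply, smul_eq_mul, Fib.P,
        Matrix.of_apply, cHess_sq (two (hB.ρ_sm _ e y h)), Finset.sum_add_distrib, h.left_inv]
    rw [Fib.β, Fib.Hh, e1]
    abel

end Vale.Agent.P301Z.Key
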