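import Vale.Agent.P301Z.Key.Rows

/-!
# P301Z, block KEY: interpolation
-/

open scoped ContDiff Topology
open Set Metric Filter

noncomputable section

namespace Vale.Agent.P301Z.Key

open Vale.Agent.P272.K

namespace ItpX

variable {E F : Type*} [NormedAddCommGroup E] [NormedSpace ℝ E] [NormedAddCommGroup F]
  [NormedSpace ℝ F]

/-- a bounded function whose derivative has bounded oscillation has bounded derivative -/
theorem fderiv_le {f : E → F} {r A O : ℝ} (hr : 0 < r)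
    (hd : ∀ x ∈ ball (0 : E) r, DifferentiableAt ℝ f x) (hA : ∀ x ∈ ball (0 : E) r, ‖f x‖ ≤ A)
    (hO : ∀ x ∈ ball (0 : E) r, ‖fderiv ℝ f x - fderiv ℝ f 0‖ ≤ O) :
    ∀ x ∈ ball (0 : E) r, ‖fderiv ℝ f x‖ ≤ 4 * A / r + 2 * O := by
  have h0 : (0 : E) ∈ ball (0 : E) r := mem_ball_self hr
  have hA0 : 0 ≤ A := (norm_nonneg _).trans (hA 0 h0)
  have hO0 : 0 ≤ O := (norm_nonneg _).trans (hO 0 h0)
  have h1 : ‖fderiv ℝ f 0‖ ≤ 4 * A / r + O := by
    refine ContinuousLinearMap.opNorm_le_of_unit_norm (by positivity) fun h hh => ?_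
    have hn : ‖(r / 2) • h‖ = r / 2 := by
      rw [norm_smul, hh, mul_one, Real.norm_of_nonneg (by positivity)]
    have hm : (r / 2) • h ∈ ball (0 : E) r := by
      rw [mem_ball_zero_iff, hn]
      linarith
    have h2 := (convex_ball (0 : E) r).norm_image_sub_le_of_norm_fderiv_le' hd hO h0 hm
    rw [sub_zero, hn, map_smul] at h2
    have h3 : ‖(r / 2) • fderiv ℝ f 0 h‖ ≤ 2 * A + O * (r / 2) := by
      have e : (r / 2) • fderiv ℝ f 0 h =
          (f ((r / 2) • h) - f 0) - (f ((r / 2) • h) - f 0 - (r / 2) • fderiv ℝ f 0 h) := by abel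
      rw [e]
      refine (norm_sub_le _ _).trans (add_le_add ((norm_sub_le _ _).trans ?_) h2)
      linarith [hA _ hm, hA 0 h0]
    rw [norm_smul, Real.norm_of_nonneg (by positivity)] at h3
    have e2 : 4 * A / r + O = (2 * A + O * (r / 2)) / (r / 2) := by field_simp; ring
    rw [e2, le_div_iff₀ (by positivity), mul_comm]
    exact h3
  intro x hx
  have h4 := norm_le_insert' (fderiv ℝ f x) (fderiv ℝ f 0)
  linarith [hO x hx]

theorem hol_of_fderiv {f : E → F} {α r C : ℝ} (hα1 : α < 1) (hr : 0 < r)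
    (hd : ∀ x ∈ ball (0 : E) r, DifferentiableAt ℝ f x)
    (hC : ∀ x ∈ ball (0 : E) r, ‖fderiv ℝ f x‖ ≤ C) :
    R.Hol α (C * (2 * r) ^ (1 - α)) f (ball (0 : E) r) := by
  intro x hx y hy
  have hC0 : 0 ≤ C := (norm_nonneg _).trans (hC 0 (mem_ball_self hr))
  have h1 := (convex_ball (0 : E) r).norm_image_sub_le_of_norm_fderiv_le hd hC hy hx
  have h2 : ‖x - y‖ ≤ 2 * r := by
    have := norm_sub_le x y
    rw [mem_ball_zero_iff] at hx hy
    linarith
  refine h1.trans ?_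
  rw [mul_assoc]
  refine mul_le_mul_of_nonneg_left ?_ hC0
  have h3 : ‖x - y‖ = ‖x - y‖ ^ (1 - α) * ‖x - y‖ ^ α := by
    rw [← Real.rpow_add' (norm_nonneg _) (by simp), sub_add_cancel, Real.rpow_one]
  refine h3.le.trans (mul_le_mul_of_nonneg_right ?_ (Real.rpow_nonneg (norm_nonneg _) _))
  exact Real.rpow_le_rpow (norm_nonneg _) h2 (by linarith)

theorem cd_fderiv {f : E → F} {x : E} (h : ContDiffAt ℝ ∞ f x) :
    ContDiffAt ℝ ∞ (fderiv ℝ f) x := h.fderiv_right (m := ∞) le_rfl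

theorem cd_diff {f : E → F} {x : E} (h : ContDiffAt ℝ ∞ f x) : DifferentiableAt ℝ f x :=
  h.differentiableAt (by simp)

/-- bounds for the first two derivatives -/
theorem bounds (r B O : ℝ) (hr : 0 < r) : ∃ C : ℝ, ∀ f : E → F,
    (∀ x ∈ ball (0 : E) r, ContDiffAt ℝ ∞ f x ∧ ‖f x‖ ≤ B) →
    (∀ x ∈ ball (0 : E) r, ∀ y ∈ ball (0 : E) r,
      ‖fderiv ℝ (fderiv ℝ f) x - fderiv ℝ (fderiv ℝ f) y‖ ≤ O) →
    ∀ x ∈ ball (0 : E) (r / 2), ‖fderiv ℝ f x‖ ≤ C ∧ ‖fderiv ℝ (fderiv ℝ f) x‖ ≤ C := by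
  set C1 : ℝ := 4 * (2 * B) / (r / 2) + 2 * (O * (r / 2)) with hC1
  set C2 : ℝ := 4 * B / (r / 2) + 2 * C1 with hC2
  refine ⟨max C2 (4 * C2 / (r / 2) + 2 * O), fun f hf hO => ?_⟩
  have hr2 : 0 < r / 2 := by positivity
  have hs : ball (0 : E) (r / 2) ⊆ ball 0 r := ball_subset_ball (by linarith)
  have h0 : (0 : E) ∈ ball (0 : E) (r / 2) := mem_ball_self hr2
  have hO0 : 0 ≤ O := (ContinuousLinearMap.opNorm_nonneg _).trans (hO 0 (hs h0) 0 (hs h0))
  have h1 : ∀ a ∈ ball (0 : E) (r / 2), ‖fderiv ℝ f a - fderiv ℝ f 0‖ ≤ C1 := by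
    intro a ha
    have hm : ∀ x ∈ ball (0 : E) (r / 2), x + a ∈ ball (0 : E) r := by
      intro x hx
      rw [mem_ball_zero_iff] at hx ha ⊢
      linarith [norm_add_le x a]
    have hg : ∀ x ∈ ball (0 : E) (r / 2), HasFDerivAt (fun x => f (x + a) - f x)
        (fderiv ℝ f (x + a) - fderiv ℝ f x) x := fun x hx =>
      ((hasFDerivAt_comp_add_right a).2 (cd_diff (hf _ (hm x hx)).1).hasFDerivAt).sub
        (cd_diff (hf _ (hs hx)).1).hasFDerivAt
    have hg' : ∀ x ∈ ball (0 : E) (r / 2), HasFDerivAt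
        (fun x => fderiv ℝ f (x + a) - fderiv ℝ f x)
        (fderiv ℝ (fderiv ℝ f) (x + a) - fderiv ℝ (fderiv ℝ f) x) x := fun x hx =>
      ((hasFDerivAt_comp_add_right a).2
        (cd_diff (cd_fderiv (hf _ (hm x hx)).1)).hasFDerivAt).sub
        (cd_diff (cd_fderiv (hf _ (hs hx)).1)).hasFDerivAt
    have h2 := fderiv_le (f := fun x => f (x + a) - f x) (A := 2 * B) (O := O * (r / 2)) hr2
      (fun x hx => (hg x hx).differentiableAt)
      (fun x hx => (norm_sub_le _ _).trans (by linarith [(hf _ (hm x hx)).2, (hf _ (hs hx)).2]))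
      (fun x hx => by
        rw [(hg x hx).fderiv, (hg 0 h0).fderiv]
        have h3 := (convex_ball (0 : E) (r / 2)).norm_image_sub_le_of_norm_hasFDerivWithin_le
          (fun y hy => (hg' y hy).hasFDerivWithinAt)
          (fun y hy => hO _ (hm y hy) _ (hs hy)) h0 hx
        refine h3.trans (mul_le_mul_of_nonneg_left ?_ hO0)
        rw [sub_zero]
        exact (mem_ball_zero_iff.1 hx).le) 0 h0
    rwa [(hg 0 h0).fderiv, zero_add] at h2
  have h2 := fderiv_le hr2 (fun x hx => cd_diff (hf x (hs hx)).1) (fun x hx => (hf x (hs hx)).2) h1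
  have h3 := fderiv_le hr2 (fun x hx => cd_diff (cd_fderiv (hf x (hs hx)).1)) h2
    (fun x hx => hO x (hs hx) 0 (hs h0))
  exact fun x hx => ⟨(h2 x hx).trans (le_max_left _ _), (h3 x hx).trans (le_max_right _ _)⟩

theorem uh {ι : Type} {α r B : ℝ} (hα : 0 < α) (hα1 : α < 1) (hr : 0 < r) {w : ι → E → F}
    (hw : ∀ i, ∀ x ∈ ball (0 : E) r, ContDiffAt ℝ ∞ (w i) x ∧ ‖w i x‖ ≤ B)
    (hH : ∀ i, R.Hol α B (fderiv ℝ (fderiv ℝ (w i))) (ball (0 : E) r)) :
    R.UH α (ball (0 : E) (r / 2)) w ∧ R.UH α (ball (0 : E) (r / 2)) (fun i => fderiv ℝ (w i)) ∧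
      R.UH α (ball (0 : E) (r / 2)) fun i => fderiv ℝ (fderiv ℝ (w i)) := by
  obtain ⟨C, hC⟩ := bounds (E := E) (F := F) r B (B * (2 * r) ^ α) hr
  have hr2 : 0 < r / 2 := by positivity
  have hs : ball (0 : E) (r / 2) ⊆ ball 0 r := ball_subset_ball (by linarith)
  have h := fun i => hC (w i) (hw i) fun x hx y hy => (hH i x hx y hy).trans (by
    have hB : 0 ≤ B := (norm_nonneg _).trans (hw i x hx).2
    refine mul_le_mul_of_nonneg_left (Real.rpow_le_rpow (norm_nonneg _) ?_ hα.le) hB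
    have := norm_sub_le x y
    rw [mem_ball_zero_iff] at hx hy
    linarith)
  exact ⟨R.UH.mk' (fun i x hx => (hw i x (hs hx)).2) fun i => hol_of_fderiv hα1 hr2
      (fun x hx => cd_diff (hw i x (hs hx)).1) fun x hx => (h i x hx).1,
    R.UH.mk' (fun i x hx => (h i x hx).1) fun i => hol_of_fderiv hα1 hr2
      (fun x hx => cd_diff (cd_fderiv (hw i x (hs hx)).1)) fun x hx => (h i x hx).2,
    R.UH.mk' (fun i x hx => (h i x hx).2) fun i => (hH i).mono hs⟩

end ItpX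

open ItpX

theorem itp : ITP := by
  intro N α hα hα1 ι w r B hr hw hH
  obtain ⟨u0, u1, u2⟩ := uh hα hα1 hr (w := w) (B := B) hw hH
  have hr2 : 0 < r / 2 := by positivity
  have hs : ball (0 : Cm N) (r / 2) ⊆ ball 0 r := ball_subset_ball (by linarith)
  have c0 : ∀ i, ∀ x ∈ ball (0 : Cm N) (r / 2), ContDiffAt ℝ ∞ (fun x => (w i x : ℂ)) x :=
    fun i x hx => Complex.ofRealCLM.contDiff.contDiffAt.comp x (hw i x (hs hx)).1
  have c1 : ∀ (f : Cm N → ℂ) (x b : Cm N), ContDiffAt ℝ ∞ f x →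
      ContDiffAt ℝ ∞ (fun x => fderiv ℝ f x b) x :=
    fun f x b h => (cd_fderiv h).clm_apply contDiffAt_const
  let L : Cm N → (Cm N →L[ℝ] ℝ) →L[ℝ] ℂ := fun b =>
    Complex.ofRealCLM.comp (ContinuousLinearMap.apply ℝ ℝ b)
  have e1 : ∀ b i, ∀ x ∈ ball (0 : Cm N) (r / 2),
      L b (fderiv ℝ (w i) x) = fderiv ℝ (fun x => (w i x : ℂ)) x b := by
    intro b i x hx
    have h := (Complex.ofRealCLM.hasFDerivAt.comp x (cd_diff (hw i x (hs hx)).1).hasFDerivAt).fderiv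
    exact (congrArg (fun T => T b) h).symm
  refine ⟨⟨r / 2, hr2, c0, u0.clm Complex.ofRealCLM⟩, fun b =>
    ⟨⟨r / 2, hr2, fun i x hx => c1 _ x b (c0 i x hx), (u1.clm (L b)).congr (e1 b)⟩, fun b' =>
      ⟨r / 2, hr2, fun i x hx => c1 _ x b' (c1 _ x b (c0 i x hx)),
        (u2.clm ((L b).comp (ContinuousLinearMap.apply ℝ (Cm N →L[ℝ] ℝ) b'))).congr
          fun i x hx => ?_⟩⟩⟩
  have h1 : (fun x => fderiv ℝ (fun x => (w i x : ℂ)) x b) =ᶠ[𝓝 x]
      fun x => L b (fderiv ℝ (w i) x) := by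
    filter_upwards [isOpen_ball.mem_nhds hx] with y hy using (e1 b i y hy).symm
  have h2 := ((L b).hasFDerivAt.comp x
    (cd_diff (cd_fderiv (hw i x (hs hx)).1)).hasFDerivAt).fderiv
  show _ = fderiv ℝ (fun x => fderiv ℝ (fun x => (w i x : ℂ)) x b) x b'
  rw [h1.fderiv_eq]
  exact (congrArg (fun T => T b') h2).symm

end Vale.Agent.P301Z.Key
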