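import Vale.Agent.P301Z.Key.Rows

/-!
# P301Z, block KEY: integer bases
-/

open scoped ComplexOrder Matrix

set_option linter.all false

noncomputable section

namespace Vale.Agent.P301Z.Key

namespace KbX

variable {N : ℕ} {m : Fin (N + 1) → ℕ} {B : Matrix (Fin (N + 1)) (Fin N) ℤ}

theorem det_ne (h : IsKB m B) : (Bᵀ * B).det ≠ 0 := fun hd => by
  obtain ⟨q, hq, e⟩ := Matrix.exists_mulVec_eq_zero_iff.2 hd
  have e1 : B *ᵥ q ⬝ᵥ B *ᵥ q = 0 := by
    have := congrArg (fun v => q ⬝ᵥ v) e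
    simp only [dotProduct_zero] at this
    rwa [← Matrix.mulVec_mulVec, Matrix.dotProduct_mulVec, Matrix.vecMul_transpose] at this
  exact hq ((h.2 0 (by simp)).unique (dotProduct_self_eq_zero.1 e1) (Matrix.mulVec_zero B))

/-- the linear form -/
def fm (m : Fin (N + 1) → ℕ) : (Fin (N + 1) → ℤ) →ₗ[ℤ] ℤ :=
  ∑ l, (m l : ℤ) • LinearMap.proj l

theorem fm_apply (v : Fin (N + 1) → ℤ) : fm m v = ∑ l, (m l : ℤ) * v l := by
  simp [fm]

theorem rank_ker (h : ∃ l, 1 ≤ m l) : Module.finrank ℤ (LinearMap.ker (fm m)) = N := by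
  obtain ⟨l, hl⟩ := h
  have h1 := (LinearMap.ker (fm m)).finrank_quotient_add_finrank
  rw [(fm m).quotKerEquivRange.finrank_eq, Module.finrank_fin_fun] at h1
  have h2 : Module.finrank ℤ (LinearMap.range (fm m)) ≤ 1 :=
    (Submodule.finrank_le _).trans (Module.finrank_self ℤ).le
  have h3 : Module.finrank ℤ (LinearMap.range (fm m)) ≠ 0 := fun e => by
    have h4 : fm m (Pi.single l 1) ∈ (⊥ : Submodule ℤ ℤ) :=
      Submodule.finrank_eq_zero.1 e ▸ LinearMap.mem_range_self _ _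
    rw [Submodule.mem_bot, fm_apply, Finset.sum_eq_single l (fun k _ hk => by simp [hk])
      (by simp)] at h4
    simp at h4
    omega
  omega

end KbX

variable {N : ℕ} {m : Fin (N + 1) → ℕ} {B : Matrix (Fin (N + 1)) (Fin N) ℤ}

theorem IsKB.inj (h : IsKB m B) : Function.Injective (B.map (Int.cast : ℤ → ℂ)).mulVec := by
  have hd : ((B.map (Int.cast : ℤ → ℂ))ᵀ * B.map (Int.cast : ℤ → ℂ)).det ≠ 0 := by
    have e : (B.map (Int.cast : ℤ → ℂ))ᵀ * B.map (Int.cast : ℤ → ℂ) =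
        (Int.castRingHom ℂ).mapMatrix (Bᵀ * B) := by
      ext i j
      simp [Matrix.mul_apply]
    rw [e, ← RingHom.map_det]
    simpa using KbX.det_ne h
  intro x y e
  refine sub_eq_zero.1 (Matrix.eq_zero_of_mulVec_eq_zero hd ?_)
  rw [← Matrix.mulVec_mulVec, Matrix.mulVec_sub, e, sub_self, Matrix.mulVec_zero]

theorem IsKB.posDef (h : IsKB m B) : ((B.map (Int.cast : ℤ → ℂ))ᵀ * B.map (Int.cast : ℤ → ℂ) :
    Matrix (Fin N) (Fin N) ℂ).PosDef := by
  have e : (B.map (Int.cast : ℤ → ℂ))ᵀ = (B.map (Int.cast : ℤ → ℂ))ᴴ := by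
    ext i j
    simp
  rw [e]
  exact Matrix.PosDef.conjTranspose_mul_self _ h.inj

theorem kb : KB := by
  intro N m h
  let b := Module.finBasisOfFinrankEq ℤ (LinearMap.ker (KbX.fm m)) (KbX.rank_ker h)
  have e : ∀ q : Fin N → ℤ, (Matrix.of fun l i => (b i : Fin (N + 1) → ℤ) l) *ᵥ q =
      ((b.equivFun.symm q : LinearMap.ker (KbX.fm m)) : Fin (N + 1) → ℤ) := fun q => by
    funext l
    simp [Matrix.mulVec, dotProduct, mul_comm]
  refine ⟨Matrix.of fun l i => (b i : Fin (N + 1) → ℤ) l, fun i => ?_, fun v hv => ?_⟩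
  · exact (KbX.fm_apply _).symm.trans (b i).2
  · refine ⟨b.equivFun ⟨v, (KbX.fm_apply v).trans hv⟩, by
      simp only [e, LinearEquiv.symm_apply_apply], fun q hq => ?_⟩
    rw [eq_comm, ← LinearEquiv.eq_symm_apply]
    exact Subtype.ext ((e q).symm.trans hq).symm

end Vale.Agent.P301Z.Key
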