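import Vale.Agent.P301Z.Key.Rows
import Vale.Agent.P272.K.R.Final

/-!
# P301Z, block KEY: the linear interior estimate
-/

set_option maxSynthPendingDepth 3

open scoped ContDiff ComplexOrder Topology Matrix
open Set Metric Filter

namespace Vale.Agent.P301Z.Key

open Vale.Agent.P272.K Vale.Agent.P272.K.R

namespace Lin0X

theorem uh_pi {E F ι κ : Type} [NormedAddCommGroup E] [NormedAddCommGroup F] [Fintype κ] {α : ℝ}
    {s : Set E} {f : κ → ι → E → F} (h : ∀ k, UH α s (f k)) : UH α s fun i x k => f k i x := by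
  choose C hC h using h
  have h1 : ∀ k, C k ≤ ∑ k, C k := fun k =>
    Finset.single_le_sum (fun k _ => hC k) (Finset.mem_univ k)
  have h0 : 0 ≤ ∑ k, C k := Finset.sum_nonneg fun k _ => hC k
  exact ⟨_, h0, fun i => ⟨fun x hx y hy => (pi_norm_le_iff_of_nonneg (by positivity)).2 fun k =>
    (h k i).1.mono_const (h1 k) x hx y hy, fun x hx => (pi_norm_le_iff_of_nonneg h0).2 fun k =>
      ((h k i).2 x hx).trans (h1 k)⟩⟩

theorem hol_loc {E F : Type} [NormedAddCommGroup E] [NormedSpace ℝ E] [FiniteDimensional ℝ E]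
    [NormedAddCommGroup F] [NormedSpace ℝ F] {α r : ℝ} (hα1 : α ≤ 1) (hr : r ≤ 1 / 2) {f : E → F}
    (hf : ∀ x ∈ closedBall (0 : E) r, ContDiffAt ℝ 1 f x) : ∃ T, 0 ≤ T ∧ Hol α T f (ball 0 r) := by
  obtain ⟨B, hB⟩ := (isCompact_closedBall (0 : E) r).exists_bound_of_continuousOn
    (f := fderiv ℝ f) fun x hx =>
      ((hf x hx).fderiv_right (m := 0) (by norm_num)).continuousAt.continuousWithinAt
  refine ⟨|B|, abs_nonneg _, fun x hx y hy => ?_⟩
  refine ((convex_ball (0 : E) r).norm_image_sub_le_of_norm_fderiv_le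
    (fun z hz => (hf z (ball_subset_closedBall hz)).differentiableAt (by norm_num))
    (fun z hz => (hB z (ball_subset_closedBall hz)).trans (le_abs_self _)) hy hx).trans
    (mul_le_mul_of_nonneg_left (Real.self_le_rpow_of_le_one (norm_nonneg _) ?_ hα1) (abs_nonneg _))
  linarith [norm_sub_le x y, mem_ball_zero_iff.1 hx, mem_ball_zero_iff.1 hy]

theorem fam {E ι : Type} [NormedAddCommGroup E] [NormedSpace ℝ E] [FiniteDimensional ℝ E] {α : ℝ}
    (hα : 0 < α) (hα1 : α < 1) {r₀ : ℝ} (hr₀ : 0 < r₀) {A : ι → E → Bil E →L[ℝ] ℝ} {w : ι → E → ℝ}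
    {B₀ : Bil E →L[ℝ] ℝ} (hB₀ : ∀ l : E →L[ℝ] ℝ, l ≠ 0 → 0 < B₀ (l.smulRight l))
    (hA : UH α (ball 0 r₀) A) (hl : ∀ i (l : E →L[ℝ] ℝ), B₀ (l.smulRight l) ≤ A i 0 (l.smulRight l))
    (hw : ∀ i, ∀ x ∈ ball (0 : E) r₀, ContDiffAt ℝ ∞ (w i) x) (hw0 : UH α (ball 0 r₀) w)
    (hw1 : UH α (ball 0 r₀) fun i => fderiv ℝ (w i))
    (hg : UH α (ball 0 r₀) fun i x => A i x (D2 (w i) x)) :
    ∃ r, 0 < r ∧ ∃ C, ∀ i, Hol α C (D2 (w i)) (ball 0 r) := by
  obtain ⟨M, hM, hA⟩ := hA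
  have : ProperSpace (Bil E →L[ℝ] ℝ) := FiniteDimensional.proper ℝ _
  have hS : IsCompact (closedBall (0 : Bil E →L[ℝ] ℝ) M ∩
      ⋂ l : E →L[ℝ] ℝ, {B | B₀ (l.smulRight l) ≤ B (l.smulRight l)}) :=
    (isCompact_closedBall _ _).inter_right (isClosed_iInter fun l =>
      isClosed_le continuous_const (continuous_id.clm_apply continuous_const))
  have key := hS.induction_on
    (p := fun T => ∃ r, 0 < r ∧ ∃ C, ∀ i, A i 0 ∈ T → Hol α C (D2 (w i)) (ball 0 r))
    ⟨1, one_pos, 0, fun _ h => h.elim⟩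
    (fun _ _ h ⟨r, hr, C, hC⟩ => ⟨r, hr, C, fun i hi => hC i (h hi)⟩)
    (fun _ _ ⟨r, hr, C, hC⟩ ⟨r', hr', C', hC'⟩ => ⟨min r r', lt_min hr hr', max C C', fun i hi =>
      hi.elim (fun h => ((hC i h).mono (ball_subset_ball (min_le_left _ _))).mono_const
        (le_max_left _ _)) fun h => ((hC' i h).mono (ball_subset_ball (min_le_right _ _))).mono_const
          (le_max_right _ _)⟩) ?_
  · obtain ⟨r, hr, C, hC⟩ := key
    exact ⟨r, hr, C, fun i => hC i ⟨mem_closedBall_zero_iff.2 ((hA i).2 0 (mem_ball_self hr₀)),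
      mem_iInter.2 (hl i)⟩⟩
  intro B hB
  obtain ⟨C, hC, hcce⟩ := allCCE E hα hα1 B fun l h => (hB₀ l h).trans_le (mem_iInter.1 hB.2 l)
  have hε : 0 < 1 / (8 * (C + 1)) := by positivity
  have h1 : Tendsto (fun r : ℝ => M * (3 * r) ^ α) (𝓝[>] 0) (𝓝 0) := by
    have : Continuous fun r : ℝ => M * (3 * r) ^ α :=
      continuous_const.mul ((continuous_const.mul continuous_id).rpow_const fun _ => .inr hα.le)
    simpa [Real.zero_rpow hα.ne'] using (this.tendsto 0).mono_left nhdsWithin_le_nhds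
  obtain ⟨r, h2, h3⟩ := ((h1.eventually (eventually_le_nhds hε)).and
    (Ioo_mem_nhdsGT (lt_min hr₀ one_half_pos))).exists
  have hr : 0 < r := h3.1
  have hs : closedBall (0 : E) r ⊆ ball 0 r₀ :=
    closedBall_subset_ball (h3.2.trans_le (min_le_left _ _))
  have hs' := ball_subset_closedBall.trans hs
  refine ⟨_, mem_nhdsWithin_of_mem_nhds (closedBall_mem_nhds B hε), r / 2, half_pos hr, ?_⟩
  refine (interior_family hα hα1.le hC hcce
    (ι := {i // A i 0 ∈ closedBall B (1 / (8 * (C + 1)))}) hr (A := fun i => A i) (w := fun i => w i)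
    (ε := 2 * (1 / (8 * (C + 1)))) (by positivity) hM (fun i x hx => ?_)
    (fun i => (hA i).1.mono hs') ?_
    (fun i x hx => ((hw i x (hs' hx)).of_le (by norm_cast)).contDiffWithinAt)
    ((hw0.mono_set hs').comp _) ((hw1.mono_set hs').comp _)
    (fun i => hol_loc hα1.le (h3.2.le.trans (min_le_right _ _)) fun x hx =>
      ((hw i x (hs hx)).fderiv_right (m := ∞) le_rfl).fderiv_right (by norm_cast))
    ((hg.mono_set hs').comp _)).imp fun C' hC' i hi => hC'.2 ⟨i, hi⟩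
  · have h4 := (hA i).1 x (hs' hx) 0 (mem_ball_self hr₀)
    have h5 : ‖x - 0‖ ^ α ≤ (3 * r) ^ α := Real.rpow_le_rpow (norm_nonneg _)
      (by linarith [mem_ball_iff_norm.1 hx]) hα.le
    linarith [norm_sub_le_norm_sub_add_norm_sub (A i x) (A i 0) B, mem_closedBall_iff_norm.1 i.2,
      mul_le_mul_of_nonneg_left h5 hM]
  · have h4 : C * (1 / (8 * (C + 1))) ≤ 1 / 8 := by
      rw [mul_one_div, div_le_div_iff₀ (by positivity) (by norm_num)]
      linarith
    nlinarith [mul_le_mul_of_nonneg_left h2 hC]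

theorem exists_op (N : ℕ) : ∃ L : (Fin N → Fin N → ℂ) →L[ℝ] Bil (Cm N) →L[ℝ] ℝ,
    ∀ (A : Matrix (Fin N) (Fin N) ℂ) B, L A B = (A * P272.K.N.lev B).trace.re :=
  ⟨LinearMap.toContinuousLinearMap (LinearMap.toContinuousLinearMap.toLinearMap ∘ₗ
    LinearMap.mk₂ ℝ (fun (A : Fin N → Fin N → ℂ) B => (Matrix.of A * P272.K.N.lev B).trace.re)
      (fun A A' B => by simp [← Matrix.of_add_of, add_mul])
      (fun c A B => by simp [← Matrix.smul_of])
      (fun A B B' => by simp [P272.K.N.lev_add, mul_add]) fun c A B => by simp [P272.K.N.lev_smul]),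
    fun _ _ => rfl⟩

theorem pos {N : ℕ} {A : Matrix (Fin N) (Fin N) ℂ} (hA : A.PosDef) {l : Cm N →L[ℝ] ℝ} (hl : l ≠ 0) :
    0 < (A * P272.K.N.lev (l.smulRight l)).trace.re := by
  simpa only [Matrix.nonsing_inv_nonsing_inv _ ((Matrix.isUnit_iff_isUnit_det _).1 hA.isUnit)]
    using P272.K.N.trace_inv_lev_pos hA.inv hl

theorem ev {N : ℕ} {ι : Type} {α : ℝ} {f : ι → Cm N → ℂ} (h : GK0 α f) : ∀ᶠ r in 𝓝[>] (0 : ℝ),
    (∀ i, ∀ x ∈ ball (0 : Cm N) r, ContDiffAt ℝ ∞ (f i) x) ∧ UH α (ball (0 : Cm N) r) f := by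
  obtain ⟨r, hr, h1, h2⟩ := h
  filter_upwards [Ioo_mem_nhdsGT hr] with s hs
  exact ⟨fun i x hx => h1 i x (ball_subset_ball hs.2.le hx), h2.mono_set (ball_subset_ball hs.2.le)⟩

end Lin0X

open Lin0X in
theorem lin0_of (hI : ITP) : LINq 0 := by
  rintro N α hα hα1 ι A w hA ⟨r₁, lam, hr₁, hlam, hlo⟩ ⟨hw, hw'⟩ hg
  obtain ⟨L, hL⟩ := exists_op N
  let b := Module.finBasis ℝ (Cm N)
  obtain ⟨r, ⟨⟨⟨k1, k2⟩, k3⟩, k4⟩, hr⟩ := (((((eventually_all.2 fun p => eventually_all.2 fun p' =>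
    ev (hA p p')).and (ev hw)).and (eventually_all.2 fun k => ev (hw' (b k)))).and (ev hg)).and
      self_mem_nhdsWithin).exists
  have hsm : ∀ i, ∀ x ∈ ball (0 : Cm N) r, ContDiffAt ℝ ∞ (w i) x := fun i x hx =>
    Complex.reCLM.contDiff.contDiffAt.comp x (k2.1 i x hx)
  have hw0 : UH α (ball 0 r) w := k2.2.clm Complex.reCLM
  have hp : ((lam / 2 : ℝ) : ℂ) • (1 : Matrix (Fin N) (Fin N) ℂ) |>.PosDef :=
    Matrix.PosDef.one.smul (by exact_mod_cast half_pos hlam)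
  refine (fam hα hα1 hr (A := fun i x => L (A i x)) (w := w)
    (B₀ := L (((lam / 2 : ℝ) : ℂ) • (1 : Matrix (Fin N) (Fin N) ℂ)))
    (fun l hl => by rw [hL]; exact pos hp hl)
    ((uh_pi fun p => uh_pi fun p' => (k1 p p').2).clm L) (fun i l => ?_) hsm hw0 ?_ ?_).elim ?_
  rotate_right
  · rintro r' ⟨hr', C, hC⟩
    obtain ⟨B, -, hB⟩ := hw0
    refine hI N α hα hα1 ι w (min r r') (max B C) (lt_min hr hr') (fun i x hx => ?_) fun i =>
      ((hC i).mono (ball_subset_ball (min_le_right _ _))).mono_const (le_max_right _ _)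
    have hx' := ball_subset_ball (min_le_left _ _) hx
    exact ⟨hsm i x hx', ((hB i).2 x hx').trans (le_max_left _ _)⟩
  · rcases eq_or_ne l 0 with rfl | hl
    · rw [show (0 : Cm N →L[ℝ] ℝ).smulRight (0 : Cm N →L[ℝ] ℝ) = 0 by ext; simp, map_zero, map_zero]
    · have h1 := pos (Matrix.PosDef.posSemidef_add (hlo i 0 (mem_ball_self hr₁)) hp) hl
      rw [show A i 0 - (lam : ℂ) • 1 + ((lam / 2 : ℝ) : ℂ) • 1 =
        A i 0 - ((lam / 2 : ℝ) : ℂ) • (1 : Matrix (Fin N) (Fin N) ℂ) by push_cast; module, sub_mul,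
        Matrix.trace_sub, Complex.sub_re] at h1
      rw [hL, hL]
      linarith
  · refine ((uh_pi fun k => (k3 k).2.clm Complex.reCLM).clm (LinearMap.toContinuousLinearMap
      (LinearMap.toContinuousLinearMap.toLinearMap ∘ₗ (b.constr (M' := ℝ) ℝ).toLinearMap))).congr
      fun i x _ => ?_
    refine ContinuousLinearMap.coe_injective (b.ext fun k => ?_)
    simp [P272.K.N.fderiv_ofReal_comp]
  · refine (k4.2.clm Complex.reCLM).congr fun i x hx => ?_
    rw [hL, P272.K.N.cHess_eq_lev (((hsm i x hx).fderiv_right (m := ∞) le_rfl).differentiableAt (by simp))]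
    rfl

end Vale.Agent.P301Z.Key
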