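import Vale.Agent.P301Z.Key.Rows

/-!
# P301Z, block KEY: the linear interior estimate of all orders
-/

open scoped ContDiff ComplexOrder Topology Matrix
open Set Metric Filter

noncomputable section

namespace Vale.Agent.P301Z.Key

open Vale.Agent.P272.K Vale.Agent.P272.K.C2

namespace LinsX

variable {N : ℕ} {ι : Type} {α : ℝ}

theorem gk0 : ∀ {q : ℕ} {f : ι → Cm N → ℂ}, GK α q f → GK0 α f
  | 0, _, h => h
  | _ + 1, _, h => h.1

theorem sm_ev {q : ℕ} {f : ι → Cm N → ℂ} (h : GK α q f) :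
    ∀ᶠ x in 𝓝 (0 : Cm N), ∀ i, ContDiffAt ℝ ∞ (f i) x := by
  obtain ⟨r, hr, h1, -⟩ := gk0 h
  filter_upwards [ball_mem_nhds (0 : Cm N) hr] with x hx i using h1 i x hx

theorem gk_one (G : GKAlg N α) : ∀ {q : ℕ} {f : ι → Cm N → ℂ}, GK α (q + 1) f → GK α 1 f
  | 0, _, h => h
  | q + 1, f, h => gk_one G (G.mono ι (q + 1) f h)

/-- the derivative of a real function -/
def dr (w : Cm N → ℝ) (b x : Cm N) : ℝ := (fderiv ℝ (fun y => (w y : ℂ)) x b).re

theorem dr_eq (w : Cm N → ℝ) (b x : Cm N) :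
    (dr w b x : ℂ) = fderiv ℝ (fun y => (w y : ℂ)) x b := by
  refine Complex.ext (Complex.ofReal_re _) ?_
  rw [Complex.ofReal_im]
  by_cases h : DifferentiableAt ℝ (fun y => (w y : ℂ)) x
  · have h1 := Complex.imCLM.hasFDerivAt.comp x h.hasFDerivAt
    have e : (Complex.imCLM ∘ fun y => (w y : ℂ)) = fun _ => (0 : ℝ) :=
      funext fun y => Complex.ofReal_im (w y)
    rw [e] at h1
    exact congrArg (fun T : Cm N →L[ℝ] ℝ => T b) ((hasFDerivAt_const (0 : ℝ) x).unique h1)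
  · rw [fderiv_zero_of_not_differentiableAt h]
    rfl

theorem fd_eq (f : Cm N → ℂ) (b x : Cm N) : fderiv ℝ f x b = DD 1 0 b b f x := by simp [DD]

theorem hess_comm {w : Cm N → ℝ} {x : Cm N} (h : ContDiffAt ℝ ∞ (fun y => (w y : ℂ)) x)
    (b : Cm N) (p p' : Fin N) :
    fderiv ℝ (fun y => cHess w y p p') x b = cHess (dr w b) x p p' := by
  have h3 : ContDiffAt ℝ 3 (fun y => (w y : ℂ)) x := h.of_le (WithTop.coe_le_coe.2 le_top)
  have h2 : ContDiffAt ℝ 2 (fun y => (w y : ℂ)) x := h3.of_le (by norm_num)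
  have e1 : (fun y => (dr w b y : ℂ)) = DD 1 0 b b fun y => (w y : ℂ) :=
    funext fun y => (dr_eq w b y).trans (fd_eq _ b y)
  have e2 : dzb p' (DD 1 0 b b fun y => (w y : ℂ)) =ᶠ[𝓝 x]
      DD 1 0 b b (dzb p' fun y => (w y : ℂ)) := by
    filter_upwards [h2.eventually (by simp)] with y hy
    simp only [dzb_eq_DD']
    exact DD_comm _ _ _ _ _ _ _ _ hy
  show fderiv ℝ (dz p (dzb p' fun y => (w y : ℂ))) x b = dz p (dzb p' fun y => (dr w b y : ℂ)) x
  rw [e1, C2.dz_congr p e2, fd_eq, dz_eq_DD', dz_eq_DD']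
  exact DD_comm _ _ _ _ _ _ _ _ (C2.contDiffAt_dzb (m := 2) p' h3 (by norm_num))

theorem tr_der {A : Cm N → Matrix (Fin N) (Fin N) ℂ} {w : Cm N → ℝ} {x : Cm N}
    (hA : ∀ p p', ContDiffAt ℝ ∞ (fun y => A y p p') x)
    (h : ContDiffAt ℝ ∞ (fun y => (w y : ℂ)) x) (b : Cm N) :
    fderiv ℝ (fun y => (A y * cHess w y).trace) x b +
      (-1) * ∑ p, ∑ p', fderiv ℝ (fun y => A y p p') x b * cHess w x p' p =
      (A x * cHess (dr w b) x).trace := by
  have h3 : ContDiffAt ℝ 3 (fun y => (w y : ℂ)) x := h.of_le (WithTop.coe_le_coe.2 le_top)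
  have d1 : ∀ p p', DifferentiableAt ℝ (fun y => A y p p') x := fun p p' =>
    (hA p p').differentiableAt (by simp)
  have d2 : ∀ p p', DifferentiableAt ℝ (fun y => cHess w y p p') x := fun p p' =>
    C2.differentiableAt_dz p (C2.contDiffAt_dzb (m := 2) p' h3 (by norm_num))
  simp only [Matrix.trace, Matrix.diag_apply, Matrix.mul_apply, ← hess_comm h b, fd_eq]
  rw [DD_sum _ _ _ _ _ fun p _ => DifferentiableAt.fun_sum fun p' _ => (d1 p p').fun_mul (d2 p' p),
    Finset.mul_sum, ← Finset.sum_add_distrib]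
  refine Finset.sum_congr rfl fun p _ => ?_
  rw [DD_sum _ _ _ _ _ fun p' _ => (d1 p p').fun_mul (d2 p' p), Finset.mul_sum,
    ← Finset.sum_add_distrib]
  refine Finset.sum_congr rfl fun p' _ => ?_
  rw [DD_mul _ _ _ _ (d1 p p') (d2 p' p)]
  ring

end LinsX

open LinsX

theorem lin_of (hA : GKA) (h0 : LINq 0) : ∀ q, LINq q := by
  intro q
  induction q with
  | zero => exact h0
  | succ q ih =>
    intro N α a0 a1 ι A w h1 h2 h3 h4
    have G := hA N α a0 a1
    have h5 : ∀ p p', GK α q fun i x => A i x p p' := fun p p' => G.mono ι q _ (h1 p p')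
    have h6 := ih N α a0 a1 ι A w h5 h2 h3 (G.mono ι q _ h4)
    refine ⟨gk0 h3, fun b => ?_⟩
    have h7 : GK α (q + 1) fun i x => (dr (w i) b x : ℂ) := by
      simp only [dr_eq]
      exact h6.2 b
    have h8 := ih N α a0 a1 ι A (fun i => dr (w i) b) h5 h2 (gk_one G h7) (by
      refine G.congr ι q _ _ ?_ (G.add ι q _ _ (h4.2 b) (G.mul ι q _ _ (G.const ι q (-1))
        (G.sum ι _ Finset.univ q _ fun p _ => G.sum ι _ Finset.univ q _ fun p' _ =>
          G.mul ι q _ _ ((h1 p p').2 b) (G.hess ι q w h6 p' p))))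
      have h9 : ∀ᶠ x in 𝓝 (0 : Cm N), ∀ p p' i, ContDiffAt ℝ ∞ (fun y => A i y p p') x :=
        eventually_all.2 fun p => eventually_all.2 fun p' => sm_ev (h1 p p')
      obtain ⟨r, hr, h10⟩ := eventually_nhds_iff_ball.1 (h9.and (sm_ev h3))
      exact ⟨r, hr, fun i x hx => tr_der (fun p p' => (h10 x hx).1 p p' i) ((h10 x hx).2 i) b⟩)
    simp only [dr_eq] at h8
    exact h8

end Vale.Agent.P301Z.Key
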