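import Vale.Agent.P301Z.Key.Rows

/-!
# P301Z, block KEY: a point where the metric dominates the model form
-/

open scoped Manifold ContDiff ComplexOrder Topology Matrix
open Set Metric Matrix

noncomputable section

namespace Vale.Agent.P301Z.Key

open Vale.Agent.P272.K

namespace LocX

variable {N : ℕ}

theorem one_le_det {P : Matrix (Fin N) (Fin N) ℂ} (h : P.PosSemidef) : 1 ≤ (1 + P).det.re := by
  have e : 1 + P = (h.1.eigenvectorUnitary : Matrix (Fin N) (Fin N) ℂ) *
      diagonal (fun i => ((1 + h.1.eigenvalues i : ℝ) : ℂ)) * star h.1.eigenvectorUnitary := by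
    have e1 : diagonal (fun i => ((1 + h.1.eigenvalues i : ℝ) : ℂ)) =
        1 + diagonal (RCLike.ofReal ∘ h.1.eigenvalues) := by
      rw [← diagonal_one, diagonal_add]
      simp
    rw [e1, mul_add, add_mul, mul_one, Unitary.coe_star, Unitary.mul_star_self_of_mem
      h.1.eigenvectorUnitary.2]
    congr 1
    exact h.1.spectral_theorem
  rw [e, det_mul_right_comm, Unitary.coe_star,
    Unitary.mul_star_self_of_mem h.1.eigenvectorUnitary.2, one_mul, det_diagonal,
    ← Complex.ofReal_prod, Complex.ofReal_re]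
  exact Finset.one_le_prod fun i _ => le_add_of_nonneg_right (h.eigenvalues_nonneg i)

theorem det_ge {X B : Matrix (Fin N) (Fin N) ℂ} (hX : X.det ≠ 0) (h : (B - Xᴴ * X).PosSemidef) :
    ‖X.det‖ ^ 2 ≤ B.det.re := by
  have hu : IsUnit X.det := IsUnit.mk0 _ hX
  have e : B = Xᴴ * (1 + X⁻¹ᴴ * (B - Xᴴ * X) * X⁻¹) * X := by
    rw [mul_add, add_mul, mul_one, mul_assoc _ _ X⁻¹, ← mul_assoc Xᴴ X⁻¹ᴴ, ← conjTranspose_mul,
      nonsing_inv_mul _ hu, conjTranspose_one, one_mul, nonsing_inv_mul_cancel_right _ _ hu,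
      add_sub_cancel]
  rw [e, det_mul_right_comm, det_mul, det_mul, det_conjTranspose, Complex.star_def, Complex.conj_mul',
    ← Complex.ofReal_pow, Complex.re_ofReal_mul]
  exact le_mul_of_one_le_right (sq_nonneg _) (one_le_det (h.conjTranspose_mul_mul_same _))

theorem key (J : Matrix (Fin (N + 1)) (Fin N) ℂ) (d : Fin (N + 1) → ℝ) (hd : ∀ l, 0 < d l)
    {B : Matrix (Fin N) (Fin N) ℂ} (l₀ : Fin (N + 1))
    (h : (B - Jᵀ * diagonal (fun l => (d l : ℂ)) * J.map (starRingEnd ℂ)).PosSemidef)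
    (hJ : (J.submatrix l₀.succAbove id).det ≠ 0) :
    (∏ l, d (l₀.succAbove l)) * ‖(J.submatrix l₀.succAbove id).det‖ ^ 2 ≤ B.det.re := by
  set X : Matrix (Fin N) (Fin N) ℂ := diagonal (fun l => (√(d (l₀.succAbove l)) : ℂ)) *
    (J.submatrix l₀.succAbove id).map (starRingEnd ℂ) with hX
  have e1 : ‖X.det‖ ^ 2 = (∏ l, d (l₀.succAbove l)) * ‖(J.submatrix l₀.succAbove id).det‖ ^ 2 := by
    rw [hX, det_mul, det_diagonal, ← RingHom.mapMatrix_apply, ← RingHom.map_det, norm_mul,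
      RCLike.norm_conj, mul_pow, norm_prod, ← Finset.prod_pow]
    congr 1
    exact Finset.prod_congr rfl fun l _ => by
      rw [Complex.norm_real, Real.norm_eq_abs, sq_abs, Real.sq_sqrt (hd _).le]
  have e2 : B - Xᴴ * X = (B - Jᵀ * diagonal (fun l => (d l : ℂ)) * J.map (starRingEnd ℂ)) +
      d l₀ • vecMulVec (J l₀) (star (J l₀)) := by
    have e3 : ∀ l, (√(d l) : ℂ) * √(d l) = d l := fun l => by
      rw [← Complex.ofReal_mul, Real.mul_self_sqrt (hd l).le]
    ext p q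
    rw [Matrix.sub_apply, Matrix.mul_apply]
    simp only [hX, Matrix.sub_apply, Matrix.add_apply, Matrix.smul_apply, vecMulVec_apply,
      Matrix.mul_apply (N := J.map _), conjTranspose_apply, diagonal_mul, mul_diagonal, transpose_apply, map_apply, submatrix_apply, id,
      Fin.sum_univ_succAbove _ l₀, Pi.star_apply, Complex.star_def, map_mul, Complex.conj_conj,
      Complex.conj_ofReal, Complex.real_smul]
    have e4 : ∀ l, (√(d (l₀.succAbove l)) : ℂ) * J (l₀.succAbove l) p *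
        (√(d (l₀.succAbove l)) * (starRingEnd ℂ) (J (l₀.succAbove l) q)) =
        J (l₀.succAbove l) p * d (l₀.succAbove l) * (starRingEnd ℂ) (J (l₀.succAbove l) q) :=
      fun l => by rw [← e3]; ring
    simp only [e4]
    ring
  rw [← e1]
  refine det_ge (fun h0 => ?_) (e2 ▸ h.add ((posSemidef_vecMulVec_self_star _).smul (hd l₀).le))
  rw [h0, norm_zero, zero_pow two_ne_zero] at e1
  exact (mul_pos (Finset.prod_pos fun l _ => hd _) (pow_pos (norm_pos_iff.2 hJ) 2)).ne e1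

end LocX

theorem loc : LOC := by
  intro N hN M hM C₀ hC₀
  have hC : 0 < C₀ ^ N * M.C := mul_pos (pow_pos hC₀ N) hM.C_pos
  refine ⟨C₀ ^ N * M.C, C₀ ^ N * M.C + 1, hC, fun Y _ _ _ t F hT hB a e y he hy hb h => ?_⟩
  have hT0 : 0 < TT t := by linarith
  have hx : ∀ l, 1 ≤ M.m a l → 0 < ‖F.j a y l‖ ^ 2 := fun l hl =>
    pow_pos (norm_pos_iff.2 (hB.ne a y l hy hl)) 2
  set d : Fin (N + 1) → ℝ := fun l =>
    (if 1 ≤ M.m a l then (‖F.j a y l‖ ^ 2)⁻¹ else 0) + TT t with hd
  have hd0 : ∀ l, 0 < d l := fun l => by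
    refine add_pos_of_nonneg_of_pos ?_ hT0
    split_ifs <;> positivity
  have hw : ∀ l, 0 < M.wt a (F.j a y) l := fun l => by
    rw [Model.wt]
    split_ifs with hl
    exacts [hx l hl, one_pos]
  have hdw : ∀ l, d l * M.wt a (F.j a y) l =
      if 1 ≤ M.m a l then 1 + TT t * ‖F.j a y l‖ ^ 2 else TT t := fun l => by
    rw [Model.wt, hd]
    dsimp only
    split_ifs with hl
    · rw [add_mul, inv_mul_cancel₀ (hx l hl).ne']
    · rw [zero_add, mul_one]
  have h1 : ∀ l, 1 ≤ d l * M.wt a (F.j a y) l := fun l => by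
    rw [hdw]
    split_ifs
    · exact le_add_of_nonneg_right (by positivity)
    · linarith
  have key : ∀ l₀, 1 ≤ M.m a l₀ → ∀ l, l ≠ l₀ →
      1 ≤ M.m a l ∧ TT t * ‖F.j a y l‖ ^ 2 ≤ C₀ ^ N * M.C := by
    intro l₀ hl₀ l hl
    have h2 := F.det_le a e y l₀ he hy hb hl₀
    have h3 : 0 < (F.w e (e y)).det.re := (Complex.pos_iff.1 (F.w_k.posDef e y he).det_pos).1
    have h4 : 0 < ∏ l : Fin N, M.wt a (F.j a y) (l₀.succAbove l) := Finset.prod_pos fun l _ => hw _
    have h5 : 0 < ‖((jr (F.g a e) (e y)).submatrix l₀.succAbove id).det‖ ^ 2 :=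
      (mul_pos_iff_of_pos_left hM.C_pos).1 ((mul_pos h3 h4).trans_le h2)
    have h6 := LocX.key (jr (F.g a e) (e y)) d hd0 l₀ h fun h0 => by simp [h0] at h5
    rw [det_smul, Fintype.card_fin, ← Complex.ofReal_pow, Complex.re_ofReal_mul] at h6
    have h7 : ∏ l : Fin N, d (l₀.succAbove l) * M.wt a (F.j a y) (l₀.succAbove l) ≤
        C₀ ^ N * M.C := by
      refine le_of_mul_le_mul_right ?_ h5
      rw [Finset.prod_mul_distrib, mul_right_comm, mul_assoc (C₀ ^ N)]
      refine (mul_le_mul_of_nonneg_right h6 h4.le).trans ?_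
      rw [mul_assoc]
      exact mul_le_mul_of_nonneg_left h2 (pow_pos hC₀ N).le
    obtain ⟨k, rfl⟩ := Fin.exists_succAbove_eq hl
    rw [← Finset.mul_prod_erase _ _ (Finset.mem_univ k)] at h7
    have h8 := (le_mul_of_one_le_right (zero_le_one.trans (h1 _))
      (Finset.one_le_prod fun l _ => h1 _)).trans h7
    rw [hdw] at h8
    split_ifs at h8 with h9
    · exact ⟨h9, by linarith⟩
    · linarith
  obtain ⟨l₀, hl₀⟩ := hM.m_ne a
  have hm : ∀ l, 1 ≤ M.m a l := fun l => by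
    by_cases hl : l = l₀
    exacts [hl ▸ hl₀, (key l₀ hl₀ l hl).1]
  exact ⟨hm, fun l => (key (l.succAbove ⟨0, hN⟩) (hm _) l (Fin.succAbove_ne l _).symm).2⟩

end Vale.Agent.P301Z.Key
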