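import Vale.Agent.P301Z.Key.Rows
import Vale.Agent.P272.K.Inv.Consts
import Vale.Agent.P272.K.N.MaxP

/-!
# P301Z, block KEY: the maximum principle
-/

open scoped Manifold ContDiff ComplexOrder Topology Matrix
open Set Filter

noncomputable section

namespace Vale.Agent.P301Z.Key

open Vale.Agent.P272.K Vale.Agent.P272.K.C2

namespace MxX

variable {N : ℕ} {Y : Type} [TopologicalSpace Y] [ChartedSpace (Cm N) Y] {w H : Fm N Y}

theorem atc (y : Y) : At (chartAt (Cm N) y) y := ⟨chart_mem_atlas _ y, mem_chart_source _ y⟩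

theorem cont_of {f : Y → ℝ}
    (h : ∀ y, ContinuousAt (fun z => f ((chartAt (Cm N) y).symm z)) (chartAt (Cm N) y y)) :
    Continuous f := continuous_iff_continuousAt.2 fun y =>
  ((h y).comp ((chartAt (Cm N) y).continuousAt (atc y).2)).congr (by
    filter_upwards [(chartAt (Cm N) y).open_source.mem_nhds (atc y).2] with x hx
    exact congrArg f ((chartAt (Cm N) y).left_inv hx))

/-- the trace as a function on the manifold -/
def uu (w H : Fm N Y) (y : Y) : ℝ :=
  tau (w (chartAt (Cm N) y)) (H (chartAt (Cm N) y)) (chartAt (Cm N) y y)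

theorem cont_tau (hw : IsHermitian w) (hH : IsHermitian H) {e : Chart N Y} {y : Y} (h : At e y) :
    ContinuousAt (tau (w e) (H e)) (e y) := by
  refine Complex.continuous_re.continuousAt.comp (f := fun z => ((w e z)⁻¹ * H e z).trace) ?_
  simp only [Matrix.trace, Matrix.diag, Matrix.mul_apply]
  exact tendsto_finsetSum _ fun i _ => tendsto_finsetSum _ fun j _ =>
    ((contDiffAt_inv (hw.smooth e y h) (hw.posDef e y h).det_pos.ne' i j).continuousAt.mul
      (hH.smooth e y h j i).continuousAt).tendsto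

theorem re_nonneg {A B : Matrix (Fin N) (Fin N) ℂ} (hA : A.PosDef) (hB : B.PosSemidef) :
    0 ≤ (A⁻¹ * B).trace.re :=
  (Complex.le_def.1 (trace_mul_nonneg hA.inv.posSemidef hB)).1

variable [IsManifold 𝓘(ℂ, Cm N) ω Y]

theorem uu_eq (hw : IsHermitian w) (hH : IsHermitian H) {e : Chart N Y} {y : Y} (h : At e y) :
    uu w H y = tau (w e) (H e) (e y) :=
  congrArg Complex.re (trace_inv hw.isForm hH.isForm (atc y) h)

theorem uu_ev (hw : IsHermitian w) (hH : IsHermitian H) {e : Chart N Y} {y : Y} (h : At e y) :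
    ∀ᶠ z in 𝓝 (e y), tau (w e) (H e) z = uu w H (e.symm z) := by
  filter_upwards [h.nhds_target] with z hz
  rw [uu_eq hw hH (At.of_target h.1 hz), e.right_inv hz]

end MxX

open MxX

theorem mx : MAX := by
  intro N hN Y _ _ _ _ _ _ w H Ψ A δ hA hδ hw hH hΨ hS hP
  have : NeZero N := ⟨by omega⟩
  have hu : ∀ y, 0 < uu w H y := fun y =>
    trace_re_pos (hw.posDef _ _ (atc y)) (hH.posDef _ _ (atc y))
  have c1 : Continuous Ψ := cont_of (N := N) fun y => (hΨ _ y (atc y)).continuousAt
  have c2 : Continuous (uu w H) := cont_of (N := N) fun y =>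
    (cont_tau hw hH (atc y)).congr (uu_ev hw hH (atc y))
  obtain ⟨y₀, -, h0⟩ := isCompact_univ.exists_isMaxOn univ_nonempty c1.continuousOn
  obtain ⟨y₁, -, h1⟩ := isCompact_univ.exists_isMaxOn univ_nonempty
    ((c2.log fun y => (hu y).ne').add (c1.const_mul (4 * δ))).continuousOn
  have h2 : uu w H y₁ ≤ 4 * A * N := by
    have he := atc (N := N) y₁
    set e := chartAt (Cm N) y₁
    obtain ⟨s, k1, k2, k3, k4⟩ := hS e y₁ he
    have k5 : ContDiffAt ℝ 2 (fun z => Ψ (e.symm z)) (e y₁) := (hΨ e y₁ he).of_le (by norm_cast)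
    have k6 := Vale.Agent.P272.K.N.neg_cHess_posSemidef (f := fun z => s z + 4 * δ * Ψ (e.symm z))
      (k1.add (contDiffAt_const.mul k5)) (by
        filter_upwards [k3, uu_ev hw hH he] with z hz hz'
        have k : Real.log (uu w H (e.symm z)) + 4 * δ * Ψ (e.symm z) ≤
          Real.log (uu w H y₁) + 4 * δ * Ψ y₁ := h1 (mem_univ (e.symm z))
        rw [k2, he.left_inv, ← uu_eq hw hH he]
        rw [hz'] at hz
        linarith)
    have hp := hw.posDef e y₁ he
    have k7 := re_nonneg hp k6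
    have k8 := re_nonneg hp (hP e y₁ he)
    rw [C2.cHess_add k1 (contDiffAt_const.mul k5), C2.cHess_const_mul _ k5] at k7
    rw [← uu_eq hw hH he] at k4
    have k9 : ((w e (e y₁))⁻¹ * H e (e y₁)).trace.re = uu w H y₁ := (uu_eq hw hH he).symm
    simp only [Matrix.mul_neg, Matrix.mul_add, Matrix.mul_sub, Matrix.mul_smul, Matrix.trace_neg,
      Matrix.trace_add, Matrix.trace_sub, Matrix.trace_smul, smul_eq_mul, Complex.neg_re,
      Complex.add_re, Complex.sub_re, k9,
      Matrix.nonsing_inv_mul _ (isUnit_iff_ne_zero.2 hp.det_pos.ne'), Matrix.trace_one,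
      Fintype.card_fin, Complex.mul_re, Complex.re_ofNat, Complex.im_ofNat, zero_mul, sub_zero,
      Complex.natCast_re, Complex.ofReal_re, Complex.ofReal_im] at k7 k8
    refine le_of_mul_le_mul_left ?_ hδ
    nlinarith
  refine ⟨y₀, fun y => h0 (mem_univ y), fun e y he => ?_⟩
  have h3 : uu w H y ≤ 4 * A * N * Real.exp (4 * δ * (Ψ y₀ - Ψ y)) := by
    have k1 : Real.log (uu w H y) + 4 * δ * Ψ y ≤ Real.log (uu w H y₁) + 4 * δ * Ψ y₁ :=
      h1 (mem_univ y)
    have k2 : Ψ y₁ ≤ Ψ y₀ := h0 (mem_univ y₁)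
    have k5 := mul_le_mul_of_nonneg_left k2 (by positivity : 0 ≤ 4 * δ)
    have k3 := Real.log_le_log (hu y₁) h2
    have k4 : 0 < 4 * A * N := (hu y₁).trans_le h2
    rw [← Real.exp_log (hu y), ← Real.exp_log k4, ← Real.exp_add]
    exact Real.exp_le_exp.2 (by linarith [mul_sub (4 * δ) (Ψ y₀) (Ψ y)])
  have hp := hw.posDef e y he
  have h4 := trace_smul_sub_posSemidef hp (hH.posDef e y he).posSemidef
  rw [← trace_re_eq hp (hH.posDef e y he)] at h4
  have h5 := (hp.posSemidef.smul (Complex.zero_le_real.2 (sub_nonneg.2 h3))).add h4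
  rw [uu_eq hw hH he, Complex.ofReal_sub, sub_smul] at h5
  exact (sub_add_sub_cancel _ _ _).subst h5

end Vale.Agent.P301Z.Key
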