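import Vale.Agent.P301Z.Key.Rows
import Vale.Agent.P299.H956.D1.RJac
import Mathlib.Analysis.Calculus.InverseFunctionTheorem.ContDiff
import Mathlib.Analysis.Calculus.InverseFunctionTheorem.Deriv

/-!
# P301Z, block KEY: the logarithmic parametrisation
-/

open scoped Manifold ContDiff ComplexOrder Topology Matrix
open Set Metric Filter

noncomputable section

namespace Vale.Agent.P301Z.Key

open Vale.Agent.P272.K Vale.Agent.P299.H956

namespace ParX

variable {n : ℕ}

theorem inj_int {m : Fin (n + 1) → ℕ} {B : Matrix (Fin (n + 1)) (Fin n) ℤ} (h : IsKB m B) :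
    Function.Injective B.mulVec := by
  intro q q' hq
  have h0 : ∑ l, (m l : ℤ) * B.mulVec q l = 0 := by
    simp only [Matrix.mulVec, dotProduct, Finset.mul_sum]
    rw [Finset.sum_comm]
    refine Finset.sum_eq_zero fun i _ => ?_
    have := h.1 i
    calc ∑ l, (m l : ℤ) * (B l i * q i) = (∑ l, (m l : ℤ) * B l i) * q i := by
          rw [Finset.sum_mul]; exact Finset.sum_congr rfl fun l _ => by ring
      _ = 0 := by rw [this, zero_mul]
  exact (h.2 _ h0).unique rfl hq.symm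

theorem inj_c {m : Fin (n + 1) → ℕ} {B : Matrix (Fin (n + 1)) (Fin n) ℤ} (h : IsKB m B) :
    Function.Injective (B.map (Int.cast : ℤ → ℂ)).mulVec := by
  have hd : (Bᵀ * B).det ≠ 0 := by
    intro h0
    obtain ⟨q, hq, hq0⟩ := Matrix.exists_mulVec_eq_zero_iff.2 h0
    have h1 : B.mulVec q ⬝ᵥ B.mulVec q = 0 := by
      have : q ⬝ᵥ (Bᵀ * B).mulVec q = 0 := by rw [hq0, dotProduct_zero]
      rwa [← Matrix.mulVec_mulVec, Matrix.dotProduct_mulVec, Matrix.vecMul_transpose] at this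
    have h2 : B.mulVec q = 0 := dotProduct_self_eq_zero.1 h1
    exact hq (inj_int h (by rw [h2, Matrix.mulVec_zero]))
  have hd' : ((B.map (Int.cast : ℤ → ℂ))ᵀ * B.map (Int.cast : ℤ → ℂ)).det ≠ 0 := by
    have e : (B.map (Int.cast : ℤ → ℂ))ᵀ * B.map (Int.cast : ℤ → ℂ) =
        (Int.castRingHom ℂ).mapMatrix (Bᵀ * B) := by
      ext i j
      simp [Matrix.mul_apply]
    rw [e, ← RingHom.map_det]
    simpa using hd
  intro x y hxy
  by_contra hne
  refine hd' (Matrix.exists_mulVec_eq_zero_iff.1 ⟨x - y, sub_ne_zero.2 hne, ?_⟩)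
  rw [← Matrix.mulVec_mulVec, Matrix.mulVec_sub, hxy, sub_self, Matrix.mulVec_zero]

theorem ex_an (c : Cm (n + 1)) (B : Matrix (Fin (n + 1)) (Fin n) ℤ) (v : Cm n) :
    ContDiffAt ℂ ω (ex c B) v := by
  refine contDiffAt_pi.2 fun l => ?_
  unfold ex
  exact contDiffAt_const.mul (ContDiffAt.cexp (ContDiffAt.sum fun i _ =>
    contDiffAt_const.mul (contDiffAt_apply ℂ ℂ i v)))

theorem jr_ex (c : Cm (n + 1)) (B : Matrix (Fin (n + 1)) (Fin n) ℤ) (v : Cm n) :
    jr (ex c B) v = Matrix.diagonal (ex c B v) * B.map (Int.cast : ℤ → ℂ) := by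
  ext l i
  rw [Matrix.diagonal_mul]
  have h1 : HasFDerivAt (fun y : Cm n => ∑ k, (B l k : ℂ) * y k)
      (∑ k, (B l k : ℂ) • (ContinuousLinearMap.proj k : Cm n →L[ℂ] ℂ)) v :=
    HasFDerivAt.fun_sum fun k _ => (hasFDerivAt_apply k v).const_mul _
  have h2 := (h1.cexp).const_mul (c l)
  show dz i (fun y => c l * Complex.exp (∑ k, (B l k : ℂ) * y k)) v = _
  rw [dz_of_holo h2.differentiableAt, h2.fderiv]
  simp [ex, Pi.single_apply, mul_assoc]

theorem ex_per (c : Cm (n + 1)) (B : Matrix (Fin (n + 1)) (Fin n) ℤ) (v : Cm n) (q : Fin n → ℤ) :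
    ex c B (v + per q) = ex c B v := by
  funext l
  unfold ex per
  have e : ∑ i, (B l i : ℂ) * (v + fun i => 2 * Real.pi * Complex.I * (q i : ℂ) : Cm n) i =
      ∑ i, (B l i : ℂ) * v i + ((∑ i, B l i * q i : ℤ) : ℂ) * (2 * Real.pi * Complex.I) := by
    push_cast
    rw [Finset.sum_mul, ← Finset.sum_add_distrib]
    exact Finset.sum_congr rfl fun i _ => by simp only [Pi.add_apply]; ring
  rw [e, Complex.exp_add, Complex.exp_int_mul_two_pi_mul_I, mul_one]

theorem prod_ex {m : Fin (n + 1) → ℕ} {B : Matrix (Fin (n + 1)) (Fin n) ℤ} (h : IsKB m B)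
    (c : Cm (n + 1)) (v : Cm n) : ∏ l, ex c B v l ^ m l = ∏ l, c l ^ m l := by
  unfold ex
  simp only [mul_pow, Finset.prod_mul_distrib, ← Complex.exp_nat_mul, ← Complex.exp_sum]
  have e : ∑ l, (m l : ℂ) * ∑ i, (B l i : ℂ) * v i = 0 := by
    simp only [Finset.mul_sum]
    rw [Finset.sum_comm]
    refine Finset.sum_eq_zero fun i _ => ?_
    have h1 : ∑ l, (m l : ℂ) * (B l i : ℂ) = 0 := by exact_mod_cast congrArg (Int.cast : ℤ → ℂ) (h.1 i)
    calc ∑ l, (m l : ℂ) * ((B l i : ℂ) * v i) = (∑ l, (m l : ℂ) * (B l i : ℂ)) * v i := by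
          rw [Finset.sum_mul]; exact Finset.sum_congr rfl fun l _ => by ring
      _ = 0 := by rw [h1, zero_mul]
  rw [e, Complex.exp_zero, mul_one]

theorem ex_inj {m : Fin (n + 1) → ℕ} {B : Matrix (Fin (n + 1)) (Fin n) ℤ} (h : IsKB m B)
    {c : Cm (n + 1)} (hc : ∀ l, c l ≠ 0) {v v' : Cm n} (he : ex c B v = ex c B v') :
    ∃ q, v' = v + per q := by
  have h1 : ∀ l, ∃ k : ℤ, ∑ i, (B l i : ℂ) * v' i =
      ∑ i, (B l i : ℂ) * v i + k * (2 * Real.pi * Complex.I) := fun l =>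
    Complex.exp_eq_exp_iff_exists_int.1 (mul_left_cancel₀ (hc l) (congrFun he l)).symm
  choose k hk using h1
  have hz : ∀ u : Cm n, ∑ l, (m l : ℂ) * ∑ i, (B l i : ℂ) * u i = 0 := fun u => by
    simp only [Finset.mul_sum]
    rw [Finset.sum_comm]
    refine Finset.sum_eq_zero fun i _ => ?_
    have h1 : ∑ l, (m l : ℂ) * (B l i : ℂ) = 0 := by exact_mod_cast congrArg (Int.cast : ℤ → ℂ) (h.1 i)
    calc ∑ l, (m l : ℂ) * ((B l i : ℂ) * u i) = (∑ l, (m l : ℂ) * (B l i : ℂ)) * u i := by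
          rw [Finset.sum_mul]; exact Finset.sum_congr rfl fun l _ => by ring
      _ = 0 := by rw [h1, zero_mul]
  have h2 : ∑ l, (m l : ℤ) * k l = 0 := by
    have h3 := hz v'
    simp only [hk, mul_add, Finset.sum_add_distrib, hz v, zero_add, ← mul_assoc,
      ← Finset.sum_mul] at h3
    have h4 : ∑ l, (m l : ℂ) * (k l : ℂ) = 0 := by
      simpa [Real.pi_ne_zero] using h3
    exact_mod_cast h4
  obtain ⟨q, hq, -⟩ := h.2 k h2
  refine ⟨q, inj_c h ?_⟩
  funext l
  have h5 : (k l : ℂ) = ∑ i, (B l i : ℂ) * q i := by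
    rw [← hq]
    simp [Matrix.mulVec, dotProduct]
  show ∑ i, (B l i : ℂ) * v' i = ∑ i, (B l i : ℂ) * (v + per q) i
  rw [hk, h5, Finset.sum_mul, ← Finset.sum_add_distrib]
  exact Finset.sum_congr rfl fun i _ => by simp only [Pi.add_apply, per]; ring

/-- a holomorphic map with invertible Jacobian matrix has a holomorphic local inverse -/
theorem loc_inv {f : Cm n → Cm n} {z : Cm n} (hf : ContDiffAt ℂ ω f z) (hd : (jmat f z).det ≠ 0) :
    ∃ h : Cm n → Cm n, ContDiffAt ℂ ω h (f z) ∧ h (f z) = z ∧ ∀ᶠ y in 𝓝 (f z), f (h y) = y := by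
  have hdf : DifferentiableAt ℂ f z := hf.differentiableAt (by simp)
  have hinj : Function.Injective (fderiv ℂ f z) := by
    intro x y hxy
    rw [jmR_mulVec hdf, jmR_mulVec hdf] at hxy
    by_contra hne
    refine hd (Matrix.exists_mulVec_eq_zero_iff.1 ⟨x - y, sub_ne_zero.2 hne, ?_⟩)
    rw [Matrix.mulVec_sub]
    exact sub_eq_zero.2 hxy
  let A : Cm n ≃L[ℂ] Cm n := (LinearEquiv.ofInjectiveEndo (fderiv ℂ f z : Cm n →ₗ[ℂ] Cm n)
    hinj).toContinuousLinearEquiv
  have hA : HasFDerivAt f (A : Cm n →L[ℂ] Cm n) z := by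
    have e : (A : Cm n →L[ℂ] Cm n) = fderiv ℂ f z := by
      ext x i
      rfl
    rw [e]
    exact hdf.hasFDerivAt
  have h0 : (ω : WithTop ℕ∞) ≠ 0 := by simp
  exact ⟨hf.localInverse hA h0, hf.to_localInverse hA h0, hf.localInverse_apply_image hA h0,
    (hf.hasStrictFDerivAt' hA h0).eventually_right_inverse⟩

theorem pow_inj {k : ℕ} (hk : 1 ≤ k) {x : ℂ} (hx : x ≠ 0) :
    ∃ s ∈ 𝓝 x, InjOn (fun y : ℂ => y ^ k) s := by
  have h1 : HasStrictDerivAt (fun y : ℂ => y ^ k) ((k : ℂ) * x ^ (k - 1)) x :=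
    hasStrictDerivAt_pow k x
  have h2 : (k : ℂ) * x ^ (k - 1) ≠ 0 :=
    mul_ne_zero (by exact_mod_cast (by omega : k ≠ 0)) (pow_ne_zero _ hx)
  have h3 := h1.hasStrictFDerivAt_equiv h2
  exact ⟨_, (h3.toOpenPartialHomeomorph _).open_source.mem_nhds
    h3.mem_toOpenPartialHomeomorph_source, (h3.toOpenPartialHomeomorph _).injOn⟩

theorem tb_open (R : ℝ) : IsOpen (Tb n R) := by
  have : Tb n R = ⋂ i, {v : Cm n | |(v i).re| < R} := by
    ext v
    simp [Tb]
  rw [this]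
  exact isOpen_iInter_of_finite fun i => isOpen_lt (by fun_prop) continuous_const

end ParX

open ParX

theorem par : PAR := by
  intro N M hM Y _ _ _ _ t F hT hB a c R hm hc hb
  have hkb := hM.kb a hm
  have ht : t ≠ 0 := by
    rintro rfl
    simp [TT] at hT
  have hc0 : ∀ l, c l ≠ 0 := by
    intro l h0
    refine ht ?_
    rw [← hc, Finset.prod_eq_zero (Finset.mem_univ l), mul_zero]
    rw [h0]
    exact zero_pow (by have := hm l; omega)
  have hx0 : ∀ v l, ex c (M.B a) v l ≠ 0 := fun v l =>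
    mul_ne_zero (hc0 l) (Complex.exp_ne_zero _)
  obtain ⟨Φ, hΦ⟩ : ∃ Φ : Cm N → Y, Φ = fun v => Function.invFunOn (F.j a) (F.U a) (ex c (M.B a) v) :=
    ⟨_, rfl⟩
  have hex : ∀ v ∈ Tb N R, ∃ y ∈ F.U a, F.j a y = ex c (M.B a) v := by
    intro v hv
    have : ex c (M.B a) v ∈ F.j a '' F.U a := by
      rw [F.img a]
      exact ⟨ball_subset_ball (by norm_num) (hb v hv), by rw [prod_ex hkb, hc]⟩
    exact this
  have hmem : ∀ v ∈ Tb N R, Φ v ∈ F.U a := fun v hv => by
    rw [hΦ]; exact Function.invFunOn_mem (hex v hv)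
  have heq : ∀ v ∈ Tb N R, F.j a (Φ v) = ex c (M.B a) v := fun v hv => by
    rw [hΦ]; exact Function.invFunOn_eq (hex v hv)
  -- the local form of `Φ`
  have hloc : ∀ v ∈ Tb N R, ∀ e : Chart N Y, At e (Φ v) → ∃ h : Cm N → Cm N,
      ContDiffAt ℂ ω h v ∧ h v = e (Φ v) ∧ ∀ᶠ v' in 𝓝 v, Φ v' = e.symm (h v') := by
    intro v hv e he
    have hg : ContDiffAt ℂ ω (F.g a e) (e (Φ v)) := F.hol a e _ he (hmem v hv)
    have hgz : F.g a e (e (Φ v)) = ex c (M.B a) v := by
      show F.j a (e.symm (e (Φ v))) = _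
      rw [he.left_inv, heq v hv]
    have hf : ContDiffAt ℂ ω (fun z i => F.g a e z ((0 : Fin (N + 1)).succAbove i)) (e (Φ v)) :=
      contDiffAt_pi.2 fun i => contDiffAt_pi.1 hg _
    have hd : (jmat (fun z i => F.g a e z ((0 : Fin (N + 1)).succAbove i)) (e (Φ v))).det ≠ 0 := by
      intro h0
      have h1 := F.det_le a e (Φ v) 0 he (hmem v hv) (by rw [heq v hv]; exact hb v hv) (hm 0)
      have h2 : (jr (fun z => F.j a (e.symm z)) (e (Φ v))).submatrix
          (0 : Fin (N + 1)).succAbove id =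
          jmat (fun z i => F.g a e z ((0 : Fin (N + 1)).succAbove i)) (e (Φ v)) := rfl
      rw [h2, h0, norm_zero] at h1
      have h3 : 0 < (F.w e (e (Φ v))).det.re := C2.det_re_pos (F.w_k.posDef e _ he)
      have h4 : 0 < ∏ l : Fin N, M.wt a (F.j a (Φ v)) ((0 : Fin (N + 1)).succAbove l) := by
        refine Finset.prod_pos fun l _ => ?_
        unfold Model.wt
        rw [if_pos (hm _), heq v hv]
        exact pow_pos (norm_pos_iff.2 (hx0 v _)) 2
      have h5 := mul_pos h3 h4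
      simp only [ne_eq, OfNat.ofNat_ne_zero, not_false_eq_true, zero_pow, mul_zero] at h1
      linarith
    obtain ⟨h, h1, h2, h3⟩ := loc_inv hf hd
    have hp : ContDiffAt ℂ ω (fun v' i => ex c (M.B a) v' ((0 : Fin (N + 1)).succAbove i)) v :=
      contDiffAt_pi.2 fun i => contDiffAt_pi.1 (ex_an c _ v) _
    simp only [hgz] at h1 h2 h3
    have hh : ContDiffAt ℂ ω
        (fun v' => h fun i => ex c (M.B a) v' ((0 : Fin (N + 1)).succAbove i)) v :=
      ContDiffAt.comp (f := fun v' i => ex c (M.B a) v' ((0 : Fin (N + 1)).succAbove i)) v h1 hp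
    refine ⟨_, hh, h2, ?_⟩
    have ht1 : Tendsto (fun v' => h fun i => ex c (M.B a) v' ((0 : Fin (N + 1)).succAbove i))
        (𝓝 v) (𝓝 (e (Φ v))) := by
      have := hh.continuousAt.tendsto
      rwa [h2] at this
    have hU : ∀ᶠ z in 𝓝 (e (Φ v)), e.symm z ∈ F.U a :=
      (e.continuousAt_symm he.mem_target).eventually
        ((F.opn a).mem_nhds (by rw [he.left_inv]; exact hmem v hv))
    obtain ⟨s, hs, hsi⟩ := pow_inj (hm 0) (hx0 v 0)
    have hs1 : ∀ᶠ z in 𝓝 (e (Φ v)), F.g a e z 0 ∈ s := by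
      have := (contDiffAt_pi.1 hg 0).continuousAt.tendsto
      rw [hgz] at this
      exact this.eventually hs
    have hs2 : ∀ᶠ v' in 𝓝 v, ex c (M.B a) v' 0 ∈ s :=
      (contDiffAt_pi.1 (ex_an c _ v) 0).continuousAt.tendsto.eventually hs
    filter_upwards [ht1.eventually hU, ht1.eventually hs1, hs2,
      hp.continuousAt.tendsto.eventually h3, (tb_open R).mem_nhds hv] with v' k1 k2 k3 k4 k5
    refine F.inj a (hmem v' k5) k1 ?_
    rw [heq v' k5]
    obtain ⟨z, hz⟩ : ∃ z, z = h fun i => ex c (M.B a) v' ((0 : Fin (N + 1)).succAbove i) :=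
      ⟨_, rfl⟩
    rw [← hz] at k1 k2 k4 ⊢
    have k6 : ∀ i : Fin N, F.j a (e.symm z) i.succ = ex c (M.B a) v' i.succ := fun i =>
      congrFun k4 i
    have k7 : ∏ l, F.j a (e.symm z) l ^ M.m a l = ∏ l, ex c (M.B a) v' l ^ M.m a l := by
      refine mul_left_cancel₀ (hM.cc_ne a) ?_
      rw [(hB.mem a _ k1).2, prod_ex hkb, hc]
    rw [Fin.prod_univ_succ, Fin.prod_univ_succ] at k7
    simp only [k6] at k7
    have k8 := mul_right_cancel₀
      (Finset.prod_ne_zero_iff.2 fun i _ => pow_ne_zero _ (hx0 v' i.succ)) k7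
    funext l
    refine Fin.cases ?_ (fun i => (k6 i).symm) l
    exact (hsi k2 k3 k8).symm
  have hcont : ∀ v ∈ Tb N R, ContinuousAt Φ v := by
    intro v hv
    have he : At (chartAt (Cm N) (Φ v)) (Φ v) := ⟨chart_mem_atlas _ _, mem_chart_source _ _⟩
    obtain ⟨h, h1, h2, h3⟩ := hloc v hv _ he
    refine ContinuousAt.congr ?_ (EventuallyEq.symm h3)
    refine ContinuousAt.comp (f := h) ?_ h1.continuousAt
    rw [h2]
    exact (chartAt (Cm N) (Φ v)).continuousAt_symm he.mem_target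
  have hhol : ∀ v ∈ Tb N R, ∀ e : Chart N Y, At e (Φ v) →
      ContDiffAt ℂ ω (fun v' => e (Φ v')) v := by
    intro v hv e he
    obtain ⟨h, h1, h2, h3⟩ := hloc v hv e he
    refine h1.congr_of_eventuallyEq ?_
    have h4 : ∀ᶠ v' in 𝓝 v, h v' ∈ e.target := by
      have := h1.continuousAt.tendsto
      rw [h2] at this
      exact this.eventually he.nhds_target
    filter_upwards [h3, h4] with v' k1 k2
    rw [k1, e.right_inv k2]
  refine ⟨Φ, hmem, heq, hcont, hhol, fun v hv e he h0 => ?_, fun v _ q => ?_,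
    fun v hv v' hv' h => ?_⟩
  · obtain ⟨x, hx, hx1⟩ := Matrix.exists_mulVec_eq_zero_iff.2 h0
    have hg : ContDiffAt ℂ ω (F.g a e) (e (Φ v)) := F.hol a e _ he (hmem v hv)
    have h1 : jmR (fun v' => F.g a e (e (Φ v'))) v =
        jmR (F.g a e) (e (Φ v)) * jmR (fun v' => e (Φ v')) v :=
      jmR_comp (τ := fun v' => e (Φ v')) (hg.differentiableAt (by simp))
        ((hhol v hv e he).differentiableAt (by simp))
    have h2 : jmR (fun v' => F.g a e (e (Φ v'))) v = jr (ex c (M.B a)) v := by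
      refine jmR_congr ?_
      filter_upwards [(hcont v hv).eventually (e.open_source.mem_nhds he.2),
        (tb_open R).mem_nhds hv] with v' k1 k2
      show F.j a (e.symm (e (Φ v'))) = _
      rw [e.left_inv k1, heq v' k2]
    have h3 : (jr (ex c (M.B a)) v).mulVec x = 0 := by
      rw [← h2, h1, ← Matrix.mulVec_mulVec, jmR_eq_jmat, hx1, Matrix.mulVec_zero]
    rw [jr_ex, ← Matrix.mulVec_mulVec] at h3
    refine hx (inj_c hkb ?_)
    rw [Matrix.mulVec_zero]
    funext l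
    have h4 := congrFun h3 l
    rw [Matrix.mulVec_diagonal] at h4
    exact (mul_eq_zero.1 h4).resolve_left (hx0 v l)
  · rw [hΦ]
    simp only [ex_per]
  · exact ex_inj hkb hc0 (by rw [← heq v hv, ← heq v' hv', h])

end Vale.Agent.P301Z.Key
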