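import Vale.Agent.P301Z.Key.Rows
import Vale.Agent.P299.H956.D1.RJac
import Vale.Agent.P272.K.Inv.Consts

/-!
# P301Z, block KEY: pull backs under the logarithmic parametrisation
-/

open scoped Manifold ContDiff ComplexOrder Topology Matrix
open Set Metric Filter

noncomputable section

namespace Vale.Agent.P301Z.Key

open Vale.Agent.P272.K Vale.Agent.P299.H956

namespace PbkX

variable {N : ℕ}

theorem two_le : (2 : WithTop ℕ∞) ≤ ∞ := WithTop.coe_le_coe.2 (le_top : (2 : ℕ∞) ≤ ⊤)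

theorem isOpen_Tb (R : ℝ) : IsOpen (Tb N R) := by
  have : Tb N R = ⋂ i, {v : Cm N | |(v i).re| < R} := by
    ext v
    simp [Tb]
  rw [this]
  exact isOpen_iInter_of_finite fun i => isOpen_lt (by fun_prop) continuous_const

theorem ex_holo (c : Cm (N + 1)) (B : Matrix (Fin (N + 1)) (Fin N) ℤ) (v : Cm N) :
    ContDiffAt ℂ ω (ex c B) v := by
  unfold ex
  fun_prop

theorem jex (c : Cm (N + 1)) (B : Matrix (Fin (N + 1)) (Fin N) ℤ) (v : Cm N) :
    jr (ex c B) v = Matrix.diagonal (ex c B v) * B.map (Int.cast : ℤ → ℂ) := by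
  ext l i
  have h1 : HasFDerivAt (fun y : Cm N => ∑ k, (B l k : ℂ) * y k) _ v :=
    HasFDerivAt.fun_sum fun k _ => (hasFDerivAt_apply (𝕜 := ℂ) k v).const_mul (B l k : ℂ)
  have h2 := h1.cexp.const_mul (c l)
  rw [jr, Matrix.of_apply, Matrix.diagonal_mul]
  refine (dz_of_holo h2.differentiableAt).trans ?_
  rw [h2.fderiv]
  simp [ex, Pi.single_apply, mul_assoc]

theorem det_holo {τ : Cm N → Cm N} {z : Cm N} (h : ContDiffAt ℂ ω τ z) :
    ContDiffAt ℂ ω (fun y => (jmat τ y).det) z := by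
  simp only [Matrix.det_apply']
  exact ContDiffAt.sum fun σ _ => contDiffAt_const.mul
    (contDiffAt_prod fun i _ => jmat_holo h _ _)

theorem det_pb (J Q : Matrix (Fin N) (Fin N) ℂ) :
    (Jᵀ * Q * J.map (starRingEnd ℂ)).det.re = Q.det.re * ‖J.det‖ ^ 2 := by
  have : (J.map (starRingEnd ℂ)).det = (starRingEnd ℂ) J.det := ((starRingEnd ℂ).map_det J).symm
  rw [Matrix.det_mul, Matrix.det_mul, Matrix.det_transpose, this, mul_right_comm,
    Complex.mul_conj, Complex.normSq_eq_norm_sq, Complex.re_ofReal_mul, mul_comm]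

variable {M : Model N} {Y : Type} [TopologicalSpace Y] [ChartedSpace (Cm N) Y] {t : ℂ}
  {F : Fib M Y t} {a : Fin M.na} {c : Cm (N + 1)} {R : ℝ} {Φ : Cm N → Y} {v : Cm N}
  {e : Chart N Y}

theorem at0 (y : Y) : At (chartAt (Cm N) y) y := ⟨chart_mem_atlas _ _, mem_chart_source _ _⟩

theorem ev (hP : Par F a c R Φ) (hv : v ∈ Tb N R) (he : At e (Φ v)) :
    ∀ᶠ v' in 𝓝 v, v' ∈ Tb N R ∧ At e (Φ v') := by
  filter_upwards [(isOpen_Tb R).mem_nhds hv,
    (hP.cont v hv).eventually (e.open_source.mem_nhds he.2)] with v' h1 h2 using ⟨h1, he.1, h2⟩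

theorem evf {Z : Type} (hP : Par F a c R Φ) (hv : v ∈ Tb N R) (he : At e (Φ v)) (f : Y → Z) :
    (fun v' => f (Φ v')) =ᶠ[𝓝 v] fun v' => f (e.symm (e (Φ v'))) :=
  (ev hP hv he).mono fun v' h => by
    dsimp only
    rw [h.2.left_inv]

theorem sm (hP : Par F a c R Φ) {f : Y → ℝ} (hf : SmoothFn (n := N) f) (hv : v ∈ Tb N R) :
    ContDiffAt ℝ ∞ (fun v' => f (Φ v')) v :=
  (ContDiffAt.comp v (g := fun z => f ((chartAt (Cm N) (Φ v)).symm z)) (hf _ _ (at0 _))
    (((hP.hol v hv _ (at0 _)).restrict_scalars ℝ).of_le le_top)).congr_of_eventuallyEq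
      (evf hP hv (at0 _) f)

theorem hess (hP : Par F a c R Φ) {f : Y → ℝ} (hf : SmoothFn (n := N) f) (hv : v ∈ Tb N R) :
    pl (fun e z => cHess (fun y => f (e.symm y)) z) Φ v = cHess (fun v' => f (Φ v')) v := by
  rw [cHess_congr (evf hP hv (at0 _) f)]
  exact (cHess_comp (f := fun z => f ((chartAt (Cm N) (Φ v)).symm z))
    ((hf _ _ (at0 _)).of_le two_le) (hP.hol v hv _ (at0 _))).symm

theorem jac (hP : Par F a c R Φ) (hv : v ∈ Tb N R) (he : At e (Φ v)) :
    jr (F.g a e) (e (Φ v)) * jmat (fun v' => e (Φ v')) v = jr (ex c (M.B a)) v := by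
  refine (jmR_comp (σ := F.g a e) (τ := fun v' => e (Φ v'))
    ((F.hol a e _ he (hP.mem v hv)).differentiableAt (by simp))
    ((hP.hol v hv e he).differentiableAt (by simp))).symm.trans (jmR_congr ?_)
  filter_upwards [ev hP hv he] with v' h
  rw [Fib.g, h.2.left_inv, hP.eq v' h.1]

theorem psi_sm (hM : M.Good) (hB : Bas F) (hP : Par F a c R Φ) (hv : v ∈ Tb N R) :
    ContDiffAt ℝ ∞ (M.ψ a) (ex c (M.B a) v) :=
  hM.ψ_sm a _ (hP.eq v hv ▸ (hB.mem a _ (hP.mem v hv)).1)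

theorem psi_sm' (hM : M.Good) (hB : Bas F) (hP : Par F a c R Φ) (hv : v ∈ Tb N R) :
    ContDiffAt ℝ ∞ (fun v' => M.ψ a (ex c (M.B a) v')) v :=
  (psi_sm hM hB hP hv).comp v (((ex_holo c _ v).restrict_scalars ℝ).of_le le_top)

theorem pot_eq (hM : M.Good) (hB : Bas F) (hP : Par F a c R Φ) (hv : v ∈ Tb N R) :
    pl F.w Φ v = cHess (F.pot a c Φ) v := by
  have h1 := psi_sm' hM hB hP hv
  unfold Fib.pot
  rw [cHess_add ((contDiffAt_const.mul h1).of_le two_le) ((sm hP F.u_sm hv).of_le two_le),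
    cHess_const_mul _ (h1.of_le two_le), ← hess hP F.u_sm hv,
    cHess_compR ((psi_sm hM hB hP hv).of_le two_le) (ex_holo c _ v),
    show jmR (ex c (M.B a)) v = _ from (jac hP hv (at0 _)).symm, pl, pl, F.w_eq _ _ (at0 _),
    hB.χ_pb a _ _ (at0 _) (hP.mem v hv), hP.eq v hv, pb, Matrix.transpose_mul, Matrix.map_mul]
  simp only [Matrix.mul_add, Matrix.add_mul, Matrix.mul_smul, Matrix.smul_mul, Matrix.mul_assoc]

variable [IsManifold 𝓘(ℂ, Cm N) ω Y]

theorem form (hP : Par F a c R Φ) {b : Fm N Y} (hb : IsForm b) (hv : v ∈ Tb N R)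
    (he : At e (Φ v)) : pl b Φ v = (jmat (fun v' => e (Φ v')) v)ᵀ * b e (e (Φ v)) *
      (jmat (fun v' => e (Φ v')) v).map (starRingEnd ℂ) := by
  rw [pl, jmat_congr (evf hP hv he (chartAt (Cm N) (Φ v))),
    jmat_comp (σ := fun z => chartAt (Cm N) (Φ v) (e.symm z)) (τ := fun v' => e (Φ v'))
      (transition_differentiableAt he (at0 _)) ((hP.hol v hv e he).differentiableAt (by simp)),
    hb e _ _ he (at0 _), jacM_eq, Matrix.transpose_mul, Matrix.map_mul]
  simp only [Matrix.mul_assoc]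

theorem ric (hM : M.Good) (hB : Bas F) (hP : Par F a c R Φ) (hv : v ∈ Tb N R) :
    cHess (fun v' => Real.log (cHess (F.pot a c Φ) v').det.re) v = 0 := by
  obtain ⟨e, he⟩ : ∃ e : Chart N Y, At e (Φ v) := ⟨_, at0 _⟩
  have pos : ∀ y, At e y → 0 < (F.w e (e y)).det.re := fun y h =>
    (Complex.pos_iff.1 (F.w_k.posDef e y h).det_pos).1
  have h1 : (fun v' => Real.log (cHess (F.pot a c Φ) v').det.re) =ᶠ[𝓝 v] fun v' =>
      Real.log (F.w e (e (Φ v'))).det.re +
        Real.log (‖(jmat (fun v' => e (Φ v')) v').det‖ ^ 2) := by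
    filter_upwards [ev hP hv he] with v' h
    rw [← pot_eq hM hB hP h.1, form hP F.w_k.toIsHermitian.isForm h.1 h.2, det_pb,
      Real.log_mul (pos _ h.2).ne' (pow_ne_zero 2 (norm_ne_zero_iff.2 (hP.unit v' h.1 e h.2)))]
  have h2 : ContDiffAt ℝ 2 (fun z => Real.log (F.w e z).det.re) (e (Φ v)) :=
    ((Complex.reCLM.contDiff.contDiffAt.comp _ (contDiffAt_det fun i j =>
      (F.w_k.smooth e _ he i j).of_le two_le))).log (pos _ he).ne'
  have h3 := hP.hol v hv e he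
  have h4 : ContDiffAt ℝ 2 (fun v' => Real.log (‖(jmat (fun v' => e (Φ v')) v').det‖ ^ 2)) v :=
    ((((det_holo h3).restrict_scalars ℝ).of_le le_top).norm_sq ℝ).log
      (pow_ne_zero 2 (norm_ne_zero_iff.2 (hP.unit v hv e he)))
  have h5 : ContDiffAt ℝ 2 (fun v' => Real.log (F.w e (e (Φ v'))).det.re) v :=
    h2.comp v ((h3.restrict_scalars ℝ).of_le le_top)
  rw [cHess_congr h1, cHess_add h5 h4,
    cHess_log_norm_sq (det_holo h3) (hP.unit v hv e he), add_zero,
    cHess_comp (f := fun z => Real.log (F.w e z).det.re) h2 h3, F.ric e _ he]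
  simp

end PbkX

open PbkX

theorem pbk : PBK := fun _ _ hM _ _ _ _ _ F hB _ _ _ _ hP =>
  { form := fun _ hb _ hv _ he => form hP hb hv he
    sm := fun _ hf _ hv => sm hP hf hv
    hess := fun _ hf _ hv => hess hP hf hv
    jac := fun _ hv _ he => jac hP hv he
    jex := jex _ _
    pot_sm := fun _ hv => (contDiffAt_const.mul (psi_sm' hM hB hP hv)).add (sm hP F.u_sm hv)
    pot_eq := fun _ hv => pot_eq hM hB hP hv
    ric := fun _ hv => ric hM hB hP hv }

end Vale.Agent.P301Z.Key
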