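import Vale.Agent.P301Z.Key.Rows
import Vale.Agent.P272.K.Inv.Compact

/-!
# P301Z, block KEY: the two reference forms are comparable
-/

open scoped Manifold ContDiff ComplexOrder Topology Matrix
open Set Metric

noncomputable section

namespace Vale.Agent.P301Z.Key

open Vale.Agent.P272.K Vale.Agent.P272.K.C2

namespace RefX

variable {n p : ℕ}

theorem quad_lin (a b : ℝ) (A B : Matrix (Fin n) (Fin n) ℂ) (ξ : Cm n) :
    (quad ((a : ℂ) • A + (b : ℂ) • B) ξ).re = a * (quad A ξ).re + b * (quad B ξ).re := by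
  rw [← Complex.re_ofReal_mul, ← Complex.re_ofReal_mul, ← Complex.add_re]
  congr 1
  simp only [quad, Finset.mul_sum, ← Finset.sum_add_distrib, Matrix.add_apply, Matrix.smul_apply,
    smul_eq_mul]
  exact Finset.sum_congr rfl fun _ _ => Finset.sum_congr rfl fun _ _ => by ring

theorem dom {K : Set (Cm n)} (hK : IsCompact K) (M N : Cm n → Matrix (Fin n) (Fin n) ℂ)
    (hM : ∀ i j, ContinuousOn (fun z => M z i j) K) (hN : ∀ i j, ContinuousOn (fun z => N z i j) K)
    (hp : ∀ z ∈ K, (M z).PosDef) (hh : ∀ z ∈ K, (N z).IsHermitian) :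
    ∃ C : ℝ, 0 < C ∧ ∀ z ∈ K, ∀ s b : ℝ, |s| ≤ b →
      (((b * C : ℝ) : ℂ) • M z + (s : ℂ) • N z).PosSemidef := by
  obtain ⟨C₁, h1, h2⟩ := exists_quad_lower hK M N hM hN hp
  obtain ⟨C₂, h3, h4⟩ := exists_quad_lower hK M (fun z => -N z) hM (fun i j => (hN i j).neg) hp
  refine ⟨C₁ + C₂, add_pos h1 h3, fun z hz s b hs => posSemidef_of_quad ?_ fun ξ => ?_⟩
  · exact (IsSelfAdjoint.smul (Complex.conj_ofReal _) (hp z hz).1).add
      (IsSelfAdjoint.smul (Complex.conj_ofReal _) (hh z hz))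
  · have h5 := h2 z hz ξ
    have h6 := h4 z hz ξ
    have h7 := quad_nonneg (hp z hz).posSemidef ξ
    have h8 : (quad (-N z) ξ).re = -(quad (N z) ξ).re := by
      simp [quad]
    have h9 : |(quad (N z) ξ).re| ≤ (C₁ + C₂) * (quad (M z) ξ).re :=
      abs_le.2 ⟨by nlinarith, by nlinarith⟩
    have h10 := mul_le_mul hs h9 (abs_nonneg _) ((abs_nonneg s).trans hs)
    rw [← abs_mul] at h10
    rw [quad_lin]
    linarith [neg_abs_le (s * (quad (N z) ξ).re)]

theorem pb_psd (g : Cm n → Cm p) {Q : Matrix (Fin p) (Fin p) ℂ} (h : Q.PosSemidef) (z : Cm n) :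
    (pb g Q z).PosSemidef := by
  have h1 := h.conjTranspose_mul_mul_same ((jr g z).map (starRingEnd ℂ))
  have h2 : ((jr g z).map (starRingEnd ℂ))ᴴ = (jr g z)ᵀ := by
    ext i j
    simp
  rwa [h2] at h1

theorem pb_lin (g : Cm n → Cm p) (a b : ℂ) (A B : Matrix (Fin p) (Fin p) ℂ) (z : Cm n) :
    pb g (a • A + b • B) z = a • pb g A z + b • pb g B z := by
  simp only [pb, Matrix.mul_add, Matrix.add_mul, Matrix.mul_smul, Matrix.smul_mul]

variable {N : ℕ} {M : Model N}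

theorem lg_le (hM : M.Good) (a : Fin M.na) (i : Fin M.ni) : ∃ B : ℝ, 0 < B ∧
    ∀ x ∈ ball (0 : Cm (N + 1)) 1, ∀ t : ℂ, 1 ≤ TT t → M.cc a * ∏ l, x l ^ M.m a l = t →
      |M.lg a i x| ≤ B * TT t := by
  obtain ⟨B, hB⟩ := (isCompact_closedBall (0 : Cm (N + 1)) 1).exists_bound_of_continuousOn
    (f := M.φ a i) fun x hx => (hM.φ_sm a i x
      (closedBall_subset_ball one_lt_two hx)).continuousAt.continuousWithinAt
  refine ⟨|B| + 2 * |Real.log ‖M.cc a‖| + 2, by positivity, fun x hx t ht e => ?_⟩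
  have h1 : |M.φ a i x| ≤ |B| := (hB x (ball_subset_closedBall hx)).trans (le_abs_self B)
  have h2 : |(M.sig a i).elim 0 fun l => Real.log (‖x l‖ ^ 2)| ≤
      2 * |Real.log ‖M.cc a‖| + 2 * TT t := by
    rcases h : M.sig a i with _ | l
    · rw [Option.elim, abs_zero]
      positivity
    · have h3 : ∀ k, ‖x k‖ ≤ 1 := fun k => (norm_le_pi_norm x k).trans (mem_ball_zero_iff.1 hx).le
      have h4 : 0 < ‖t‖ := norm_pos_iff.2 fun h0 => by
        rw [h0, TT, norm_zero, Real.log_zero, neg_zero] at ht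
        exact absurd ht (by norm_num)
      have h5 : ‖t‖ ≤ ‖M.cc a‖ * ‖x l‖ := by
        rw [← e, norm_mul, norm_prod, ← Finset.mul_prod_erase _ _ (Finset.mem_univ l)]
        refine mul_le_mul_of_nonneg_left
          ((mul_le_mul ?_ ?_ ?_ (norm_nonneg _)).trans_eq (mul_one _)) (norm_nonneg _)
        · rw [norm_pow]
          exact pow_le_of_le_one (norm_nonneg _) (h3 l)
            (Nat.one_le_iff_ne_zero.1 ((hM.sig_iff a l).2 ⟨i, h⟩))
        · exact Finset.prod_le_one (fun _ _ => norm_nonneg _) fun k _ => by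
            rw [norm_pow]
            exact pow_le_one₀ (norm_nonneg _) (h3 k)
        · exact Finset.prod_nonneg fun _ _ => norm_nonneg _
      have h6 : ‖x l‖ ≠ 0 := fun h0 => by
        rw [h0, mul_zero] at h5
        exact h5.not_gt h4
      have h7 := Real.log_le_log h4 h5
      rw [Real.log_mul (norm_ne_zero_iff.2 (hM.cc_ne a)) h6] at h7
      have h8 := Real.log_nonpos (norm_nonneg _) (h3 l)
      rw [Option.elim, Real.log_pow, TT, abs_of_nonpos (by push_cast; linarith)]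
      push_cast
      linarith [le_abs_self (Real.log ‖M.cc a‖)]
  have h3 := abs_sub (M.φ a i x) ((M.sig a i).elim 0 fun l => Real.log (‖x l‖ ^ 2))
  rw [Model.lg]
  nlinarith [abs_nonneg B, abs_nonneg (Real.log ‖M.cc a‖)]

theorem one (hM : M.Good) (a : Fin M.na) (i : Fin M.ni) : ∃ C : ℝ, 0 < C ∧
    ∀ x ∈ ball (0 : Cm (N + 1)) 1, ∀ t : ℂ, 1 ≤ TT t → M.cc a * ∏ l, x l ^ M.m a l = t →
      ∀ s : ℝ, |s| = |M.lg a i x| →
        (((C * TT t : ℝ) : ℂ) • cHess (M.ψ a) x + (s : ℂ) • cHess (M.φ a i) x).PosSemidef := by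
  obtain ⟨B, hB, h1⟩ := lg_le hM a i
  have hs : closedBall (0 : Cm (N + 1)) 1 ⊆ ball 0 2 := closedBall_subset_ball one_lt_two
  have h0 : (2 : WithTop ℕ∞) ≤ ∞ := ENat.LEInfty.out
  obtain ⟨C, hC, h2⟩ := dom (isCompact_closedBall (0 : Cm (N + 1)) 1) (cHess (M.ψ a))
    (cHess (M.φ a i))
    (fun p q x hx => (C2.contDiffAt_cHess (m := 0) (hM.ψ_sm a x (hs hx)) (by
      rwa [zero_add, one_add_one_eq_two]) p q).continuousAt.continuousWithinAt)
    (fun p q x hx => (C2.contDiffAt_cHess (m := 0) (hM.φ_sm a i x (hs hx)) (by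
      rwa [zero_add, one_add_one_eq_two]) p q).continuousAt.continuousWithinAt)
    (fun x hx => hM.ψ_pos a x (hs hx))
    fun x hx => C2.cHess_isHermitian ((hM.φ_sm a i x (hs hx)).of_le h0)
  refine ⟨B * C, mul_pos hB hC, fun x hx t ht e s h => ?_⟩
  rw [mul_right_comm]
  exact h2 x (ball_subset_closedBall hx) s _ (h.trans_le (h1 x hx t ht e))

end RefX

open RefX

theorem ref : REF := by
  intro N M hM
  choose C hC h1 using one hM
  have h0 : ∀ a, 0 ≤ ∑ i, C a i := fun a => Finset.sum_nonneg fun i _ => (hC a i).le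
  have hD := Finset.sum_nonneg (s := Finset.univ) fun a _ => h0 a
  refine ⟨2 * ∑ a, ∑ i, C a i + 1, by positivity, ?_⟩
  intro Y _ _ _ t F ht hB hH e y he
  obtain ⟨a, ha, hj⟩ := F.cov y
  have h2 : ∑ i, C a i ≤ ∑ a, ∑ i, C a i :=
    Finset.single_le_sum (f := fun a => ∑ i, C a i) (fun a _ => h0 a) (Finset.mem_univ a)
  have h3 : ∀ c : ℝ, 0 ≤ c → (((c * TT t : ℝ) : ℂ) • F.χ e (e y)).PosSemidef := fun c hc => by
    rw [hB.χ_pb a e y he ha]
    exact (pb_psd _ (hM.ψ_pos a _ (hB.mem a y ha).1).posSemidef _).smul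
      (Complex.zero_le_real.2 (mul_nonneg hc (zero_le_one.trans ht)))
  have h4 : ∀ s : Fin M.ni → ℝ, (∀ i, |s i| = |F.ρ i y|) →
      (∑ i, (((C a i * TT t : ℝ) : ℂ) • F.χ e (e y) +
        (s i : ℂ) • cHess (fun z => F.ρ i (e.symm z)) (e y))).PosSemidef := fun s hs =>
    Matrix.posSemidef_sum _ fun i _ => by
      rw [hB.χ_pb a e y he ha, hB.ρ_hess a i e y he ha, ← pb_lin]
      exact pb_psd _ (h1 a i _ hj t ht (hB.mem a y ha).2 _ (by rw [hs, F.ρ_eq a i y ha])) _
  have h5 := h4 (fun i => F.ρ i y) fun _ => rfl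
  have h6 := h4 (fun i => -F.ρ i y) fun _ => abs_neg _
  rw [Finset.sum_add_distrib, ← Finset.sum_smul, ← Complex.ofReal_sum, ← Finset.sum_mul] at h5 h6
  simp only [Complex.ofReal_neg, neg_smul, Finset.sum_neg_distrib] at h6
  rw [hH.β_sub e y he, Fib.Hh]
  constructor
  · have h7 := ((hH.P_psd e y he).add (h3 (2 * ∑ a, ∑ i, C a i + 1 - 2 * ∑ i, C a i)
      (by linarith))).add (h5.add h5)
    refine (congrArg Matrix.PosSemidef ?_).mp h7
    generalize ∑ a, ∑ i, C a i = D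
    generalize ∑ i, C a i = c
    push_cast
    module
  · have h7 := ((hH.P_psd e y he).add (h3 (2 * ∑ a, ∑ i, C a i + 1 - ∑ i, C a i)
      (by linarith [h0 a]))).add h6
    refine (congrArg Matrix.PosSemidef ?_).mp h7
    generalize ∑ a, ∑ i, C a i = D
    generalize ∑ i, C a i = c
    push_cast
    module

end Vale.Agent.P301Z.Key
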