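import Vale.Agent.P301Z.Key.Rows

/-!
# P301Z, block KEY: small derivatives on large balls, by scaling
-/

open scoped Manifold ContDiff ComplexOrder Topology Matrix
open Set Metric

noncomputable section

namespace Vale.Agent.P301Z.Key

open Vale.Agent.P272.K

namespace SclX

variable {N : ℕ}

theorem fderiv_aff (c L : ℝ) (p : Cm N) (f : Cm N → ℂ) (v : Cm N) :
    fderiv ℝ (fun y => c • f (p + L • y)) v = (c * L) • fderiv ℝ f (p + L • v) := by
  have h1 : fderiv ℝ (fun y => c • f (p + L • y)) v = c • fderiv ℝ (fun y => f (p + L • y)) v :=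
    congrFun (fderiv_const_smul_field (𝕜 := ℝ) (f := fun y => f (p + L • y)) c) v
  rw [h1, fderiv_comp_smul (f := fun y => f (p + y)), fderiv_comp_add_left, smul_smul]

theorem dz_aff (c L : ℝ) (p : Cm N) (f : Cm N → ℂ) (j : Fin N) (v : Cm N) :
    dz j (fun y => c • f (p + L • y)) v = (c * L) • dz j f (p + L • v) := by
  rw [dz, dz, fderiv_aff]
  simp only [_root_.smul_apply, Complex.real_smul]
  ring

theorem dzb_aff (c L : ℝ) (p : Cm N) (f : Cm N → ℂ) (j : Fin N) (v : Cm N) :
    dzb j (fun y => c • f (p + L • y)) v = (c * L) • dzb j f (p + L • v) := by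
  rw [dzb, dzb, fderiv_aff]
  simp only [_root_.smul_apply, Complex.real_smul]
  ring

theorem cHess_aff (c L : ℝ) (p : Cm N) (f : Cm N → ℝ) (v : Cm N) :
    cHess (fun y => c * f (p + L • y)) v = (c * L * L) • cHess f (p + L • v) := by
  ext j k
  have h1 : (fun y => ((c * f (p + L • y) : ℝ) : ℂ)) =
      fun y => c • (fun z => (f z : ℂ)) (p + L • y) := funext fun y => by
    rw [Complex.ofReal_mul, Complex.real_smul]
  have h2 : dzb k (fun y => c • (fun z => (f z : ℂ)) (p + L • y)) =
      fun y => (c * L) • dzb k (fun z => (f z : ℂ)) (p + L • y) :=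
    funext fun y => dzb_aff c L p (fun z => (f z : ℂ)) k y
  show dz j (dzb k fun y => ((c * f (p + L • y) : ℝ) : ℂ)) v =
    (c * L * L) • dz j (dzb k fun y => (f y : ℂ)) (p + L • v)
  rw [h1, h2, dz_aff]

theorem norm_le {L : ℝ} (hL : 1 ≤ L) (p : Cm N) (f : Cm N → ℂ) {q : ℕ} (hq : 1 ≤ q) :
    ‖iteratedFDeriv ℝ q f p‖ ≤ ‖iteratedFDeriv ℝ q (fun y => f (p + L • y)) 0‖ * L⁻¹ := by
  have h0 : 0 < L := one_pos.trans_le hL
  let g : Cm N ≃L[ℝ] Cm N := ContinuousLinearEquiv.equivOfInverse
    (L⁻¹ • ContinuousLinearMap.id ℝ _) (L • ContinuousLinearMap.id ℝ _)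
    (fun y => smul_inv_smul₀ h0.ne' y) fun y => inv_smul_smul₀ h0.ne' y
  have h1 := g.iteratedFDerivWithin_comp_right (fun y => f (p + L • y)) uniqueDiffOn_univ
    (x := 0) (mem_univ _) q
  have h2 : (fun y => f (p + L • y)) ∘ g = fun y => f (p + y) := funext fun y =>
    congrArg (fun z => f (p + z)) (smul_inv_smul₀ h0.ne' y)
  rw [preimage_univ, iteratedFDerivWithin_univ, iteratedFDerivWithin_univ, h2,
    iteratedFDeriv_comp_add_left, add_zero, map_zero] at h1
  have h3 : ‖(g : Cm N →L[ℝ] Cm N)‖ ≤ L⁻¹ :=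
    ContinuousLinearMap.opNorm_le_bound _ (by positivity) fun y =>
      le_of_eq ((norm_smul L⁻¹ y).trans (by rw [Real.norm_of_nonneg (by positivity)]))
  rw [h1]
  refine (ContinuousMultilinearMap.norm_compContinuousLinearMap_le _ _).trans
    (mul_le_mul_of_nonneg_left ?_ (norm_nonneg _))
  rw [Finset.prod_const, Finset.card_univ, Fintype.card_fin]
  exact (pow_le_pow_left₀ (norm_nonneg _) h3 q).trans
    (pow_le_of_le_one (by positivity) (inv_le_one_of_one_le₀ hL) (by omega))

end SclX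

open SclX in
theorem scl_of (h : UNI) : SCL := by
  intro N lam Lam η hlam hη k
  choose C hC using h N lam Lam hlam
  set L := 1 + (∑ q ∈ Finset.range (k + 1), |C q|) / η with hL
  have h1 : 1 ≤ L := le_add_of_nonneg_right (by positivity)
  have h0 : 0 < L := one_pos.trans_le h1
  refine ⟨L, h0, fun φ p hφ i i' q hq hk => ?_⟩
  have e : ∀ v, cHess (fun y => (L * L)⁻¹ * φ (p + L • y)) v = cHess φ (p + L • v) := fun v => by
    rw [cHess_aff, mul_assoc, inv_mul_cancel₀ (by positivity), one_smul]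
  have hR : RF lam Lam 0 1 fun y => (L * L)⁻¹ * φ (p + L • y) := fun v hv => by
    have hm : p + L • v ∈ ball p L := by
      rw [mem_ball_zero_iff] at hv
      rw [mem_ball, dist_eq_norm, add_sub_cancel_left, norm_smul, Real.norm_of_nonneg h0.le]
      exact mul_lt_of_lt_one_right h0 hv
    obtain ⟨a1, a2, a3, a4⟩ := hφ _ hm
    simp only [e]
    refine ⟨contDiffAt_const.mul (a1.comp v (by fun_prop)), a2, a3, ?_⟩
    have := cHess_aff 1 L p (fun v' => Real.log (cHess φ v').det.re) v
    simp only [one_mul] at this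
    rw [this, a4, smul_zero]
  have h2 := hC q _ hR i i'
  simp only [e] at h2
  refine (norm_le h1 p _ hq).trans ((mul_le_mul_of_nonneg_right h2 (by positivity)).trans ?_)
  have h3 : C q ≤ ∑ q ∈ Finset.range (k + 1), |C q| := (le_abs_self _).trans
    (Finset.single_le_sum (f := fun q => |C q|) (fun _ _ => abs_nonneg _)
      (Finset.mem_range.2 (by omega)))
  rw [← div_eq_mul_inv, div_le_iff₀ h0, hL, mul_add, mul_div_cancel₀ _ hη.ne']
  linarith

end Vale.Agent.P301Z.Key
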