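import Vale.Agent.P301Z.Key.Rows
import Vale.Agent.P299.H835.C3
import Vale.Agent.P272.K.IE.Final
import Vale.Agent.P272.K.N.MaxP

/-!
# P301Z, block KEY: the start of the bootstrap
-/

open scoped ContDiff ComplexOrder Topology Matrix
open Set Metric Filter

noncomputable section

namespace Vale.Agent.P301Z.Key

open Vale.Agent.P272.K

namespace StaX

variable {N : ℕ}

theorem sc_pd {a : ℝ} (ha : 0 < a) : ((a : ℂ) • (1 : Matrix (Fin N) (Fin N) ℂ)).PosDef :=
  Matrix.PosDef.one.smul (by exact_mod_cast ha)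

theorem sc_det (a : ℝ) : ((a : ℂ) • (1 : Matrix (Fin N) (Fin N) ℂ)).det.re = a ^ N := by
  rw [Matrix.det_smul, Fintype.card_fin, ← Complex.ofReal_pow, Matrix.det_one, mul_one,
    Complex.ofReal_re]

theorem norm_d (g : Cm N → ℂ) (z : Cm N) (k : Fin N) {a : ℂ} (ha : ‖a‖ = 1) :
    ‖fderiv ℝ g z (Pi.single k a)‖ ≤ ‖iteratedFDeriv ℝ 1 g z‖ := by
  rw [norm_iteratedFDeriv_one]
  refine ((fderiv ℝ g z).le_opNorm _).trans (le_of_eq ?_)
  rw [Pi.norm_single, ha, mul_one]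

theorem norm_dz (g : Cm N → ℂ) (z : Cm N) (k : Fin N) :
    ‖dz k g z‖ ≤ ‖iteratedFDeriv ℝ 1 g z‖ ∧ ‖dzb k g z‖ ≤ ‖iteratedFDeriv ℝ 1 g z‖ := by
  have h1 := norm_d g z k norm_one
  have h2 := norm_d g z k Complex.norm_I
  have h3 : ‖Complex.I * fderiv ℝ g z (Pi.single k Complex.I)‖ ≤ ‖iteratedFDeriv ℝ 1 g z‖ := by
    rwa [norm_mul, Complex.norm_I, one_mul]
  unfold dz dzb
  rw [norm_div, norm_div, Complex.norm_two]
  constructor
  · linarith [norm_sub_le (fderiv ℝ g z (Pi.single k 1))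
      (Complex.I * fderiv ℝ g z (Pi.single k Complex.I))]
  · linarith [norm_add_le (fderiv ℝ g z (Pi.single k 1))
      (Complex.I * fderiv ℝ g z (Pi.single k Complex.I))]

theorem entry_le {K : Matrix (Fin N) (Fin N) ℂ} {L : ℝ} (hK : K.PosSemidef)
    (hL : ((L : ℂ) • (1 : Matrix (Fin N) (Fin N) ℂ) - K).PosSemidef) (i j : Fin N) :
    ‖K i j‖ ≤ N * L := by
  have h1 := (norm_nonneg _).trans (C2.norm_entry_le_trace hL i j)
  rw [Matrix.trace_sub, Matrix.trace_smul, Matrix.trace_one, Fintype.card_fin, smul_eq_mul,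
    Complex.sub_re, Complex.re_ofReal_mul, Complex.natCast_re] at h1
  linarith [C2.norm_entry_le_trace hK i j]

theorem two_le : (2 : WithTop ℕ∞) ≤ ∞ := by norm_cast

theorem sm_cHess {u : Cm N → ℝ} {z : Cm N} (h : ContDiffAt ℝ ∞ u z) (i j : Fin N) :
    ContDiffAt ℝ ∞ (fun y => cHess u y i j) z := C2.contDiffAt_cHess h (by norm_cast) i j

theorem df_cHess {u : Cm N → ℝ} {z : Cm N} (h : ContDiffAt ℝ ∞ u z) (i j : Fin N) :
    DifferentiableAt ℝ (fun y => cHess u y i j) z := (sm_cHess h i j).differentiableAt (by simp)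

end StaX

open StaX

theorem sta_of (h : CNV) : STA := by
  intro N lam Lam hlam
  obtain ⟨c, hc⟩ := h N
  obtain ⟨L, hL1, hL2⟩ : ∃ L, lam ≤ L ∧ Lam ≤ L := ⟨_, le_max_left _ _, le_max_right _ _⟩
  have hL : 0 < L := hlam.trans_le hL1
  obtain ⟨C3, hC3⟩ := P299.H835.calabi N 0 (1 / 2) 1 lam Lam 0 (by norm_num) (by norm_num) hlam
  obtain ⟨M, hM1, hM2, hM3⟩ : ∃ M : ℝ, c 0 * L ≤ M ∧ N * L + c 0 * L ≤ M ∧ C3 + c 1 * L ≤ M :=
    ⟨_, le_max_left _ _, (le_max_left _ _).trans (le_max_right _ _),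
      (le_max_right _ _).trans (le_max_right _ _)⟩
  obtain ⟨C, hC⟩ := IE.ie N 0 (1 / 4) (1 / 2) (1 / 2) M (by norm_num) (by norm_num) (by norm_num)
    (by norm_num)
  refine ⟨max (c 0 * L) C, fun q => max (c q * L)
    (c q * (|Real.log (lam ^ N)| + |Real.log (L ^ N)|)), fun φ hφ => ?_⟩
  have hs1 : ball (0 : Cm N) (1 / 2) ⊆ ball 0 1 := ball_subset_ball (by norm_num)
  have hs2 : ball (0 : Cm N) (1 / 4) ⊆ ball 0 (1 / 2) := ball_subset_ball (by norm_num)
  have hpd : ∀ v ∈ ball (0 : Cm N) 1, (cHess φ v).PosDef := fun v hv => by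
    simpa using (sc_pd hlam).add_posSemidef (hφ v hv).2.1
  have hhi : ∀ v ∈ ball (0 : Cm N) 1,
      ((L : ℂ) • (1 : Matrix (Fin N) (Fin N) ℂ) - cHess φ v).PosSemidef := fun v hv => by
    have h1 := (Matrix.PosSemidef.one (n := Fin N) (R := ℂ)).smul
      (a := ((L - Lam : ℝ) : ℂ)) (by exact_mod_cast sub_nonneg.2 hL2)
    have h2 := h1.add (hφ v hv).2.2.1
    rwa [Complex.ofReal_sub, sub_smul, sub_add_sub_cancel] at h2
  have hd1 : ∀ v ∈ ball (0 : Cm N) 1, lam ^ N ≤ (cHess φ v).det.re := fun v hv =>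
    sc_det lam ▸ P272.K.N.det_re_le (sc_pd hlam) (hφ v hv).2.1
  have hd2 : ∀ v ∈ ball (0 : Cm N) 1, (cHess φ v).det.re ≤ L ^ N := fun v hv =>
    sc_det L ▸ P272.K.N.det_re_le (hpd v hv) (hhi v hv)
  have hf : ∀ v ∈ ball (0 : Cm N) 1, ContDiffAt ℝ ∞ (fun y => Real.log (cHess φ y).det.re) v :=
    fun v hv => (Complex.reCLM.contDiff.contDiffAt.comp v
      (C2.MC.det (A := cHess φ) (sm_cHess (hφ v hv).1))).log ((pow_pos hlam N).trans_le (hd1 v hv)).ne'
  obtain ⟨κ, hκ⟩ := hc L φ hL.le fun v hv => ⟨(hφ v hv).1, (hpd v hv).posSemidef, hhi v hv⟩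
  obtain ⟨κf, hκf⟩ := hc 0 (fun y => Real.log (cHess φ y).det.re) le_rfl fun v hv =>
    ⟨hf v hv, by rw [(hφ v hv).2.2.2]; exact .zero, by
      rw [(hφ v hv).2.2.2, Complex.ofReal_zero, zero_smul, sub_zero]; exact .zero⟩
  have h3 := hC3 0 ⟨le_rfl, zero_le_one⟩ (cHess φ) (fun _ => 0)
    (fun z hz => sm_cHess (hφ z hz).1) (fun z hz => (hpd z hz).1) (fun z hz => (hφ z hz).2.1)
    (fun z hz => (hφ z hz).2.2.1) (fun z hz i j k => INT.cHess_closed (hφ z hz).1 k i j)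
    (fun z hz => by rw [(hφ z hz).2.2.2]; simp) (fun _ _ _ _ => contDiffAt_const)
    (fun _ _ _ _ => by simp) (fun _ _ _ _ _ => by rw [C2.dz_const, norm_zero])
  have hev : ∀ z ∈ ball (0 : Cm N) (1 / 2), ∀ i j, (fun y => cHess (fun y => φ y - κ y) y i j)
      =ᶠ[𝓝 z] fun y => cHess φ y i j - cHess κ y i j := fun z hz i j => by
    filter_upwards [isOpen_ball.mem_nhds hz] with y hy
    rw [C2.cHess_sub ((hφ y (hs1 hy)).1.of_le two_le) ((hκ y hy).1.of_le two_le), Matrix.sub_apply]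
  refine ⟨κ, fun z hz => ⟨(hκ z (hs2 hz)).1, (hκ z (hs2 hz)).2.1.trans (le_max_left _ _),
    fun q i i' => ((hκ z (hs2 hz)).2.2.1 q i i').trans (le_max_left _ _), fun q => ?_⟩, ?_⟩
  · have h4 : (fun y => Real.log (cHess φ y).det.re) =ᶠ[𝓝 z] κf := by
      filter_upwards [isOpen_ball.mem_nhds (hs2 hz)] with y hy
      have h5 := (hκf y hy).2.1
      rwa [mul_zero, abs_nonpos_iff, sub_eq_zero] at h5
    refine (Complex.ofRealLI.norm_iteratedFDeriv_comp_left (hf z (hs1 (hs2 hz)))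
      (i := q) (by exact_mod_cast le_top)).trans_le (le_trans ?_ (le_max_right _ _))
    rw [(h4.iteratedFDeriv ℝ q).self_of_nhds]
    refine (hκf z (hs2 hz)).2.2.2 _ (fun v hv => abs_le.2 ⟨?_, ?_⟩) q
    · linarith [Real.log_le_log (pow_pos hlam N) (hd1 v hv), neg_abs_le (Real.log (lam ^ N)),
        abs_nonneg (Real.log (L ^ N))]
    · linarith [Real.log_le_log ((pow_pos hlam N).trans_le (hd1 v hv)) (hd2 v hv),
        le_abs_self (Real.log (L ^ N)), abs_nonneg (Real.log (lam ^ N))]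
  · refine R.Hol.mono_const (fun y hy y' hy' => hC _
      (fun z hz => (hφ z (hs1 hz)).1.sub (hκ z hz).1) (fun z hz => (hκ z hz).2.1.trans hM1)
      (fun z hz i j => ?_) (fun z hz i j k => ?_) (fun z hz i j k => ?_) y
      (ball_subset_closedBall hy) y' (ball_subset_closedBall hy')) (le_max_right _ _)
    · have h4 := (hκ z hz).2.2.1 0 i j
      rw [norm_iteratedFDeriv_zero] at h4
      exact (congrArg norm (hev z hz i j).self_of_nhds).trans_le ((norm_sub_le _ _).trans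
        ((add_le_add (entry_le (hpd z (hs1 hz)).posSemidef (hhi z (hs1 hz)) i j) h4).trans hM2))
    · rw [C2.dz_congr k (hev z hz i j),
        C2.dz_sub k (df_cHess (hφ z (hs1 hz)).1 i j) (df_cHess (hκ z hz).1 i j)]
      exact (norm_sub_le _ _).trans ((add_le_add (h3 z (ball_subset_closedBall hz) i j k)
        ((norm_dz _ z k).1.trans ((hκ z hz).2.2.1 1 i j))).trans hM3)
    · have h4 : (fun y => cHess φ y i j) =ᶠ[𝓝 z] fun y => (starRingEnd ℂ) (cHess φ y j i) := by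
        filter_upwards [isOpen_ball.mem_nhds (hs1 hz)] with y hy
        exact ((hpd y hy).1.apply i j).symm
      rw [C2.dzb_congr k (hev z hz i j),
        C2.dzb_sub k (df_cHess (hφ z (hs1 hz)).1 i j) (df_cHess (hκ z hz).1 i j),
        C2.dzb_congr k h4, C2.dzb_conj k (df_cHess (hφ z (hs1 hz)).1 j i)]
      refine (norm_sub_le _ _).trans ((add_le_add ?_
        ((norm_dz _ z k).2.trans ((hκ z hz).2.2.1 1 i j))).trans hM3)
      rw [Complex.norm_conj]
      exact h3 z (ball_subset_closedBall hz) j i k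

end Vale.Agent.P301Z.Key
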