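import Vale.Agent.P301Z.Key.Gb1

/-! P301, KEY: the bound `G ≤ 3T`. -/

open MeasureTheory Metric Filter Set
open scoped Topology ContDiff ComplexOrder

noncomputable section

namespace Vale.Agent.P301Z.Key.Gb

open Vale.Agent.P272.K

variable {n : ℕ}

theorem diag_nonneg {A : Matrix (Fin n) (Fin n) ℂ} (h : A.PosSemidef) (k : Fin n) :
    0 ≤ (A k k).re := (Complex.le_def.1 h.diag_nonneg).1

theorem diag_le_trace {A : Matrix (Fin n) (Fin n) ℂ} (h : A.PosSemidef) (k : Fin n) :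
    (A k k).re ≤ A.trace.re := by
  rw [Matrix.trace, Complex.re_sum]
  exact Finset.single_le_sum (f := fun i => (A.diag i).re) (fun i _ => diag_nonneg h i)
    (Finset.mem_univ k)

theorem gb (n : ℕ) {r C : ℝ} (hr : 0 < r) (hC : 0 < C) (p : ℕ) : ∃ T₀ : ℝ, ∀ T : ℝ, T₀ ≤ T →
    ∀ G : Cm n → ℝ, (∀ z ∈ ball (0 : Cm n) (2 ^ (p + 5) * r), ContDiffAt ℝ ∞ G z ∧ 0 ≤ G z ∧
      (cHess G z + (C : ℂ) • (1 : Matrix (Fin n) (Fin n) ℂ)).PosSemidef ∧
      (((C * Real.exp (C * G z / T) : ℝ) : ℂ) • (1 : Matrix (Fin n) (Fin n) ℂ) -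
        cHess G z).PosSemidef) → G 0 = 0 →
      (∀ K ⊆ ball (0 : Cm n) (2 ^ (p + 5) * r), IsCompact K →
        ∫ z in K, (cHess G z + (C : ℂ) • (1 : Matrix (Fin n) (Fin n) ℂ)).trace.re ≤ C * T ^ p) →
      ∀ z ∈ ball (0 : Cm n) r, G z ≤ 3 * T := by
  set ρ := 2 ^ (p + 5) * r with hρ
  set s₀ := 2 ^ (p + 1) * r with hs₀
  have hs0 : 0 < s₀ := by positivity
  have hρs : ρ = 16 * s₀ := by rw [hρ, hs₀]; ring
  have hδ : 0 < 1 - Real.exp (-C) := by
    have := Real.exp_lt_one_iff.2 (neg_lt_zero.2 hC)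
    linarith
  obtain ⟨κ, hκ⟩ : ∃ κ, κ = C * C * n * ρ ^ 2 / (1 - Real.exp (-C)) := ⟨_, rfl⟩
  have hκ0 : 0 ≤ κ := by rw [hκ]; positivity
  obtain ⟨K, hK⟩ : ∃ K, K = 2 ^ Module.finrank ℝ (Cm n) * κ := ⟨_, rfl⟩
  have hK0 : 0 ≤ K := by rw [hK]; positivity
  have hv := vol_pos (0 : Cm n) hs0
  obtain ⟨K₀, hK₀⟩ : ∃ K₀, K₀ = C * n * s₀ ^ 2 + 3 ^ Module.finrank ℝ (Cm n) *
    (1 + 18 * C * n * s₀ ^ 2 / volume.real (ball (0 : Cm n) s₀)) := ⟨_, rfl⟩
  have hK00 : 0 ≤ K₀ := by rw [hK₀]; positivity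
  have hE0 : 0 ≤ C * n * ρ ^ 2 := by positivity
  have hP0 : 0 ≤ K₀ * K ^ (p + 1) := by positivity
  refine ⟨1 + 2 * κ + (C * n * ρ ^ 2 + 2 * K) + K₀ * K ^ (p + 1), fun T hT G hG hz hM => ?_⟩
  have hT1 : 1 ≤ T := by linarith
  have hT0 : 0 < T := by linarith
  have hsub : ∀ {s : ℝ}, s ≤ 4 * s₀ → closedBall (0 : Cm n) s ⊆ ball 0 ρ := fun h =>
    closedBall_subset_ball (by linarith)
  have hf2 : ∀ z ∈ ball (0 : Cm n) ρ, ContDiffAt ℝ 2 G z := fun z hz =>
    (hG z hz).1.of_le (by norm_cast)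
  have hL : ∀ z ∈ ball (0 : Cm n) ρ, ∀ k, -C ≤ (cHess G z k k).re := fun z hz k => by
    have := diag_nonneg (hG z hz).2.2.1 k
    simp only [Matrix.add_apply, Matrix.smul_apply, Matrix.one_apply_eq, smul_eq_mul, mul_one,
      Complex.add_re, Complex.ofReal_re] at this
    linarith
  have hU : ∀ z ∈ ball (0 : Cm n) ρ, ∀ k, (cHess G z k k).re ≤ C * Real.exp (C * G z / T) :=
    fun z hz k => by
    have := diag_nonneg (hG z hz).2.2.2 k
    simp only [Matrix.sub_apply, Matrix.smul_apply, Matrix.one_apply_eq, smul_eq_mul, mul_one,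
      Complex.sub_re, Complex.ofReal_re] at this
    linarith
  have hbad : ∀ s, 0 < s → s ≤ 4 * s₀ → volume.real (ball (0 : Cm n) s ∩ G ⁻¹' Ioi T) ≤
      volume.real (ball (0 : Cm n) s) * (κ / T) := by
    intro s hs hs4
    have h1 := bad_le hs hC hT0 (fun z hz => hf2 z (hsub hs4 hz))
      (fun z hz => (hG z (hsub hs4 hz)).2.1) hz fun z hz => hU z (hsub hs4 hz)
    have h2 : C / T * C * n * s ^ 2 ≤ (1 - Real.exp (-C)) * (κ / T) := by
      have a1 : s ^ 2 ≤ ρ ^ 2 := pow_le_pow_left₀ hs.le (by linarith) 2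
      have a2 : (1 - Real.exp (-C)) * (κ / T) = C / T * C * n * ρ ^ 2 := by
        rw [hκ]; field_simp
      rw [a2]
      exact mul_le_mul_of_nonneg_left a1 (by positivity)
    have h3 := mul_le_mul_of_nonneg_left h2 (vol_pos (0 : Cm n) hs).le
    refine le_of_mul_le_mul_left ?_ hδ
    nlinarith
  have hTp : T ≤ T ^ (p + 1) := le_self_pow₀ hT1 (Nat.succ_ne_zero p)
  have hTp' : T ^ p ≤ T ^ (p + 1) := pow_le_pow_right₀ hT1 (Nat.le_succ p)
  have hap : ∀ y ∈ closedBall (0 : Cm n) s₀, G y ≤ K₀ * T ^ (p + 1) := by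
    intro y hy
    have h1 := apriori (T := T) (M := C * T ^ p)
      (D := fun z => (cHess G z + (C : ℂ) • (1 : Matrix (Fin n) (Fin n) ℂ)).trace.re)
      hs0 (by linarith : 6 * s₀ < ρ) hC.le (by positivity) (fun z hz => (hG z hz).1)
      (fun z hz => (hG z hz).2.1) hL (fun z hz => ?_) (fun z hz => ?_) (fun z hz k => ?_)
      (hM _ (hsub le_rfl) (isCompact_closedBall _ _)) ?_ hy
    · have hq : (0 : ℝ) < 3 ^ Module.finrank ℝ (Cm n) := by positivity
      have a0 : 0 ≤ 18 * C * n * s₀ ^ 2 / volume.real (ball (0 : Cm n) s₀) := by positivity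
      have a1 : 18 * (C * T ^ p) * n * s₀ ^ 2 / volume.real (ball (0 : Cm n) s₀) =
          18 * C * n * s₀ ^ 2 / volume.real (ball (0 : Cm n) s₀) * T ^ p := by ring
      have a2 := mul_le_mul_of_nonneg_left hTp' a0
      have a3 : 0 ≤ C * n * s₀ ^ 2 := by positivity
      have a4 := mul_le_mul_of_nonneg_left (hT1.trans hTp) a3
      rw [a1] at h1
      rw [hK₀]
      generalize 18 * C * n * s₀ ^ 2 / volume.real (ball (0 : Cm n) s₀) = b at *
      generalize (3 : ℝ) ^ Module.finrank ℝ (Cm n) = q at *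
      have a5 : q * (T + b * T ^ p) ≤ q * (T ^ (p + 1) + b * T ^ (p + 1)) :=
        mul_le_mul_of_nonneg_left (by linarith) hq.le
      nlinarith
    · simp only [Matrix.trace, Matrix.diag_apply, Matrix.add_apply, Complex.re_sum]
      refine tendsto_finsetSum _ fun i _ => ?_
      exact Complex.continuous_re.continuousAt.comp
        ((C2.contDiffAt_cHess (m := 0) (hf2 z hz) (by norm_num) i i).continuousAt.add
          continuousAt_const)
    · exact (Complex.le_def.1 (hG z hz).2.2.1.trace_nonneg).1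
    · have := diag_le_trace (hG z hz).2.2.1 k
      simp only [Matrix.add_apply, Matrix.smul_apply, Matrix.one_apply_eq, smul_eq_mul, mul_one,
        Complex.add_re, Complex.ofReal_re] at this
      linarith
    · refine (hbad s₀ hs0 (by linarith)).trans ?_
      have : κ / T ≤ 1 / 2 := by rw [div_le_iff₀ hT0]; linarith
      nlinarith
  have hit : ∀ j, j ≤ p + 1 → ∀ y ∈ closedBall (0 : Cm n) (2 ^ (p + 1 - j) * r),
      G y ≤ 2 * T + K₀ * T ^ (p + 1) * (K / T) ^ j := by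
    intro j
    induction j with
    | zero =>
      intro _ y hy
      have := hap y hy
      rw [pow_zero, mul_one]
      linarith
    | succ j ih =>
      intro hj y hy
      have e : 2 * (2 ^ (p + 1 - (j + 1)) * r) = 2 ^ (p + 1 - j) * r := by
        rw [show p + 1 - j = p + 1 - (j + 1) + 1 by omega, pow_succ]; ring
      have hs : 0 < 2 ^ (p + 1 - (j + 1)) * r := by positivity
      have hle : 2 * (2 ^ (p + 1 - (j + 1)) * r) ≤ s₀ := by
        rw [e, hs₀]
        exact mul_le_mul_of_nonneg_right (pow_le_pow_right₀ one_le_two (Nat.sub_le _ _)) hr.le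
      have ih' := ih (by omega)
      rw [← e] at ih'
      generalize 2 ^ (p + 1 - (j + 1)) * r = s at *
      have hs4 : 2 * s ≤ 4 * s₀ := by linarith
      have h1 := step hs hC.le hT0.le (by positivity) (fun z hz => hf2 z (hsub hs4 hz))
        (fun z hz => hL z (hsub hs4 hz)) ih' (hbad _ (by positivity) hs4) hy
      have a1 : s ^ 2 ≤ ρ ^ 2 := pow_le_pow_left₀ hs.le (by linarith) 2
      have a2 := mul_le_mul_of_nonneg_left a1 (by positivity : 0 ≤ C * n)
      have a3 : (2 * T + K₀ * T ^ (p + 1) * (K / T) ^ j) *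
          (2 ^ Module.finrank ℝ (Cm n) * (κ / T)) =
          2 * K + K₀ * T ^ (p + 1) * (K / T) ^ (j + 1) := by
        rw [pow_succ (K / T), hK]; field_simp
      rw [a3] at h1
      linarith
  intro z hz'
  have h1 := hit (p + 1) le_rfl z (by simpa using ball_subset_closedBall hz')
  have h2 : K₀ * T ^ (p + 1) * (K / T) ^ (p + 1) = K₀ * K ^ (p + 1) := by
    rw [div_pow]; field_simp
  rw [h2] at h1
  linarith

end Vale.Agent.P301Z.Key.Gb
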