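import Vale.Agent.P301Z.Key.Rows
import Vale.Agent.P301Z.Key.Gb
import Vale.Agent.P272.K.C2.Eig

/-! P301, KEY: two sided bounds on the tube. -/

open scoped ContDiff ComplexOrder Topology Matrix
open Set Metric MeasureTheory Filter

noncomputable section

namespace Vale.Agent.P301Z.Key

open Vale.Agent.P272.K

namespace TwoH

variable {N : ℕ}

theorem one_mono {a b : ℝ} (h : a ≤ b) :
    ((b : ℂ) • (1 : Matrix (Fin N) (Fin N) ℂ) - (a : ℂ) • 1).PosSemidef := by
  rw [← sub_smul, ← Complex.ofReal_sub]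
  exact Matrix.PosSemidef.one.smul (Complex.zero_le_real.2 (sub_nonneg.2 h))

/-- a lower bound and a bound of the determinant give an upper bound -/
theorem upper {K : Matrix (Fin N) (Fin N) ℂ} {c D : ℝ} (hc : 0 < c)
    (h : (K - ((c⁻¹ : ℝ) : ℂ) • (1 : Matrix (Fin N) (Fin N) ℂ)).PosSemidef) (hD : K.det.re ≤ D) :
    K.PosDef ∧ (((N * (c ^ (N - 1) * D) : ℝ) : ℂ) • (1 : Matrix (Fin N) (Fin N) ℂ) - K).PosSemidef := by
  have hK : K.PosDef := by
    have h2 : (((c⁻¹ : ℝ) : ℂ) • (1 : Matrix (Fin N) (Fin N) ℂ)).PosDef :=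
      Matrix.PosDef.one.smul (Complex.zero_lt_real.2 (inv_pos.2 hc))
    have h3 := h2.add_posSemidef h
    rwa [add_sub_cancel] at h3
  refine ⟨hK, ?_⟩
  have h1 : ((c : ℂ) • K - 1).PosSemidef := by
    have := h.smul (Complex.zero_le_real.2 hc.le)
    rwa [smul_sub, smul_smul, ← Complex.ofReal_mul, mul_inv_cancel₀ hc.ne', Complex.ofReal_one,
      one_smul] at this
  have h2 := C2.trace_le_of_inv_bound hK h1
  rw [Fintype.card_fin] at h2
  have h3 := C2.trace_smul_one_sub_posSemidef hK.posSemidef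
  have h4 : K.trace = (K.trace.re : ℂ) := by
    have := (Complex.le_def.1 hK.posSemidef.trace_nonneg).2
    apply Complex.ext <;> simp [← this]
  have h5 : K.trace.re ≤ N * (c ^ (N - 1) * D) := h2.trans
    (mul_le_mul_of_nonneg_left (mul_le_mul_of_nonneg_left hD (by positivity)) (Nat.cast_nonneg _))
  rw [h4] at h3
  have h6 := (one_mono (N := N) h5).add h3
  rwa [sub_add_sub_cancel] at h6

theorem mem_Tb {R : ℝ} {v : Cm N} (h : ‖v‖ < R) : v ∈ Tb N R := fun i =>
  ((Complex.abs_re_le_norm _).trans (norm_le_pi_norm v i)).trans_lt h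

theorem Tb_mono {R R' : ℝ} (h : R ≤ R') {v : Cm N} (hv : v ∈ Tb N R) : v ∈ Tb N R' :=
  fun i => (hv i).trans_le h

theorem exists_per {R : ℝ} (hR : 0 < R) {v : Cm N} (hv : v ∈ Tb N R) :
    ∃ q, v + per q ∈ ball (0 : Cm N) (R + 4) := by
  refine ⟨fun i => -round ((v i).im / (2 * Real.pi)), ?_⟩
  rw [mem_ball_zero_iff, pi_norm_lt_iff (by linarith)]
  intro i
  have hp := Real.pi_pos
  have h1 := abs_sub_round ((v i).im / (2 * Real.pi))
  have h2 : ((v + per fun i => -round ((v i).im / (2 * Real.pi))) i).re = (v i).re := by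
    simp [per]
  have h3 : ((v + per fun i => -round ((v i).im / (2 * Real.pi))) i).im =
      2 * Real.pi * ((v i).im / (2 * Real.pi) - round ((v i).im / (2 * Real.pi))) := by
    simp [per]
    field_simp
    ring
  refine (Complex.norm_le_abs_re_add_abs_im _).trans_lt ?_
  rw [h2, h3, abs_mul, abs_of_pos (by positivity : 0 < 2 * Real.pi)]
  have := hv i
  nlinarith [Real.pi_le_four]

theorem cover (N : ℕ) (ρ : ℝ) : ∃ n₀ : ℝ, 0 ≤ n₀ ∧ ∀ (f : Cm N → ℝ) (B : ℝ), 0 ≤ B →
    (∀ v ∈ closedBall (0 : Cm N) (ρ + 1), ContinuousAt f v ∧ 0 ≤ f v) →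
    (∀ v₀ ∈ closedBall (0 : Cm N) ρ, ∫ v in closedBall v₀ 1, f v ≤ B) →
    ∀ K ⊆ closedBall (0 : Cm N) ρ, IsCompact K → ∫ v in K, f v ≤ n₀ * B := by
  obtain ⟨s, hs, hf, hc⟩ := (isCompact_closedBall (0 : Cm N) ρ).finite_cover_balls one_pos
  refine ⟨hf.toFinset.card, Nat.cast_nonneg _, fun f B hB hf0 hI K hK hKc => ?_⟩
  have hsub : ∀ v₀ ∈ s, closedBall v₀ 1 ⊆ closedBall (0 : Cm N) (ρ + 1) := fun v₀ hv =>
    closedBall_subset_closedBall' (by have : dist v₀ 0 ≤ ρ := hs hv; linarith)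
  let g : Cm N → ℝ := fun v => ∑ v₀ ∈ hf.toFinset, (closedBall v₀ 1).indicator f v
  have hi : ∀ v₀ ∈ hf.toFinset, Integrable ((closedBall v₀ 1).indicator f) := fun v₀ hv =>
    (integrable_indicator_iff measurableSet_closedBall).2
      (ContinuousOn.integrableOn_compact (isCompact_closedBall _ _)
        fun v h => (hf0 v (hsub v₀ (hf.mem_toFinset.1 hv) h)).1.continuousWithinAt)
  have hn : ∀ v, ∀ v₀ ∈ hf.toFinset, 0 ≤ (closedBall v₀ 1).indicator f v := fun v v₀ hv =>
    indicator_nonneg (fun v h => (hf0 v (hsub v₀ (hf.mem_toFinset.1 hv) h)).2) v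
  have hg : Integrable g := integrable_finsetSum _ hi
  have hK1 : K ⊆ closedBall (0 : Cm N) (ρ + 1) :=
    hK.trans (closedBall_subset_closedBall (by linarith))
  calc ∫ v in K, f v ≤ ∫ v in K, g v := by
        refine setIntegral_mono_on (ContinuousOn.integrableOn_compact hKc
          fun v h => (hf0 v (hK1 h)).1.continuousWithinAt) hg.integrableOn hKc.measurableSet
          fun v hv => ?_
        obtain ⟨v₀, hv₀, hm⟩ := mem_iUnion₂.1 (hc (hK hv))
        have := Finset.single_le_sum (hn v) (hf.mem_toFinset.2 hv₀)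
        rwa [indicator_of_mem (ball_subset_closedBall hm)] at this
    _ ≤ ∫ v, g v := setIntegral_le_integral hg
        (Eventually.of_forall fun v => Finset.sum_nonneg (hn v))
    _ = ∑ v₀ ∈ hf.toFinset, ∫ v, (closedBall v₀ 1).indicator f v := integral_finsetSum _ hi
    _ ≤ ∑ _v ∈ hf.toFinset, B := Finset.sum_le_sum fun v₀ hv => by
        rw [integral_indicator measurableSet_closedBall]
        exact hI v₀ (hs (hf.mem_toFinset.1 hv))
    _ = _ := by rw [Finset.sum_const, nsmul_eq_mul]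

theorem cont_trace {f : Cm N → ℝ} {v : Cm N} (h : ContDiffAt ℝ ∞ f v) :
    ContinuousAt (fun v => (cHess f v).trace.re) v := by
  simp only [Matrix.trace, Matrix.diag_apply, Complex.re_sum]
  refine tendsto_finsetSum _ fun i _ => ?_
  exact Complex.continuous_re.continuousAt.comp
    (C2.contDiffAt_cHess (m := 0) h (by norm_cast) i i).continuousAt

end TwoH

open TwoH in
theorem two : TWO := by
  intro N hN C₁ hC₁
  obtain ⟨c, hc⟩ : ∃ c, c = C₁ * Real.exp (3 * C₁) := ⟨_, rfl⟩
  have hc0 : 0 < c := by rw [hc]; positivity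
  refine ⟨c + N * (c ^ (N - 1) * C₁), by positivity, fun R hR => ?_⟩
  obtain ⟨ρ, hρ⟩ : ∃ ρ : ℝ, ρ = 2 ^ (N + 1 + 5) * (R + 4) := ⟨_, rfl⟩
  have hρR : R + 4 ≤ ρ := by
    rw [hρ]
    exact le_mul_of_one_le_left (by linarith) (one_le_pow₀ one_le_two)
  refine ⟨ρ + 2, by linarith, fun C₂ hC₂ => ?_⟩
  obtain ⟨C, hC⟩ : ∃ C, C = C₂ + C₁ * (N * (C₁ ^ (N - 1) * C₁)) + N * C₁ + 1 := ⟨_, rfl⟩
  have a1 : 0 ≤ C₁ * (N * (C₁ ^ (N - 1) * C₁)) := by positivity
  have a2 : 0 ≤ N * C₁ := by positivity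
  have hC1 : 1 ≤ C := by linarith
  obtain ⟨T₁, hT₁⟩ := Gb.gb N (r := R + 4) (C := C) (by linarith) (by linarith) (N + 1)
  obtain ⟨n₀, hn0, hn₀⟩ := cover N ρ
  have hv0 : 0 ≤ volume.real (ball (0 : Cm N) ρ) := measureReal_nonneg
  have a3 : 0 ≤ C₁ * (n₀ * C₁) := by positivity
  have a4 : 0 ≤ N * volume.real (ball (0 : Cm N) ρ) := by positivity
  refine ⟨max T₁ (1 + C₁ * (n₀ * C₁) + N * volume.real (ball (0 : Cm N) ρ)),
    fun T hT φ G h => ?_⟩
  have hT2 := (le_max_right _ _).trans hT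
  have hT1 : 1 ≤ T := by linarith
  have hT0 : 0 < T := by linarith
  have hlo : ∀ v ∈ Tb N (ρ + 2), (cHess φ v - (((C₁ * Real.exp (C₁ * G v / T))⁻¹ : ℝ) : ℂ) •
      (1 : Matrix (Fin N) (Fin N) ℂ)).PosSemidef := fun v hv => by
    have := h.lo v hv
    rwa [Real.exp_neg, ← mul_inv] at this
  have hup := fun v hv => upper (by positivity) (hlo v hv) (h.det v hv)
  have hb : ∀ v ∈ ball (0 : Cm N) ρ, v ∈ Tb N (ρ + 2) := fun v hv =>
    mem_Tb ((mem_ball_zero_iff.1 hv).trans (by linarith))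
  have hGl : ∀ v ∈ Tb N (ρ + 2),
      (cHess G v + (C : ℂ) • (1 : Matrix (Fin N) (Fin N) ℂ)).PosSemidef := fun v hv => by
    have := (h.Glo v hv).add (one_mono (N := N) (by linarith : C₂ ≤ C))
    rwa [add_assoc, add_sub_cancel] at this
  rw [← hρ] at hT₁
  have hG := hT₁ T ((le_max_left _ _).trans hT) G (fun v hv => ⟨h.G_sm v (hb v hv),
    h.G_nn v (hb v hv), hGl v (hb v hv), ?_⟩) h.G_zero fun K hK hKc => ?_
  · intro v hv
    have hv' : v ∈ Tb N (ρ + 2) := Tb_mono (by linarith) hv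
    obtain ⟨q, hq⟩ := exists_per hR hv
    have h1 := hG _ hq
    rw [h.G_per v hv' q] at h1
    have h2 : C₁ * Real.exp (C₁ * G v / T) ≤ c := by
      rw [hc]
      refine mul_le_mul_of_nonneg_left (Real.exp_le_exp.2 ?_) hC₁.le
      rw [div_le_iff₀ hT0]
      nlinarith
    have h3 : 0 < C₁ * Real.exp (C₁ * G v / T) := by positivity
    have h4 : 0 ≤ N * (c ^ (N - 1) * C₁) := by positivity
    constructor
    · have := (hlo v hv').add (one_mono (N := N) (a := (c + N * (c ^ (N - 1) * C₁))⁻¹)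
        (inv_anti₀ h3 (by linarith)))
      rwa [sub_add_sub_cancel] at this
    · have h5 : N * ((C₁ * Real.exp (C₁ * G v / T)) ^ (N - 1) * C₁) ≤ N * (c ^ (N - 1) * C₁) :=
        mul_le_mul_of_nonneg_left (mul_le_mul_of_nonneg_right (pow_le_pow_left₀ h3.le h2 _) hC₁.le)
          (Nat.cast_nonneg _)
      have := (one_mono (N := N) (b := c + N * (c ^ (N - 1) * C₁)) (h5.trans (by linarith))).add
        (hup v hv').2
      rwa [sub_add_sub_cancel] at this
  · have hv' := hb v hv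
    have h0 := h.G_nn v hv'
    have h1 : C₁ * (N * ((C₁ * Real.exp (C₁ * G v / T)) ^ (N - 1) * C₁)) ≤
        C * Real.exp (C * G v / T) := by
      have b1 : Real.exp (C₁ * G v / T) ^ (N - 1) ≤ Real.exp (C * G v / T) := by
        rw [← Real.exp_nat_mul]
        refine Real.exp_le_exp.2 ?_
        have b2 : ((N - 1 : ℕ) : ℝ) ≤ N := by exact_mod_cast Nat.sub_le N 1
        have b3 : ((N - 1 : ℕ) : ℝ) * C₁ ≤ C := by nlinarith
        have b4 : 0 ≤ G v / T := by positivity
        calc _ = ((N - 1 : ℕ) : ℝ) * C₁ * (G v / T) := by ring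
          _ ≤ C * (G v / T) := mul_le_mul_of_nonneg_right b3 b4
          _ = _ := by ring
      calc _ = C₁ * (N * (C₁ ^ (N - 1) * C₁)) * Real.exp (C₁ * G v / T) ^ (N - 1) := by
            rw [mul_pow]; ring
        _ ≤ _ := mul_le_mul (by linarith) b1 (by positivity) (by linarith)
    have h2 := ((hup v hv').2.smul (Complex.zero_le_real.2 hC₁.le)).add (h.Ghi v hv')
    rw [smul_sub, sub_add_sub_cancel, smul_smul, ← Complex.ofReal_mul] at h2
    have := (one_mono (N := N) h1).add h2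
    rwa [sub_add_sub_cancel] at this
  · have hK' : ∀ v ∈ K, v ∈ Tb N (ρ + 2) := fun v hv => hb v (hK hv)
    have hTN : 1 ≤ T ^ N := one_le_pow₀ hT1
    have h1 := hn₀ (fun v => (cHess φ v).trace.re) (C₁ * T ^ N) (by positivity)
      (fun v hv => by
        have hv' : v ∈ Tb N (ρ + 2) := mem_Tb ((mem_closedBall_zero_iff.1 hv).trans_lt (by linarith))
        exact ⟨cont_trace (h.φ_sm v hv'),
          (Complex.le_def.1 (hup v hv').1.posSemidef.trace_nonneg).1⟩)
      (fun v₀ hv₀ => h.mass v₀ fun v hv => mem_Tb (by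
        have b1 := norm_le_of_mem_closedBall hv
        have b2 := mem_closedBall_zero_iff.1 hv₀
        linarith)) K (hK.trans ball_subset_closedBall) hKc
    have hiφ : IntegrableOn (fun v => (cHess φ v).trace.re) K :=
      ContinuousOn.integrableOn_compact hKc
        fun v hv => (cont_trace (h.φ_sm v (hK' v hv))).continuousWithinAt
    have hiG : IntegrableOn (fun v => (cHess G v).trace.re + C * N) K :=
      ContinuousOn.integrableOn_compact hKc
        fun v hv => ((cont_trace (h.G_sm v (hK' v hv))).add continuousAt_const).continuousWithinAt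
    have hic : Integrable (fun _ => C * N) (volume.restrict K) :=
      integrableOn_const hKc.measure_lt_top.ne
    have e : ∀ v, (cHess G v + (C : ℂ) • (1 : Matrix (Fin N) (Fin N) ℂ)).trace.re =
        (cHess G v).trace.re + C * N := fun v => by simp
    have h2 : ∫ v in K, ((cHess G v).trace.re + C * N) ≤
        ∫ v in K, (C₁ * (cHess φ v).trace.re + C * N) := by
      refine setIntegral_mono_on hiG ((hiφ.const_mul C₁).add hic) hKc.measurableSet fun v hv => ?_
      have := (Complex.le_def.1 (h.Ghi v (hK' v hv)).trace_nonneg).1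
      rw [Matrix.trace_sub, Matrix.trace_smul, smul_eq_mul, Complex.sub_re,
        Complex.re_ofReal_mul, Complex.zero_re] at this
      linarith
    rw [integral_add (hiφ.const_mul C₁) hic, integral_const_mul, setIntegral_const,
      smul_eq_mul] at h2
    have h3 : volume.real K ≤ volume.real (ball (0 : Cm N) ρ) :=
      measureReal_mono hK measure_ball_lt_top.ne
    simp only [e]
    have h4 := mul_le_mul_of_nonneg_left h1 hC₁.le
    have h5 := mul_le_mul_of_nonneg_right h3 (by positivity : 0 ≤ C * N)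
    have h6 : C₁ * (n₀ * C₁) * T ^ N ≤ C * (C₁ * (n₀ * C₁) * T ^ N) :=
      le_mul_of_one_le_left (by positivity) hC1
    have h7 : C * (N * volume.real (ball (0 : Cm N) ρ)) ≤
        C * (N * volume.real (ball (0 : Cm N) ρ) * T ^ N) :=
      mul_le_mul_of_nonneg_left (le_mul_of_one_le_right a4 hTN) (by linarith)
    have h8 : C * ((C₁ * (n₀ * C₁) + N * volume.real (ball (0 : Cm N) ρ)) * T ^ N) ≤
        C * (T * T ^ N) :=
      mul_le_mul_of_nonneg_left (mul_le_mul_of_nonneg_right (by linarith) (by positivity))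
        (by linarith)
    rw [pow_succ]
    nlinarith

end Vale.Agent.P301Z.Key
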