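import Vale.Agent.P301Z.Key.Rows
import Vale.Agent.P272.K.Inv.Consts

/-!
# P301Z, block KEY: uniform estimates of all orders
-/

open scoped ContDiff ComplexOrder Topology
open Set Metric

noncomputable section

namespace Vale.Agent.P301Z.Key

open Vale.Agent.P272.K

theorem UniX.sm {N : ℕ} {φ : Cm N → ℝ} {x : Cm N} {lam : ℝ} (hl : 0 < lam)
    (h1 : ContDiffAt ℝ ∞ φ x)
    (h2 : (cHess φ x - (lam : ℂ) • (1 : Matrix (Fin N) (Fin N) ℂ)).PosSemidef) :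
    ContDiffAt ℝ ∞ (fun y => ((Real.log (cHess φ y).det.re : ℝ) : ℂ)) x := by
  have h5 : (cHess φ x).PosDef := by
    simpa using Matrix.PosDef.posSemidef_add h2
      (Matrix.PosDef.one.smul (Complex.zero_lt_real.2 hl))
  have h6 : ContDiffAt ℝ ∞ (fun y => (cHess φ y).det.re) x :=
    Complex.reCLM.contDiff.contDiffAt.comp x
      (contDiffAt_det fun p p' => contDiffAt_cHess h1 (le_of_eq rfl) p p')
  exact ofReal_contDiffAt (h6.log (C2.det_re_pos h5).ne')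

theorem uni_of (hA : GKA) (hI : ITP) (hB : BOOT) (hS : STA) : UNI := by
  intro N lam Lam hl q
  have h1 : (0 : ℝ) < 1 / 2 := by norm_num
  have h2 : (1 / 2 : ℝ) < 1 := by norm_num
  have h4 : (0 : ℝ) < 1 / 4 := by norm_num
  have hinf : (∞ : WithTop ℕ∞) + 1 + 1 ≤ ∞ := le_of_eq rfl
  have h2i : (2 : WithTop ℕ∞) ≤ ∞ := WithTop.coe_le_coe.2 le_top
  have G := hA N _ h1 h2
  obtain ⟨B, c, hκ⟩ := hS N lam Lam hl
  choose κ hκ hH using fun i : {φ : Cm N → ℝ // RF lam Lam 0 1 φ} => hκ i.1 i.2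
  have hφ := fun (i : {φ : Cm N → ℝ // RF lam Lam 0 1 φ}) x (hx : x ∈ ball (0 : Cm N) (1 / 4)) =>
    i.2 x (ball_subset_ball (by norm_num) hx)
  have hK : ∀ q p p', GK (1 / 2) q fun i x => cHess (κ i) x p p' := fun q p p' =>
    G.of_bdd _ q _ ⟨_, h4, fun i x hx => contDiffAt_cHess (hκ i x hx).1 hinf p p',
      fun j => ⟨c j, fun i x hx => (hκ i x hx).2.2.1 j p p'⟩⟩
  have hf : ∀ q, GK (1 / 2) q fun (i : {φ : Cm N → ℝ // RF lam Lam 0 1 φ}) x =>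
      ((Real.log (cHess i.1 x).det.re : ℝ) : ℂ) := fun q =>
    G.of_bdd _ q _ ⟨_, h4, fun i x hx => UniX.sm hl (hφ i x hx).1 (hφ i x hx).2.1,
      fun j => ⟨c j, fun i x hx => (hκ i x hx).2.2.2 j⟩⟩
  have he : ∀ (i : {φ : Cm N → ℝ // RF lam Lam 0 1 φ}), ∀ x ∈ ball (0 : Cm N) (1 / 4),
      cHess (κ i) x + cHess (fun y => i.1 y - κ i y) x = cHess i.1 x := fun i x hx => by
    rw [C2.cHess_sub ((hφ i x hx).1.of_le h2i) ((hκ i x hx).1.of_le h2i), add_sub_cancel]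
  have hv := hB N _ h1 h2 _ (fun i x => cHess (κ i) x) (fun i y => i.1 y - κ i y)
    (fun i x => Real.log (cHess i.1 x).det.re) hK hf
    (hI N _ h1 h2 _ _ _ B h4 (fun i x hx => ⟨(hφ i x hx).1.sub (hκ i x hx).1, (hκ i x hx).2.1⟩) hH)
    ⟨_, lam, h4, hl, fun i x hx => by rw [he i x hx]; exact ⟨(hφ i x hx).2.1, rfl⟩⟩ q
  have hw : ∀ p p', GK (1 / 2) q fun (i : {φ : Cm N → ℝ // RF lam Lam 0 1 φ}) x =>
      cHess i.1 x p p' := fun p p' =>
    G.congr _ q (fun i x => cHess (κ i) x p p' + cHess (fun y => i.1 y - κ i y) x p p') _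
      ⟨_, h4, fun i x hx => by rw [← he i x hx, Matrix.add_apply]⟩
      (G.add _ q _ _ (hK q p p') (G.hess _ q _ hv p p'))
  choose C hC using fun p p' => G.to_bdd _ q _ (hw p p')
  obtain ⟨D, hD⟩ := Finite.bddAbove_range fun p : Fin N × Fin N => C p.1 p.2
  exact ⟨D, fun φ h p p' => (hC p p' ⟨φ, h⟩).trans (hD ⟨(p, p'), rfl⟩)⟩

end Vale.Agent.P301Z.Key
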