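import Vale.Agent.P301Z.Key.Asm
import Vale.Agent.P301Z.Key.Bas
import Vale.Agent.P301Z.Key.Boot
import Vale.Agent.P301Z.Key.Cl
import Vale.Agent.P301Z.Key.Cmp
import Vale.Agent.P301Z.Key.Cnv
import Vale.Agent.P301Z.Key.Exb
import Vale.Agent.P301Z.Key.Geo
import Vale.Agent.P301Z.Key.Gka
import Vale.Agent.P301Z.Key.Her
import Vale.Agent.P301Z.Key.Itp
import Vale.Agent.P301Z.Key.Kb
import Vale.Agent.P301Z.Key.Lin0
import Vale.Agent.P301Z.Key.Lins
import Vale.Agent.P301Z.Key.Loc
import Vale.Agent.P301Z.Key.Mass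
import Vale.Agent.P301Z.Key.Mx
import Vale.Agent.P301Z.Key.Par
import Vale.Agent.P301Z.Key.Pbk
import Vale.Agent.P301Z.Key.Ref
import Vale.Agent.P301Z.Key.Scl
import Vale.Agent.P301Z.Key.Sta
import Vale.Agent.P301Z.Key.Two
import Vale.Agent.P301Z.Key.Uni

/-!
# P301Z, block KEY: the closed form
-/

namespace Vale.Agent.P301Z.Key

theorem uni : UNI := uni_of gka itp (boot_of gka (lin_of gka (lin0_of itp))) (sta_of cnv)

theorem scl : SCL := scl_of uni

theorem geo : GEO := geo_of bas her ref cl mx cmp loc par pbk exb mass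

theorem key : KEY := key_of geo two scl

end Vale.Agent.P301Z.Key
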