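import Vale.Agent.P301Z.Key.Rows
import Vale.Agent.P272.K.Inv.Consts

/-!
# P301Z, block KEY: the assembly
-/

open scoped Manifold ContDiff ComplexOrder Topology Matrix
open Set Metric Filter

noncomputable section

namespace Vale.Agent.P301Z.Key

open Vale.Agent.P272.K

namespace AsmX

variable {N : ℕ}

theorem tb_mono {R R' : ℝ} (h : R ≤ R') : Tb N R ⊆ Tb N R' := fun _ hv i => (hv i).trans_le h

theorem tb_open (R : ℝ) : IsOpen (Tb N R) := by
  have : Tb N R = ⋂ i, {v : Cm N | |(v i).re| < R} := by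
    ext v
    simp [Tb]
  rw [this]
  exact isOpen_iInter_of_finite fun i => isOpen_lt (by fun_prop) continuous_const

theorem ball_sub {R L : ℝ} {v : Cm N} (hv : v ∈ Tb N R) : ball v L ⊆ Tb N (R + L) := fun u hu i => by
  have h1 : |(u i - v i).re| < L := (Complex.abs_re_le_norm _).trans_lt
    ((norm_le_pi_norm (u - v) i).trans_lt (mem_ball_iff_norm.1 hu))
  have h2 := hv i
  rw [Complex.sub_re] at h1
  have h3 := abs_add_le ((u i).re - (v i).re) (v i).re
  rw [sub_add_cancel] at h3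
  linarith

theorem par_mono {M : Model N} {Y : Type} [TopologicalSpace Y] [ChartedSpace (Cm N) Y] {t : ℂ}
    {F : Fib M Y t} {a : Fin M.na} {c : Cm (N + 1)} {R R' : ℝ} {Φ : Cm N → Y}
    (h : Par F a c R' Φ) (k : R ≤ R') : Par F a c R Φ :=
  ⟨fun v hv => h.mem v (tb_mono k hv), fun v hv => h.eq v (tb_mono k hv),
    fun v hv => h.cont v (tb_mono k hv), fun v hv => h.hol v (tb_mono k hv),
    fun v hv => h.unit v (tb_mono k hv), fun v hv => h.peri v (tb_mono k hv),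
    fun v hv v' hv' => h.inj v (tb_mono k hv) v' (tb_mono k hv')⟩

end AsmX

open AsmX in
theorem key_of (hG : GEO) (hT : TWO) (hS : SCL) : KEY := by
  intro N hN M hM
  obtain ⟨C₁, hC₁, geo⟩ := hG N hN M hM
  obtain ⟨C, hC, two⟩ := hT N hN C₁ hC₁
  refine ⟨C, hC, fun R η k hR hη => ?_⟩
  obtain ⟨L, hL, scl⟩ := hS N C⁻¹ C η (inv_pos.2 hC) hη k
  obtain ⟨R', hR', two⟩ := two (R + L) (by positivity)
  obtain ⟨C₂, T₀, hC₂, geo⟩ := geo R' η (by linarith) hη
  obtain ⟨T₁, two⟩ := two C₂ hC₂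
  refine ⟨max T₀ T₁, fun Y _ _ _ _ _ _ t F hT => ?_⟩
  obtain ⟨a, c, Φ, φ, G, h1, h2, h3, h4⟩ := geo Y t F ((le_max_left _ _).trans hT)
  have h5 := two _ ((le_max_right _ _).trans hT) φ G h4
  have hRR : R ≤ R' := by linarith
  refine ⟨a, c, Φ, h1, par_mono h2 hRR, fun v hv => ⟨(h3 v (tb_mono hRR hv)).1, ?_⟩⟩
  have hv' := tb_mono hRR hv
  have hv'' : v ∈ Tb N (R + L) := tb_mono (by linarith) hv
  have e : ∀ i i', (fun v' => pl F.w Φ v' i i') =ᶠ[𝓝 v] fun v' => cHess φ v' i i' := fun i i' => by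
    filter_upwards [(tb_open R').mem_nhds hv'] with u hu
    rw [(h3 u hu).2]
  refine ⟨(h3 v hv').2 ▸ (h5 v hv'').1, (h3 v hv').2 ▸ (h5 v hv'').2, fun i i' =>
    (contDiffAt_cHess (h4.φ_sm v hv') le_rfl i i').congr_of_eventuallyEq (e i i'),
    fun i i' q q1 qk => ?_⟩
  rw [((e i i').iteratedFDeriv ℝ q).self_of_nhds]
  refine scl φ v (fun u hu => ?_) i i' q q1 qk
  have hu1 := ball_sub hv hu
  have hu2 := tb_mono hR' hu1
  exact ⟨h4.φ_sm u hu2, (h5 u hu1).1, (h5 u hu1).2, h4.ric u hu2⟩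

end Vale.Agent.P301Z.Key
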