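import Vale.Agent.P299.H835.C3
import Vale.Agent.P272.K.C2.Mat

/-! P301, KEY: the Calabi estimate for Ricci flat metrics on large balls. -/

open scoped ContDiff ComplexOrder Topology Matrix
open Filter Metric

noncomputable section

namespace Vale.Agent.P301Z.Key.C3s

open Vale.Agent.P272.K Vale.Agent.P272.K.C2

variable {n : ℕ}

theorem fderiv_scale (f : Cm n → ℂ) (R : ℝ) (_hR : R ≠ 0) (z v : Cm n) :
    fderiv ℝ (fun y => f (R • y)) z v = (R : ℂ) * fderiv ℝ f (R • z) v := by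
  rw [fderiv_comp_smul, smul_apply, Complex.real_smul]

theorem dz_scale (f : Cm n → ℂ) {R : ℝ} (hR : R ≠ 0) (k : Fin n) (z : Cm n) :
    dz k (fun y => f (R • y)) z = (R : ℂ) * dz k f (R • z) := by
  rw [dz, dz, fderiv_scale f R hR, fderiv_scale f R hR]; ring

theorem dzb_scale (f : Cm n → ℂ) {R : ℝ} (hR : R ≠ 0) (k : Fin n) (z : Cm n) :
    dzb k (fun y => f (R • y)) z = (R : ℂ) * dzb k f (R • z) := by
  rw [dzb, dzb, fderiv_scale f R hR, fderiv_scale f R hR]; ring

theorem cHess_scale {f : Cm n → ℝ} {R : ℝ} (hR : R ≠ 0) {z : Cm n}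
    (hf : ContDiffAt ℝ 2 f (R • z)) :
    cHess (fun y => f (R • y)) z = ((R : ℂ) * R) • cHess f (R • z) := by
  ext j k
  have e : (dzb k fun y => ((f (R • y) : ℝ) : ℂ)) =
      fun y => (fun x => (R : ℂ) * dzb k (fun y => (f y : ℂ)) x) (R • y) :=
    funext fun y => dzb_scale (fun y => (f y : ℂ)) hR k y
  rw [C2.cHess_apply, e, dz_scale (fun x => (R : ℂ) * dzb k (fun y => (f y : ℂ)) x) hR,
    C2.dz_const_mul j _ (C2.differentiableAt_dzb k (C2.contDiffAt_ofReal hf)),
    Matrix.smul_apply, C2.cHess_apply, smul_eq_mul, mul_assoc]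

/-- first derivatives of a bounded Ricci flat Kähler metric on a ball of radius `2R` -/
theorem c3s (n : ℕ) {lam : ℝ} (Lam : ℝ) (hlam : 0 < lam) : ∃ C : ℝ, 0 < C ∧ ∀ R : ℝ, 0 < R →
    ∀ K : Cm n → Matrix (Fin n) (Fin n) ℂ,
      (∀ z ∈ ball (0 : Cm n) (2 * R), (∀ i j, ContDiffAt ℝ ∞ (fun y => K y i j) z) ∧
        (K z).IsHermitian ∧ (K z - (lam : ℂ) • (1 : Matrix (Fin n) (Fin n) ℂ)).PosSemidef ∧
        ((Lam : ℂ) • (1 : Matrix (Fin n) (Fin n) ℂ) - K z).PosSemidef ∧
        (∀ i j k, dz k (fun y => K y i j) z = dz i (fun y => K y k j) z) ∧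
        cHess (fun y => Real.log (K y).det.re) z = 0) →
      ∀ z ∈ ball (0 : Cm n) R, ∀ i j k, ‖dz k (fun y => K y i j) z‖ ≤ C / R := by
  obtain ⟨C, hC⟩ := P299.H835.calabi n 0 1 2 lam Lam 0 one_pos one_lt_two hlam
  refine ⟨|C| + 1, by positivity, fun R hR K hK z hz i j k => ?_⟩
  have hm : ∀ y ∈ ball (0 : Cm n) 2, R • y ∈ ball (0 : Cm n) (2 * R) := fun y hy => by
    rw [mem_ball_zero_iff] at hy ⊢
    rw [norm_smul, Real.norm_of_nonneg hR.le]
    nlinarith
  have hsm : ContDiff ℝ ∞ fun y : Cm n => R • y := contDiff_id.const_smul R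
  have h := hC 0 ⟨le_rfl, zero_le_one⟩ (fun y => K (R • y)) (fun _ => 0)
    (fun y hy i j => ContDiffAt.comp (g := fun y => K y i j) y ((hK _ (hm y hy)).1 i j)
      hsm.contDiffAt)
    (fun y hy => (hK _ (hm y hy)).2.1) (fun y hy => (hK _ (hm y hy)).2.2.1)
    (fun y hy => (hK _ (hm y hy)).2.2.2.1)
    (fun y hy i j k => by
      rw [dz_scale (fun y => K y i j) hR.ne', dz_scale (fun y => K y k j) hR.ne',
        (hK _ (hm y hy)).2.2.2.2.1])
    (fun y hy => ?_) (fun y hy i j => contDiffAt_const) (fun y hy i j => by simp)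
    (fun y hy i j k => by simp) (R⁻¹ • z) ?_ i j k
  · rw [dz_scale (fun y => K y i j) hR.ne', smul_smul, mul_inv_cancel₀ hR.ne', one_smul, norm_mul,
      Complex.norm_real, Real.norm_of_nonneg hR.le] at h
    rw [le_div_iff₀ hR]
    linarith [le_abs_self C]
  · obtain ⟨h1, -, h3, -, -, h6⟩ := hK _ (hm y hy)
    have hpd : (K (R • y)).PosDef := by
      have h2 : ((lam : ℂ) • (1 : Matrix (Fin n) (Fin n) ℂ)).PosDef :=
        Matrix.PosDef.one.smul (by exact_mod_cast hlam)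
      have h3 := h2.add_posSemidef h3
      rwa [add_sub_cancel] at h3
    have hd : ContDiffAt ℝ 2 (fun y => (K y).det) (R • y) :=
      MC.det fun i j => (h1 i j).of_le (by norm_cast)
    have hl : ContDiffAt ℝ 2 (fun y => Real.log (K y).det.re) (R • y) :=
      (Complex.reCLM.contDiff.contDiffAt.comp _ hd).log
        (Complex.lt_def.1 hpd.det_pos).1.ne'
    rw [cHess_scale (f := fun y => Real.log (K y).det.re) hR.ne' hl, h6]
    simp
  · rw [mem_ball_zero_iff] at hz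
    rw [mem_closedBall_zero_iff, norm_smul, norm_inv, Real.norm_of_nonneg hR.le,
      inv_mul_le_iff₀ hR]
    linarith

end Vale.Agent.P301Z.Key.C3s
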