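import Vale.Agent.P272.K.C2.ChernLu
import Vale.Agent.P272.K.INT.Dens

/-! P301, KEY: the Chern–Lu inequality for a Ricci flat source and a flat target. -/

open scoped ContDiff ComplexOrder Topology Matrix
open Filter

noncomputable section

namespace Vale.Agent.P301Z.Key.Flt

open Vale.Agent.P272.K Vale.Agent.P272.K.C2

variable {n : ℕ} {ι κ μ : Type} [Fintype ι] [DecidableEq ι] [Fintype κ] [Fintype μ] [DecidableEq μ]

theorem sum_trace_nonneg' {R : Matrix κ κ ℂ} {P : Matrix ι ι ℂ} {Q : Matrix μ μ ℂ}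
    (hR : R.PosSemidef) (hP : P.PosSemidef) (hQ : Q.PosSemidef) (C : κ → Matrix ι μ ℂ) :
    0 ≤ ∑ l, ∑ k, R l k * (C k * Q * (C l)ᴴ * P).trace := by
  obtain ⟨A, rfl⟩ := exists_factor hP
  obtain ⟨B, rfl⟩ := exists_factor hQ
  set Y : κ → Matrix ι μ ℂ := fun k => A * C k * Bᴴ with hY
  have e1 : ∀ k l, (C k * (Bᴴ * B) * (C l)ᴴ * (Aᴴ * A)).trace =
      ∑ a, ∑ b, Y k a b * (starRingEnd ℂ) (Y l a b) := by
    intro k l
    have : (C k * (Bᴴ * B) * (C l)ᴴ * (Aᴴ * A)).trace = (Y k * (Y l)ᴴ).trace := by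
      rw [← Matrix.mul_assoc, Matrix.trace_mul_comm, hY]
      simp only [Matrix.conjTranspose_mul, Matrix.conjTranspose_conjTranspose, Matrix.mul_assoc]
    rw [this, Matrix.trace]
    refine Finset.sum_congr rfl fun a _ => ?_
    rw [Matrix.diag_apply, Matrix.mul_apply]
    rfl
  have e2 : ∑ l, ∑ k, R l k * (C k * (Bᴴ * B) * (C l)ᴴ * (Aᴴ * A)).trace =
      ∑ a, ∑ b, (star (fun l => Y l a b) ⬝ᵥ (R *ᵥ fun k => Y k a b)) := by
    simp only [e1, dotProduct, Matrix.mulVec, Pi.star_apply, Finset.mul_sum]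
    calc ∑ l, ∑ k, ∑ a, ∑ b, R l k * (Y k a b * (starRingEnd ℂ) (Y l a b))
        = ∑ l, ∑ a, ∑ k, ∑ b, R l k * (Y k a b * (starRingEnd ℂ) (Y l a b)) :=
          Finset.sum_congr rfl fun l _ => Finset.sum_comm
      _ = ∑ a, ∑ l, ∑ k, ∑ b, R l k * (Y k a b * (starRingEnd ℂ) (Y l a b)) := Finset.sum_comm
      _ = ∑ a, ∑ l, ∑ b, ∑ k, R l k * (Y k a b * (starRingEnd ℂ) (Y l a b)) :=
          Finset.sum_congr rfl fun a _ => Finset.sum_congr rfl fun l _ => Finset.sum_comm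
      _ = ∑ a, ∑ b, ∑ l, ∑ k, R l k * (Y k a b * (starRingEnd ℂ) (Y l a b)) :=
          Finset.sum_congr rfl fun a _ => Finset.sum_comm
      _ = _ := by
          refine Finset.sum_congr rfl fun a _ => Finset.sum_congr rfl fun b _ =>
            Finset.sum_congr rfl fun l _ => Finset.sum_congr rfl fun k _ => ?_
          simp only [RCLike.star_def]
          ring
  rw [e2]
  exact Finset.sum_nonneg fun a _ => Finset.sum_nonneg fun b _ => hR.dotProduct_mulVec_nonneg _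

/-- the complement of the projection onto the row space -/
theorem proj_psd {K : Matrix ι μ ℂ} (h : (K * Kᴴ).PosDef) :
    (1 - Kᴴ * (K * Kᴴ)⁻¹ * K).PosSemidef := by
  have hu : IsUnit (K * Kᴴ).det := isUnit_iff_ne_zero.2 (posDef_det_ne_zero h)
  have hh : ((K * Kᴴ)⁻¹)ᴴ = (K * Kᴴ)⁻¹ := h.inv.isHermitian
  have h1 : (K * Kᴴ)⁻¹ * (K * Kᴴ) = 1 := Matrix.nonsing_inv_mul _ hu
  generalize (K * Kᴴ)⁻¹ = S at hh h1
  have e : 1 - Kᴴ * S * K = (1 - Kᴴ * S * K)ᴴ * (1 - Kᴴ * S * K) := by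
    have e1 : (1 - Kᴴ * S * K)ᴴ = 1 - Kᴴ * S * K := by
      simp only [Matrix.conjTranspose_sub, Matrix.conjTranspose_one, Matrix.conjTranspose_mul,
        Matrix.conjTranspose_conjTranspose, hh, Matrix.mul_assoc]
    have e2 : Kᴴ * S * K * (Kᴴ * S * K) = Kᴴ * S * K := by
      calc Kᴴ * S * K * (Kᴴ * S * K) = Kᴴ * (S * (K * Kᴴ)) * S * K := by
            simp only [Matrix.mul_assoc]
        _ = _ := by rw [h1, Matrix.mul_one]
    rw [e1, Matrix.sub_mul, Matrix.mul_sub, Matrix.mul_sub, e2]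
    simp
  rw [e]
  exact Matrix.posSemidef_conjTranspose_mul_self _

variable {K : Cm n → Matrix ι μ ℂ} {z : Cm n}

omit [Fintype ι] [DecidableEq ι] [Fintype μ] [DecidableEq μ] in
theorem mc_of_an (hK : ∀ i j, AnalyticAt ℂ (fun y => K y i j) z) (m : WithTop ℕ∞) : MC m K z :=
  fun i j => ((hK i j).contDiffAt (n := m)).restrict_scalars ℝ

omit [DecidableEq ι] [DecidableEq μ] in
theorem dmb_zero (hK : ∀ i j, AnalyticAt ℂ (fun y => K y i j) z) (l : Fin n) :
    DMb l K =ᶠ[𝓝 z] fun _ => 0 := by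
  have h : ∀ᶠ y in 𝓝 z, ∀ i j, AnalyticAt ℂ (fun y => K y i j) y :=
    eventually_all.2 fun i => eventually_all.2 fun j => (hK i j).eventually_analyticAt
  filter_upwards [h] with y hy
  ext i j
  exact INT.dzb_of_holo (hy i j).differentiableAt l

theorem rm_eq (hK : ∀ i j, AnalyticAt ℂ (fun y => K y i j) z) (k l : Fin n) :
    RM k l (fun y => K y * (K y)ᴴ) z =
      -(DM k K z * (1 - (K z)ᴴ * (K z * (K z)ᴴ)⁻¹ * K z) * (DM l K z)ᴴ) := by
  have one : (1 : WithTop ℕ∞) ≠ 0 := one_ne_zero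
  have h2 : MC (2 : ℕ) K z := mc_of_an hK _
  have ev : DMb l (fun y => K y * (K y)ᴴ) =ᶠ[𝓝 z] fun y => K y * (DM l K y)ᴴ := by
    filter_upwards [h2.eventually, dmb_zero hK l] with y h1 h0
    rw [DMb_mul (h1.md (by norm_num)) (h1.conjTranspose.md (by norm_num)), h0, Matrix.zero_mul,
      zero_add, DMb_conjTranspose (h1.md (by norm_num))]
  have hd : MD K z := h2.md (by norm_num)
  have hD : MC 1 (DM l K) z := (mc_of_an hK 2).DM (by norm_num)
  have e0 : DMb k (DM l K) z = 0 := by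
    rw [← DM_DMb_comm (mc_of_an hK 2), DM_congr (dmb_zero hK k), DM_const]
  have e1 : D2 k l (fun y => K y * (K y)ᴴ) z = DM k K z * (DM l K z)ᴴ := by
    rw [D2, DM_congr ev, DM_mul hd (hD.conjTranspose.md one), DM_conjTranspose (hD.md one), e0,
      Matrix.conjTranspose_zero, Matrix.mul_zero, add_zero]
  have e2 : DM k (fun y => K y * (K y)ᴴ) z = DM k K z * (K z)ᴴ := by
    rw [DM_mul hd (h2.conjTranspose.md (by norm_num)), DM_conjTranspose hd,
      (dmb_zero hK k).self_of_nhds, Matrix.conjTranspose_zero, Matrix.mul_zero, add_zero]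
  rw [RM, e1, e2, ev.self_of_nhds]
  simp only [Matrix.mul_sub, Matrix.sub_mul, Matrix.mul_one, Matrix.mul_assoc]
  abel

/-- `log tr (G⁻¹ K Kᴴ)` is subharmonic for a Ricci flat Kähler metric `G` and holomorphic `K`. -/
theorem flat [NeZero n] {G : Cm n → Matrix (Fin n) (Fin n) ℂ} {K : Cm n → Matrix (Fin n) μ ℂ}
    (hG : MC 2 G z) (hGp : ∀ᶠ y in 𝓝 z, (G y).PosDef)
    (hc : ∀ᶠ y in 𝓝 z, ∀ i j k, dz k (fun y => G y i j) y = dz i (fun y => G y k j) y)
    (hric : cHess (fun y => Real.log (G y).det.re) z = 0)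
    (hK : ∀ i j, AnalyticAt ℂ (fun y => K y i j) z)
    (hp : ∀ᶠ y in 𝓝 z, (K y * (K y)ᴴ).PosDef) :
    0 ≤ ((G z)⁻¹ *
      cHess (fun y => Real.log (tau G (fun y => K y * (K y)ᴴ) y)) z).trace.re := by
  have hH : MC 2 (fun y => K y * (K y)ᴴ) z := (mc_of_an hK 2).mul (mc_of_an hK 2).conjTranspose
  obtain ⟨C, hC⟩ := chernLu hG hH hGp hp hc
  have hGz := hGp.self_of_nhds
  have hHz := hp.self_of_nhds
  have tpos : 0 < tau G (fun y => K y * (K y)ᴴ) z := trace_re_pos hGz hHz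
  have hP : (G z)⁻¹.PosSemidef := hGz.inv.posSemidef
  have h1 := sum_trace_nonneg hP hP hHz.inv.posSemidef C
  have h2 := sum_trace_nonneg' hP hP (proj_psd hHz) fun k => DM k K z
  have h3 : ∑ l, ∑ k, (G z)⁻¹ l k * ((G z)⁻¹ * RM k l (fun y => K y * (K y)ᴴ) z).trace =
      -∑ l, ∑ k, (G z)⁻¹ l k * (DM k K z * (1 - (K z)ᴴ * (K z * (K z)ᴴ)⁻¹ * K z) *
        (DM l K z)ᴴ * (G z)⁻¹).trace := by
    rw [← Finset.sum_neg_distrib]
    refine Finset.sum_congr rfl fun l _ => ?_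
    rw [← Finset.sum_neg_distrib]
    refine Finset.sum_congr rfl fun k _ => ?_
    rw [rm_eq hK, Matrix.mul_neg, Matrix.trace_neg, Matrix.trace_mul_comm, mul_neg]
  rw [h3, hric, neg_zero, Matrix.mul_zero, Matrix.zero_mul, Matrix.zero_mul, Matrix.trace_zero,
    add_zero, sub_neg_eq_add] at hC
  have h4 := (Complex.le_def.1 (add_nonneg h1 h2)).1
  rw [← hC, Complex.re_ofReal_mul, Complex.zero_re] at h4
  exact nonneg_of_mul_nonneg_right h4 tpos

end Vale.Agent.P301Z.Key.Flt
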