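import Vale.Agent.P272.K.C2.PosLin
import Vale.Agent.P272.K.C2.Mat
import Vale.Agent.P272.K.Inv.Wirt
import Mathlib.Algebra.Order.Chebyshev

/-! P301, KEY: a smooth family of positive matrices is supported from below by flat ones. -/

open scoped ContDiff ComplexOrder Topology Matrix
open Filter Metric Set

noncomputable section

namespace Vale.Agent.P301Z.Key.Sup

open Vale.Agent.P272.K

theorem lip {E F : Type} [NormedAddCommGroup E] [NormedSpace ℝ E] [NormedAddCommGroup F]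
    [NormedSpace ℝ F] {g : E → F} {K : Set E} (hK : IsCompact K) (hc : Convex ℝ K)
    (hg : ∀ x ∈ K, ContDiffAt ℝ 1 g x) :
    ∃ L : ℝ, 0 ≤ L ∧ (∀ x ∈ K, ‖fderiv ℝ g x‖ ≤ L) ∧ ∀ x ∈ K, ∀ y ∈ K, ‖g y - g x‖ ≤ L * ‖y - x‖ := by
  have h1 : ContinuousOn (fderiv ℝ g) K := fun x hx =>
    ((hg x hx).continuousAt_fderiv one_ne_zero).continuousWithinAt
  obtain ⟨L, hL⟩ := hK.exists_bound_of_continuousOn h1
  have hL' : ∀ x ∈ K, ‖fderiv ℝ g x‖ ≤ |L| := fun x hx => (hL x hx).trans (le_abs_self L)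
  exact ⟨|L|, abs_nonneg L, hL', fun x hx y hy => hc.norm_image_sub_le_of_norm_fderiv_le
    (fun x hx => (hg x hx).differentiableAt one_ne_zero) hL' hx hy⟩

theorem taylor {E : Type} [NormedAddCommGroup E] [NormedSpace ℝ E] {f : E → ℂ} {K : Set E}
    (hK : IsCompact K) (hc : Convex ℝ K) (hf : ∀ x ∈ K, ContDiffAt ℝ 2 f x) :
    ∃ L : ℝ, 0 ≤ L ∧ (∀ x ∈ K, ‖fderiv ℝ f x‖ ≤ L) ∧
      ∀ x ∈ K, ∀ y ∈ K, ‖f y - f x - fderiv ℝ f x (y - x)‖ ≤ L * ‖y - x‖ ^ 2 := by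
  obtain ⟨L, h0, h1, -⟩ := lip hK hc fun x hx => (hf x hx).of_le one_le_two
  obtain ⟨L', h0', -, h2⟩ := lip (g := fderiv ℝ f) hK hc fun x hx =>
    (hf x hx).fderiv_right (m := 1) (by norm_num)
  refine ⟨L + L', by positivity, fun x hx => by linarith [h1 x hx], fun x hx y hy => ?_⟩
  have h3 := Convex.norm_image_sub_le_of_norm_fderiv_le' (f := f) (φ := fderiv ℝ f x)
    (C := L' * ‖y - x‖) (s := K ∩ closedBall x ‖y - x‖) (x := x) (y := y)
    (fun z hz => (hf z hz.1).differentiableAt two_ne_zero)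
    (fun z hz => (h2 x hx z hz.1).trans
      (mul_le_mul_of_nonneg_left (mem_closedBall_iff_norm.1 hz.2) h0'))
    (hc.inter (convex_closedBall _ _)) ⟨hx, mem_closedBall_self (norm_nonneg _)⟩
    ⟨hy, mem_closedBall_iff_norm.2 le_rfl⟩
  have := sq_nonneg ‖y - x‖
  nlinarith

variable {ι : Type} [Fintype ι] [DecidableEq ι]

omit [DecidableEq ι] in
theorem mul_entry {A B : Matrix ι ι ℂ} {a b : ℝ} (ha : 0 ≤ a) (hA : ∀ i j, ‖A i j‖ ≤ a)
    (hB : ∀ i j, ‖B i j‖ ≤ b) (i j : ι) : ‖(A * B) i j‖ ≤ Fintype.card ι * (a * b) := by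
  rw [Matrix.mul_apply]
  refine (norm_sum_le _ _).trans ?_
  calc ∑ k, ‖A i k * B k j‖ ≤ ∑ _k : ι, a * b := Finset.sum_le_sum fun k _ => by
        rw [norm_mul]; exact mul_le_mul (hA i k) (hB k j) (norm_nonneg _) ha
    _ = _ := by rw [Finset.sum_const, Finset.card_univ, nsmul_eq_mul]

/-- a Hermitian matrix with small entries is bounded below -/
theorem psd_of_entry {D : Matrix ι ι ℂ} (hD : D.IsHermitian) {a : ℝ} (h : ∀ i j, ‖D i j‖ ≤ a) :
    (D + ((Fintype.card ι * a : ℝ) : ℂ) • (1 : Matrix ι ι ℂ)).PosSemidef := by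
  have hh : (D + ((Fintype.card ι * a : ℝ) : ℂ) • (1 : Matrix ι ι ℂ)).IsHermitian := by
    refine hD.add ?_
    rw [Matrix.IsHermitian, Matrix.conjTranspose_smul, Matrix.conjTranspose_one]
    simp
  refine Matrix.PosSemidef.of_dotProduct_mulVec_nonneg hh fun v => ?_
  have him := hh.im_star_dotProduct_mulVec_self v
  rw [Complex.le_def]
  refine ⟨?_, by simpa using him.symm⟩
  have e1 : (star v ⬝ᵥ v).re = ∑ i, ‖v i‖ ^ 2 := by
    rw [dotProduct, Complex.re_sum]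
    refine Finset.sum_congr rfl fun i _ => ?_
    rw [Pi.star_apply, RCLike.star_def, Complex.conj_mul', ← Complex.ofReal_pow, Complex.ofReal_re]
  have e2 : ‖star v ⬝ᵥ D *ᵥ v‖ ≤ a * (∑ i, ‖v i‖) ^ 2 := by
    rw [dotProduct, sq, Finset.sum_mul, Finset.mul_sum]
    refine (norm_sum_le _ _).trans (Finset.sum_le_sum fun i _ => ?_)
    rw [norm_mul, Pi.star_apply, norm_star, Matrix.mulVec, dotProduct, mul_left_comm]
    refine mul_le_mul_of_nonneg_left ((norm_sum_le _ _).trans ?_) (norm_nonneg _)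
    rw [Finset.mul_sum]
    refine Finset.sum_le_sum fun j _ => ?_
    rw [norm_mul]
    exact mul_le_mul_of_nonneg_right (h i j) (norm_nonneg _)
  have e3 : (∑ i, ‖v i‖) ^ 2 ≤ Fintype.card ι * ∑ i, ‖v i‖ ^ 2 := by
    simpa using sq_sum_le_card_mul_sum_sq (s := Finset.univ) (f := fun i => ‖v i‖)
  rw [Matrix.add_mulVec, dotProduct_add, Matrix.smul_mulVec, Matrix.one_mulVec, dotProduct_smul,
    Complex.add_re, smul_eq_mul, Complex.re_ofReal_mul, e1, Complex.zero_re]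
  have e4 := Complex.re_le_norm (-(star v ⬝ᵥ D *ᵥ v))
  rw [norm_neg, Complex.neg_re] at e4
  rcases isEmpty_or_nonempty ι with hι | ⟨⟨i⟩⟩
  · simp [dotProduct]
  · have ha : 0 ≤ a := (norm_nonneg _).trans (h i i)
    have := mul_le_mul_of_nonneg_left e3 ha
    nlinarith

/-- a positive matrix whose inverse has small entries is bounded below -/
theorem low_of_inv {B : Matrix ι ι ℂ} (hB : B.PosDef) {a : ℝ} (h : ∀ i j, ‖B⁻¹ i j‖ ≤ a) :
    (((Fintype.card ι * a : ℝ) : ℂ) • B - 1).PosSemidef := by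
  have h1 := C2.trace_smul_sub_posSemidef hB (Matrix.PosSemidef.one (n := ι) (R := ℂ))
  rw [Matrix.mul_one] at h1
  have h2 : B⁻¹.trace ≤ ((Fintype.card ι * a : ℝ) : ℂ) := by
    have h3 := hB.inv.posSemidef.trace_nonneg
    rw [Complex.le_def] at h3 ⊢
    refine ⟨?_, by simpa using h3.2.symm⟩
    rw [Complex.ofReal_re, Matrix.trace, Complex.re_sum]
    calc ∑ i, (B⁻¹.diag i).re ≤ ∑ _i : ι, a :=
          Finset.sum_le_sum fun i _ => (Complex.re_le_norm _).trans (h i i)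
      _ = _ := by rw [Finset.sum_const, Finset.card_univ, nsmul_eq_mul]
  have h4 := (hB.posSemidef.smul (sub_nonneg.2 h2)).add h1
  rwa [sub_smul, sub_add_sub_cancel] at h4

variable {M : ℕ}

theorem sup (B : ℝ → Cm M → Matrix ι ι ℂ)
    (hs : ∀ ε, ∀ x ∈ ball (0 : Cm M) 2, ∀ i j,
      ContDiffAt ℝ 2 (fun p : ℝ × Cm M => B p.1 p.2 i j) (ε, x))
    (hp : ∀ ε ∈ Icc (0 : ℝ) 1, ∀ x ∈ ball (0 : Cm M) 2, (B ε x).PosDef) :
    ∃ C : ℝ, 0 < C ∧ ∀ ε ∈ Icc (0 : ℝ) 1, ∀ x₀ ∈ closedBall (0 : Cm M) 1,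
      ∃ Q : Cm M → Matrix ι ι ℂ, (∀ x i j, AnalyticAt ℂ (fun x => Q x i j) x) ∧
        Q x₀ * (Q x₀)ᴴ = B ε x₀ ∧ ∀ᶠ x in 𝓝 x₀,
          (B ε x - ((Real.exp (-(C * ∑ l, ‖x l - x₀ l‖ ^ 2)) : ℝ) : ℂ) •
            (Q x * (Q x)ᴴ)).PosSemidef := by
  set K : Set (ℝ × Cm M) := Icc 0 1 ×ˢ closedBall 0 (3 / 2) with hKd
  have hK : IsCompact K := isCompact_Icc.prod (isCompact_closedBall _ _)
  have hKc : Convex ℝ K := (convex_Icc _ _).prod (convex_closedBall _ _)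
  have h32 : closedBall (0 : Cm M) (3 / 2) ⊆ ball 0 2 := closedBall_subset_ball (by norm_num)
  have hsK : ∀ i j, ∀ p ∈ K, ContDiffAt ℝ 2 (fun p : ℝ × Cm M => B p.1 p.2 i j) p :=
    fun i j p hp => hs p.1 p.2 (h32 hp.2) i j
  choose L hL0 hL1 hL2 using fun i j => taylor hK hKc (hsK i j)
  have hinv : ∀ i j, ∃ a : ℝ, ∀ p ∈ K, ‖(B p.1 p.2)⁻¹ i j‖ ≤ a := fun i j => by
    refine hK.exists_bound_of_continuousOn fun p hpK => ContinuousAt.continuousWithinAt ?_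
    have h1 : ContinuousAt (fun p : ℝ × Cm M => B p.1 p.2) p :=
      continuousAt_pi.2 fun i => continuousAt_pi.2 fun j => (hsK i j p hpK).continuousAt
    have h2 : ContinuousAt Ring.inverse (B p.1 p.2).det := by
      rw [Ring.inverse_eq_inv']
      exact continuousAt_inv₀ (hp p.1 hpK.1 p.2 (h32 hpK.2)).det_pos.ne'
    have h3 := ContinuousAt.comp (f := fun p : ℝ × Cm M => B p.1 p.2)
      (continuousAt_matrix_inv (B p.1 p.2) h2) h1
    exact continuousAt_pi.1 (continuousAt_pi.1 h3 i) j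
  choose a ha using hinv
  obtain ⟨A, hA⟩ : ∃ A : ℝ, 1 ≤ A ∧ (∀ i j, L i j ≤ A) ∧ ∀ i j, a i j ≤ A := by
    obtain ⟨A1, h1⟩ := Finite.exists_le fun q : ι × ι => L q.1 q.2
    obtain ⟨A2, h2⟩ := Finite.exists_le fun q : ι × ι => a q.1 q.2
    exact ⟨max 1 (max A1 A2), le_max_left _ _,
      fun i j => (h1 (i, j)).trans ((le_max_left _ _).trans (le_max_right _ _)),
      fun i j => (h2 (i, j)).trans ((le_max_right _ _).trans (le_max_right _ _))⟩
  obtain ⟨hA1, hAL, hAa⟩ := hA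
  have hA0 : 0 ≤ A := zero_le_one.trans hA1
  set d : ℝ := (Fintype.card ι : ℝ) with hd
  have hd0 : 0 ≤ d := Nat.cast_nonneg _
  set E : ℝ := A + d * (d * (M * A * A) * (M * A)) with hE
  have hE0 : 0 ≤ E := by positivity
  refine ⟨d * A * (d * E) + 1, by positivity, fun ε hε x₀ hx₀ => ?_⟩
  have hx₀' : x₀ ∈ closedBall (0 : Cm M) (3 / 2) := closedBall_subset_closedBall (by norm_num) hx₀
  have hpK : (ε, x₀) ∈ K := ⟨hε, hx₀'⟩
  have hB₀ := hp ε hε x₀ (h32 hx₀')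
  obtain ⟨S, hS⟩ := C2.exists_factor hB₀.posSemidef
  have hdf : ∀ i j, HasFDerivAt (fun x => B ε x i j)
      ((fderiv ℝ (fun p : ℝ × Cm M => B p.1 p.2 i j) (ε, x₀)).comp
        (ContinuousLinearMap.inr ℝ ℝ (Cm M))) x₀ := fun i j =>
    HasFDerivAt.comp (g := fun p : ℝ × Cm M => B p.1 p.2 i j) x₀
      ((hsK i j _ hpK).differentiableAt two_ne_zero).hasFDerivAt (hasFDerivAt_prodMk_right ε x₀)
  have hdn : ∀ i j v, ‖fderiv ℝ (fun x => B ε x i j) x₀ v‖ ≤ A * ‖v‖ := fun i j v => by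
    rw [(hdf i j).fderiv, ContinuousLinearMap.comp_apply]
    refine (ContinuousLinearMap.le_opNorm _ _).trans ?_
    rw [ContinuousLinearMap.inr_apply, Prod.norm_mk, norm_zero, max_eq_right (norm_nonneg v)]
    exact mul_le_mul_of_nonneg_right ((hL1 i j _ hpK).trans (hAL i j)) (norm_nonneg _)
  have hdz : ∀ i j k, ‖dz k (fun x => B ε x i j) x₀‖ ≤ A := fun i j k => by
    have h1 := hdn i j (Pi.single k 1)
    have h2 := hdn i j (Pi.single k Complex.I)
    rw [Pi.norm_single] at h1 h2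
    rw [dz, norm_div, div_le_iff₀ (by norm_num)]
    refine (norm_sub_le _ _).trans ?_
    simp only [norm_mul, Complex.norm_I, norm_one, mul_one, one_mul, Complex.norm_ofNat] at h1 h2 ⊢
    linarith
  let Lm : Cm M → Matrix ι ι ℂ := fun x =>
    Matrix.of fun i j => ∑ k, dz k (fun x => B ε x i j) x₀ * (x k - x₀ k)
  have hLa : ∀ x i j, AnalyticAt ℂ (fun x => Lm x i j) x := fun x i j => by
    simp only [Lm, Matrix.of_apply]
    refine Finset.analyticAt_fun_sum _ fun k _ => analyticAt_const.mul ?_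
    exact ((ContinuousLinearMap.proj (R := ℂ) (φ := fun _ : Fin M => ℂ) k).analyticAt x).sub
      analyticAt_const
  have hu : IsUnit (B ε x₀).det := isUnit_iff_ne_zero.2 hB₀.det_pos.ne'
  refine ⟨fun x => (1 + Lm x * (B ε x₀)⁻¹) * Sᴴ, fun x i j => ?_, ?_, ?_⟩
  · simp only [Matrix.mul_apply, Matrix.add_apply]
    exact Finset.analyticAt_fun_sum _ fun k _ => (analyticAt_const.add
      (Finset.analyticAt_fun_sum _ fun l _ => (hLa x i l).mul analyticAt_const)).mul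
      analyticAt_const
  · have : Lm x₀ = 0 := by ext i j; simp [Lm]
    simp [this, hS]
  have hn : closedBall (0 : Cm M) (3 / 2) ∈ 𝓝 x₀ :=
    mem_of_superset (isOpen_ball.mem_nhds (closedBall_subset_ball (by norm_num) hx₀))
      ball_subset_closedBall
  filter_upwards [hn] with x hx
  have hxK : (ε, x) ∈ K := ⟨hε, hx⟩
  have hBx := hp ε hε x (h32 hx)
  have eQ : (1 + Lm x * (B ε x₀)⁻¹) * Sᴴ * ((1 + Lm x * (B ε x₀)⁻¹) * Sᴴ)ᴴ =
      B ε x₀ + Lm x + (Lm x)ᴴ + Lm x * (B ε x₀)⁻¹ * (Lm x)ᴴ := by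
    have h1 : ((B ε x₀)⁻¹)ᴴ = (B ε x₀)⁻¹ := hB₀.inv.isHermitian
    have h2 := Matrix.nonsing_inv_mul _ hu
    have h3 := Matrix.mul_nonsing_inv _ hu
    rw [Matrix.conjTranspose_mul, Matrix.conjTranspose_conjTranspose, Matrix.conjTranspose_add,
      Matrix.conjTranspose_one, Matrix.conjTranspose_mul, h1, Matrix.mul_assoc,
      ← Matrix.mul_assoc Sᴴ, ← hS]
    generalize (B ε x₀)⁻¹ = P at h2 h3
    rw [Matrix.mul_add, Matrix.mul_one, ← Matrix.mul_assoc, h3, Matrix.one_mul, Matrix.add_mul,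
      Matrix.one_mul, Matrix.mul_add, Matrix.mul_assoc (Lm x) P, h2, Matrix.mul_one]
    abel
  have hev : ∀ i j, (fun y => B ε y i j) =ᶠ[𝓝 x₀] fun y => (starRingEnd ℂ) (B ε y j i) :=
    fun i j => by
    filter_upwards [hn] with y hy
    exact ((hp ε hε y (h32 hy)).isHermitian.apply i j).symm
  have hLe : ∀ i j, ‖Lm x i j‖ ≤ M * A * ‖x - x₀‖ := fun i j => by
    simp only [Lm, Matrix.of_apply]
    refine (norm_sum_le _ _).trans ?_
    calc ∑ k, ‖dz k (fun x => B ε x i j) x₀ * (x k - x₀ k)‖ ≤ ∑ _k : Fin M, A * ‖x - x₀‖ :=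
          Finset.sum_le_sum fun k _ => by
            rw [norm_mul]
            exact mul_le_mul (hdz i j k) (norm_le_pi_norm (x - x₀) k) (norm_nonneg _) hA0
      _ = _ := by simp [mul_assoc]
  have hT : ∀ i j, ‖(B ε x - B ε x₀ - Lm x - (Lm x)ᴴ) i j‖ ≤ A * ‖x - x₀‖ ^ 2 := fun i j => by
    have h1 := hL2 i j _ hpK _ hxK
    have h2 : fderiv ℝ (fun p : ℝ × Cm M => B p.1 p.2 i j) (ε, x₀) ((ε, x) - (ε, x₀)) =
        Lm x i j + (Lm x)ᴴ i j := by
      have h3 := fderiv_eq (fun x => B ε x i j) x₀ (x - x₀)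
      rw [(hdf i j).fderiv] at h3
      rw [Prod.mk_sub_mk, sub_self]
      refine h3.trans ?_
      simp only [Lm, Matrix.conjTranspose_apply, Matrix.of_apply, Finset.sum_add_distrib,
        star_sum, Pi.sub_apply]
      congr 1
      refine Finset.sum_congr rfl fun k _ => ?_
      rw [C2.dzb_congr k (hev i j), C2.dzb_conj k (hdf j i).differentiableAt, star_mul', RCLike.star_def]
    rw [h2, Prod.mk_sub_mk, sub_self, Prod.norm_mk, norm_zero, max_eq_right (norm_nonneg _)] at h1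
    simp only [Matrix.sub_apply]
    rw [sub_sub _ (Lm x i j)]
    exact h1.trans (mul_le_mul_of_nonneg_right (hAL i j) (sq_nonneg _))
  set r := ‖x - x₀‖ with hr
  have hr0 : 0 ≤ r := norm_nonneg _
  have hq : ∀ i j, ‖(Lm x * (B ε x₀)⁻¹ * (Lm x)ᴴ) i j‖ ≤ d * (d * (M * A * r * A) * (M * A * r)) :=
    mul_entry (by positivity) (mul_entry (by positivity) hLe
      fun i j => (ha i j _ hpK).trans (hAa i j)) fun i j => by
        rw [Matrix.conjTranspose_apply, norm_star]; exact hLe j i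
  rw [eQ]
  set P := B ε x₀ + Lm x + (Lm x)ᴴ + Lm x * (B ε x₀)⁻¹ * (Lm x)ᴴ with hP
  have hPh : P.IsHermitian := by rw [← eQ]; exact Matrix.isHermitian_mul_conjTranspose_self _
  have hD : ∀ i j, ‖(B ε x - P) i j‖ ≤ E * r ^ 2 := fun i j => by
    have e : B ε x - P = (B ε x - B ε x₀ - Lm x - (Lm x)ᴴ) - Lm x * (B ε x₀)⁻¹ * (Lm x)ᴴ := by
      rw [hP]; abel
    rw [e, Matrix.sub_apply]
    refine (norm_sub_le _ _).trans ((add_le_add (hT i j) (hq i j)).trans (le_of_eq ?_))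
    rw [hE]; ring
  have h1 := psd_of_entry (hBx.isHermitian.sub hPh) hD
  have h2 := low_of_inv hBx fun i j => (ha i j _ hxK).trans (hAa i j)
  rw [← hd] at h1 h2
  have hsum : r ^ 2 ≤ ∑ l, ‖x l - x₀ l‖ ^ 2 := by
    have h0 : 0 ≤ ∑ l, ‖x l - x₀ l‖ ^ 2 := by positivity
    refine (Real.le_sqrt hr0 h0).1 ((pi_norm_le_iff_of_nonneg (Real.sqrt_nonneg _)).2 fun l => ?_)
    exact Real.le_sqrt_of_sq_le (Finset.single_le_sum (f := fun l => ‖x l - x₀ l‖ ^ 2)
      (fun _ _ => sq_nonneg _) (Finset.mem_univ l))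
  set s := (d * A * (d * E) + 1) * ∑ l, ‖x l - x₀ l‖ ^ 2 with hsd
  have hs1 : d * A * (d * (E * r ^ 2)) ≤ s := by
    have a0 : 0 ≤ d * A * (d * E) := by positivity
    have a1 := mul_le_mul_of_nonneg_left hsum a0
    have a2 := (sq_nonneg r).trans hsum
    nlinarith
  have hq0 := Real.exp_pos (-s)
  have hq1 : Real.exp (-s) * (1 + s) ≤ 1 := by
    have a1 := mul_le_mul_of_nonneg_left (Real.add_one_le_exp s) hq0.le
    rw [← Real.exp_add, neg_add_cancel, Real.exp_zero] at a1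
    linarith
  generalize Real.exp (-s) = q at hq0 hq1
  have hb0 : 0 ≤ d * (E * r ^ 2) := by positivity
  generalize d * (E * r ^ 2) = b at *
  have hc0 : 0 ≤ 1 - q - q * b * (d * A) := by nlinarith
  have h3 := ((h1.smul (Complex.zero_le_real.2 hq0.le)).add
    (h2.smul (Complex.zero_le_real.2 (mul_nonneg hq0.le hb0)))).add
    (hBx.posSemidef.smul (Complex.zero_le_real.2 hc0))
  have e : B ε x - (q : ℂ) • P = (q : ℂ) • (B ε x - P + (b : ℂ) • (1 : Matrix ι ι ℂ)) +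
      ((q * b : ℝ) : ℂ) • (((d * A : ℝ) : ℂ) • B ε x - 1) +
      ((1 - q - q * b * (d * A) : ℝ) : ℂ) • B ε x := by
    push_cast
    module
  rw [e]
  exact h3

end Vale.Agent.P301Z.Key.Sup
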