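import Vale.Agent.P301Z.Key.Rows
import Vale.Agent.P301Z.Key.Sup
import Vale.Agent.P301Z.Key.Flt
import Vale.Agent.P299.H956.D1.RJac
import Vale.Agent.P272.K.C2.Global
import Mathlib.Analysis.Matrix.Order
import Mathlib.Data.Matrix.ColumnRowPartitioned

/-! P301, KEY: the reference form as a pull back of a compact family of matrices. -/

open scoped Manifold ContDiff ComplexOrder Topology Matrix
open Set Metric Filter

noncomputable section

namespace Vale.Agent.P301Z.Key.ClX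

open Vale.Agent.P272.K

variable {N : ℕ}

theorem cHess_sq {p : ℕ} (c x : Cm p) :
    cHess (fun y => ∑ l, ‖y l - c l‖ ^ 2) x = 1 := by
  have hd : ∀ l (y : Cm p), DifferentiableAt ℂ (fun y : Cm p => y l - c l) y := fun l y =>
    (differentiableAt_apply l y).sub_const _
  have hz : ∀ l j (y : Cm p), dz j (fun y : Cm p => y l - c l) y = if l = j then 1 else 0 := by
    intro l j y
    rw [INT.dz_of_holo (hd l y), fderiv_sub_const, (hasFDerivAt_apply (𝕜 := ℂ) l y).fderiv]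
    simp [Pi.single_apply]
  ext j k
  have e : (dzb k fun y : Cm p => ((∑ l, ‖y l - c l‖ ^ 2 : ℝ) : ℂ)) = fun y => y k - c k := by
    funext y
    have e1 : (fun y : Cm p => ((∑ l, ‖y l - c l‖ ^ 2 : ℝ) : ℂ)) =
        fun y => ∑ l, (y l - c l) * (starRingEnd ℂ) (y l - c l) := by
      funext y
      push_cast
      exact Finset.sum_congr rfl fun l _ => (Complex.mul_conj' _).symm
    have h1 : ∀ l, DifferentiableAt ℝ (fun y : Cm p => y l - c l) y := fun l =>
      (hd l y).restrictScalars ℝ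
    rw [e1, C2.dzb_sum k Finset.univ
      (F := fun l (y : Cm p) => (y l - c l) * (starRingEnd ℂ) (y l - c l))
      fun l _ => (h1 l).mul (C2.differentiableAt_conj (h1 l))]
    rw [Finset.sum_congr rfl fun l _ => C2.dzb_mul k (h1 l) (C2.differentiableAt_conj (h1 l))]
    simp only [INT.dzb_of_holo (hd _ y), C2.dzb_conj k (h1 _), hz, zero_mul, zero_add]
    simp
  rw [C2.cHess_apply, e, hz, Matrix.one_apply]
  simp only [eq_comm]

theorem sq_smooth {p : ℕ} (c x : Cm p) :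
    ContDiffAt ℝ 2 (fun y : Cm p => ∑ l, ‖y l - c l‖ ^ 2) x :=
  ContDiffAt.sum fun l _ =>
    (((contDiff_apply ℝ ℂ l).sub contDiff_const).contDiffAt).norm_sq ℂ

variable (M : Model N) (a : Fin M.na)

/-- the triangular part -/
def Am (ε : ℝ) (x : Cm (N + 1)) :
    Matrix (Fin M.ni ⊕ Fin (N + 1)) (Fin M.ni ⊕ Fin (N + 1)) ℂ :=
  Matrix.fromBlocks 1 0 (Matrix.of fun l i => (ε : ℂ) * dz l (fun x => (M.φ a i x : ℂ)) x) 1

/-- the diagonal part -/
def Dm (K : ℝ) (x : Cm (N + 1)) :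
    Matrix (Fin M.ni ⊕ Fin (N + 1)) (Fin M.ni ⊕ Fin (N + 1)) ℂ :=
  Matrix.fromBlocks 1 0 0 ((K : ℂ) • cHess (M.ψ a) x)

/-- the family of matrices -/
def Bm (K ε : ℝ) (x : Cm (N + 1)) :
    Matrix (Fin M.ni ⊕ Fin (N + 1)) (Fin M.ni ⊕ Fin (N + 1)) ℂ :=
  Am M a ε x * Dm M a K x * (Am M a ε x)ᴴ

variable {M a}

theorem Bm_pos (hM : M.Good) {K : ℝ} (hK : 0 < K) (ε : ℝ) {x : Cm (N + 1)}
    (hx : x ∈ ball (0 : Cm (N + 1)) 2) : (Bm M a K ε x).PosDef := by
  have hW : ((K : ℂ) • cHess (M.ψ a) x).PosDef := (hM.ψ_pos a x hx).smul (Complex.zero_lt_real.2 hK)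
  obtain ⟨S, hS⟩ := C2.exists_factor hW.posSemidef
  have hD : (Dm M a K x).PosSemidef := by
    have : Dm M a K x = (Matrix.fromBlocks 1 0 0 S)ᴴ * Matrix.fromBlocks 1 0 0 S := by
      rw [Dm, hS, Matrix.fromBlocks_conjTranspose, Matrix.fromBlocks_multiply]
      simp
    rw [this]
    exact Matrix.posSemidef_conjTranspose_mul_self _
  refine (hD.mul_mul_conjTranspose_same _).posDef_iff_det_ne_zero.2 ?_
  have h1 : (Am M a ε x).det = 1 := by rw [Am, Matrix.det_fromBlocks_zero₁₂]; simp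
  have h2 : (Dm M a K x).det ≠ 0 := by
    rw [Dm, Matrix.det_fromBlocks_zero₁₂, Matrix.det_one, one_mul]
    exact hW.det_pos.ne'
  rw [Matrix.det_mul, Matrix.det_mul, Matrix.det_conjTranspose, h1]
  simpa using h2

theorem Bm_smooth (hM : M.Good) (K ε : ℝ) {x : Cm (N + 1)} (hx : x ∈ ball (0 : Cm (N + 1)) 2)
    (i j : Fin M.ni ⊕ Fin (N + 1)) :
    ContDiffAt ℝ 2 (fun p : ℝ × Cm (N + 1) => Bm M a K p.1 p.2 i j) (ε, x) := by
  have hA : ∀ i j, ContDiffAt ℝ 2 (fun p : ℝ × Cm (N + 1) => Am M a p.1 p.2 i j) (ε, x) := by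
    rintro (i | i) (j | j)
    · exact contDiffAt_const
    · exact contDiffAt_const
    · have h1 : ContDiffAt ℝ 2 (dz i fun x => (M.φ a j x : ℂ)) x :=
        C2.contDiffAt_dz i (C2.contDiffAt_ofReal (hM.φ_sm a j x hx)) (by norm_cast)
      exact (Complex.ofRealCLM.contDiff.contDiffAt.comp _ contDiffAt_fst).mul
        (ContDiffAt.comp (f := Prod.snd) (ε, x) h1 contDiffAt_snd)
    · exact contDiffAt_const
  have hD : ∀ i j, ContDiffAt ℝ 2 (fun p : ℝ × Cm (N + 1) => Dm M a K p.2 i j) (ε, x) := by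
    rintro (i | i) (j | j)
    · exact contDiffAt_const
    · exact contDiffAt_const
    · exact contDiffAt_const
    · have h1 : ContDiffAt ℝ 2 (fun y => cHess (M.ψ a) y i j) x :=
        C2.contDiffAt_cHess (hM.ψ_sm a x hx) (by norm_cast) i j
      exact contDiffAt_const.mul (ContDiffAt.comp (f := Prod.snd) (ε, x) h1 contDiffAt_snd)
  simp only [Bm, Matrix.mul_apply, Matrix.conjTranspose_apply]
  exact ContDiffAt.sum fun k _ => (ContDiffAt.sum fun l _ => (hA i l).mul (hD l k)).mul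
    (Complex.conjCLE.contDiff.contDiffAt.comp _ (hA j k))

/-- the holomorphic frame -/
def Km (M : Model N) (a : Fin M.na) (σ : ℝ) (g : Cm N → Cm (N + 1)) (z : Cm N) :
    Matrix (Fin N) (Fin M.ni ⊕ Fin (N + 1)) ℂ :=
  Matrix.fromCols
    (Matrix.of fun p i => -∑ l, (if M.sig a i = some l then (g z l)⁻¹ else 0) * jr g z l p)
    ((σ : ℂ) • (jr g z)ᵀ)

theorem Km_an {σ : ℝ} {g : Cm N → Cm (N + 1)} {z : Cm N} (hg : ContDiffAt ℂ ω g z)
    (h0 : ∀ i l, M.sig a i = some l → g z l ≠ 0) (p : Fin N) (j : Fin M.ni ⊕ Fin (N + 1)) :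
    AnalyticAt ℂ (fun y => Km M a σ g y p j) z := by
  have hj : ∀ l, AnalyticAt ℂ (fun y => jr g y l p) z := fun l =>
    (P299.H956.jmR_holo hg l p).analyticAt
  rcases j with i | l
  · refine (Finset.analyticAt_fun_sum Finset.univ (f := fun l y =>
      (if M.sig a i = some l then (g y l)⁻¹ else 0) * jr g y l p) fun l _ => ?_).neg
    refine AnalyticAt.mul ?_ (hj l)
    by_cases h : M.sig a i = some l
    · simp only [if_pos h]
      exact (contDiffAt_pi.1 hg l).analyticAt.inv (h0 i l h)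
    · simp only [if_neg h]
      exact analyticAt_const
  · exact analyticAt_const.mul (hj l)

variable {Y : Type} [TopologicalSpace Y] [ChartedSpace (Cm N) Y] {t : ℂ} {F : Fib M Y t}

theorem Hh_eq (hB : Bas F) (K : ℝ) {σ : ℝ} (hσ : 0 < σ) (hT : σ * σ = TT t) {e : Chart N Y}
    {y : Y} (h : At e y) (hy : y ∈ F.U a) :
    F.Hh K e (e y) = Km M a σ (F.g a e) (e y) * Bm M a K σ⁻¹ (F.j a y) *
      (Km M a σ (F.g a e) (e y))ᴴ := by
  have hg : F.g a e (e y) = F.j a y := by rw [Fib.g, h.left_inv]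
  have e1 : Km M a σ (F.g a e) (e y) * Am M a σ⁻¹ (F.j a y) = Matrix.fromCols
      (Matrix.of fun p i => dz p (fun z => (F.ρ i (e.symm z) : ℂ)) (e y))
      ((σ : ℂ) • (jr (F.g a e) (e y))ᵀ) := by
    rw [Km, Am, Matrix.fromCols_mul_fromBlocks]
    congr 1
    · ext p i
      have hs : (σ : ℂ) ≠ 0 := by exact_mod_cast hσ.ne'
      simp only [Matrix.mul_one, Matrix.add_apply, Matrix.of_apply, Matrix.mul_apply,
        Matrix.smul_apply, Matrix.transpose_apply, smul_eq_mul, hB.ρ_dz a i e y p h hy, hg,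
        sub_mul, Finset.sum_sub_distrib]
      rw [neg_add_eq_sub]
      congr 1
      refine Finset.sum_congr rfl fun l _ => ?_
      push_cast
      field_simp
    · simp
  have e2 : Km M a σ (F.g a e) (e y) * Bm M a K σ⁻¹ (F.j a y) * (Km M a σ (F.g a e) (e y))ᴴ =
      (Km M a σ (F.g a e) (e y) * Am M a σ⁻¹ (F.j a y)) * Dm M a K (F.j a y) *
        (Km M a σ (F.g a e) (e y) * Am M a σ⁻¹ (F.j a y))ᴴ := by
    simp only [Bm, Matrix.conjTranspose_mul, Matrix.mul_assoc]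
  rw [e2, e1, Dm, Matrix.fromCols_mul_fromBlocks,
    Matrix.conjTranspose_fromCols_eq_fromRows_conjTranspose, Matrix.fromCols_mul_fromRows, Fib.Hh,
    hB.χ_pb a e y h hy, pb, ← hT]
  congr 1
  · ext p q
    simp [Fib.P, Matrix.mul_apply]
  · have : ((jr (F.g a e) (e y))ᵀ)ᴴ = (jr (F.g a e) (e y)).map (starRingEnd ℂ) := by
      ext i j; simp
    simp only [Matrix.mul_zero, zero_add, Matrix.conjTranspose_smul, this, Matrix.smul_mul,
      Matrix.mul_smul, smul_smul, RCLike.star_def, Complex.conj_ofReal]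
    congr 1
    push_cast
    ring

end Vale.Agent.P301Z.Key.ClX
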