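import Vale.Agent.P301Z.Key.Gb0

/-! P301, KEY: the set where `G` is large is small; one step of the iteration; the a priori
bound. -/

open MeasureTheory Metric Filter Set
open scoped Topology ContDiff

noncomputable section

namespace Vale.Agent.P301Z.Key.Gb

open Vale.Agent.P272.K Vale.Agent.P272.K.QN

variable {n : ℕ}

theorem intOn {f : Cm n → ℝ} {c : Cm n} {s : ℝ} (hf : ∀ z ∈ closedBall c s, ContinuousAt f z) :
    IntegrableOn f (ball c s) :=
  (ContinuousOn.integrableOn_compact (isCompact_closedBall c s)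
    fun z hz => (hf z hz).continuousWithinAt).mono_set ball_subset_closedBall

theorem submean {f : Cm n → ℝ} {c : Cm n} {s A : ℝ} (hs : 0 < s) (hA : 0 ≤ A)
    (hf : ∀ z ∈ closedBall c s, ContDiffAt ℝ 2 f z)
    (hL : ∀ z ∈ closedBall c s, ∀ k, -A ≤ (cHess f z k k).re) :
    volume.real (ball c s) * f c ≤ (∫ z in ball c s, f z) +
      volume.real (ball c s) * (A * n * s ^ 2) := by
  have h := H86.polydisc_submean_diag hs hA hf hL
  have hv := vol_pos c hs
  rw [setAverage_eq, smul_eq_mul] at h
  have h2 := mul_le_mul_of_nonneg_left h hv.le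
  rw [mul_add, ← mul_assoc, mul_inv_cancel₀ hv.ne', one_mul] at h2
  exact h2

theorem bad_meas {G : Cm n → ℝ} {s T : ℝ}
    (hf : ∀ z ∈ closedBall (0 : Cm n) s, ContDiffAt ℝ 2 G z) :
    MeasurableSet (ball (0 : Cm n) s ∩ G ⁻¹' Ioi T) :=
  (ContinuousOn.isOpen_inter_preimage
    (fun z hz => (hf z (ball_subset_closedBall hz)).continuousAt.continuousWithinAt)
    isOpen_ball isOpen_Ioi).measurableSet

/-- the set where `G > T` is small -/
theorem bad_le {G : Cm n → ℝ} {s T C : ℝ} (hs : 0 < s) (hC : 0 < C) (hT : 0 < T)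
    (hf : ∀ z ∈ closedBall (0 : Cm n) s, ContDiffAt ℝ 2 G z)
    (h0 : ∀ z ∈ closedBall (0 : Cm n) s, 0 ≤ G z) (hz : G 0 = 0)
    (hU : ∀ z ∈ closedBall (0 : Cm n) s, ∀ k, (cHess G z k k).re ≤ C * Real.exp (C * G z / T)) :
    (1 - Real.exp (-C)) * volume.real (ball (0 : Cm n) s ∩ G ⁻¹' Ioi T) ≤
      volume.real (ball (0 : Cm n) s) * (C / T * C * n * s ^ 2) := by
  set a := C / T with ha
  have ha0 : 0 < a := div_pos hC hT
  let f : Cm n → ℝ := fun z => Real.exp (-a * G z)
  have hfd : ∀ z ∈ closedBall (0 : Cm n) s, ContDiffAt ℝ 2 f z := fun z hz =>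
    (contDiffAt_const.mul (hf z hz)).exp
  have hd : ∀ x : ℝ, HasDerivAt (fun x => Real.exp (-a * x)) (Real.exp (-a * x) * -a) x :=
    fun x => by simpa using ((hasDerivAt_id x).const_mul (-a)).exp
  have hL : ∀ z ∈ closedBall (0 : Cm n) s, ∀ k, -(a * C) ≤ (cHess f z k k).re := by
    intro z hz k
    have h1 := C2.cHess_comp (ψ := fun x => Real.exp (-a * x))
      (ψ₁ := fun x => Real.exp (-a * x) * -a) (Eventually.of_forall hd)
      ((hd (G z)).mul_const (-a)) (hf z hz) k k
    have h2 := C2.dzb_real k ((hf z hz).differentiableAt (by norm_num))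
    rw [h2, Complex.mul_conj] at h1
    show -(a * C) ≤ (cHess (fun y => Real.exp (-a * G y)) z k k).re
    rw [h1, Complex.add_re, Complex.re_ofReal_mul, ← Complex.ofReal_mul, Complex.ofReal_re]
    have h3 := hU z hz k
    have h4 : Real.exp (-a * G z) * Real.exp (C * G z / T) = 1 := by
      rw [← Real.exp_add, ha, show -(C / T) * G z + C * G z / T = 0 by ring, Real.exp_zero]
    have h5 := Real.exp_pos (-a * G z)
    have h6 := Complex.normSq_nonneg (dz k (fun y => (G y : ℂ)) z)
    have h7 : Real.exp (-a * G z) * a * (cHess G z k k).re ≤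
        Real.exp (-a * G z) * a * (C * Real.exp (C * G z / T)) :=
      mul_le_mul_of_nonneg_left h3 (by positivity)
    have h8 : Real.exp (-a * G z) * a * (C * Real.exp (C * G z / T)) = a * C := by
      linear_combination a * C * h4
    have h9 : 0 ≤ Real.exp (-a * G z) * (a * a) * Complex.normSq (dz k (fun y => (G y : ℂ)) z) := by
      positivity
    nlinarith
  have h1 := submean hs (by positivity) hfd hL
  have hf0 : f 0 = 1 := by simp [f, hz]
  have hi : IntegrableOn f (ball (0 : Cm n) s) := intOn fun z hz => (hfd z hz).continuousAt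
  have hfin : volume (ball (0 : Cm n) s) ≠ ⊤ := measure_ball_lt_top.ne
  have hi1 : IntegrableOn (fun z => 1 - f z) (ball (0 : Cm n) s) :=
    (integrableOn_const hfin).sub hi
  have e1 : ∫ z in ball (0 : Cm n) s, (1 - f z) =
      volume.real (ball (0 : Cm n) s) - ∫ z in ball (0 : Cm n) s, f z := by
    have hc1 : Integrable (fun _ => (1 : ℝ)) (volume.restrict (ball (0 : Cm n) s)) :=
      integrableOn_const hfin
    rw [integral_sub hc1 hi, setIntegral_const, smul_eq_mul, mul_one]
  have hB := bad_meas (T := T) hf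
  have e2 : ∫ z in ball (0 : Cm n) s ∩ G ⁻¹' Ioi T, (1 - f z) ≤
      ∫ z in ball (0 : Cm n) s, (1 - f z) := by
    refine setIntegral_mono_set hi1 ?_ (LE.le.eventuallyLE inter_subset_left)
    refine (ae_restrict_iff' measurableSet_ball).2 (Eventually.of_forall fun z hz => ?_)
    have := h0 z (ball_subset_closedBall hz)
    have : f z ≤ 1 := Real.exp_le_one_iff.2 (by nlinarith)
    show 0 ≤ 1 - f z
    linarith
  have e3 : (1 - Real.exp (-C)) * volume.real (ball (0 : Cm n) s ∩ G ⁻¹' Ioi T) ≤
      ∫ z in ball (0 : Cm n) s ∩ G ⁻¹' Ioi T, (1 - f z) := by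
    refine setIntegral_ge_of_const_le_real hB
      ((measure_mono inter_subset_left).trans_lt measure_ball_lt_top).ne (fun z hz => ?_)
      (hi1.mono_set inter_subset_left)
    have h2 : T < G z := hz.2
    have h3 : -a * G z ≤ -C := by
      have : a * T = C := by rw [ha]; field_simp
      nlinarith
    have : f z ≤ Real.exp (-C) := Real.exp_le_exp.2 h3
    linarith
  rw [hf0, mul_one] at h1
  linarith

/-- one step of the iteration -/
theorem step {G : Cm n → ℝ} {s T C m κ : ℝ} (hs : 0 < s) (hC : 0 ≤ C) (hT : 0 ≤ T) (hm : 0 ≤ m)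
    (hf : ∀ z ∈ closedBall (0 : Cm n) (2 * s), ContDiffAt ℝ 2 G z)
    (hL : ∀ z ∈ closedBall (0 : Cm n) (2 * s), ∀ k, -C ≤ (cHess G z k k).re)
    (hG : ∀ z ∈ closedBall (0 : Cm n) (2 * s), G z ≤ m)
    (hB : volume.real (ball (0 : Cm n) (2 * s) ∩ G ⁻¹' Ioi T) ≤
      volume.real (ball (0 : Cm n) (2 * s)) * κ) {y : Cm n} (hy : y ∈ closedBall (0 : Cm n) s) :
    G y ≤ T + C * n * s ^ 2 + m * (2 ^ Module.finrank ℝ (Cm n) * κ) := by
  have hy' : dist y 0 ≤ s := hy
  have hsub : closedBall y s ⊆ closedBall (0 : Cm n) (2 * s) :=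
    closedBall_subset_closedBall' (by linarith)
  have hsub' : ball y s ⊆ ball (0 : Cm n) (2 * s) := ball_subset_ball' (by linarith)
  have h1 := submean hs hC (fun z hz => hf z (hsub hz)) (fun z hz => hL z (hsub hz))
  set B := ball (0 : Cm n) (2 * s) ∩ G ⁻¹' Ioi T with hBd
  have hBm : MeasurableSet B := bad_meas hf
  have hfin : volume (ball y s) ≠ ⊤ := measure_ball_lt_top.ne
  have hi : IntegrableOn G (ball y s) := intOn fun z hz => (hf z (hsub hz)).continuousAt
  have hi2 : IntegrableOn (B.indicator fun _ => m) (ball y s) :=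
    (integrableOn_const hfin).indicator hBm
  have h2 : ∫ z in ball y s, G z ≤ ∫ z in ball y s, (T + B.indicator (fun _ => m) z) := by
    refine setIntegral_mono_on hi ((integrableOn_const hfin).add hi2) measurableSet_ball
      fun z hz => ?_
    by_cases hzB : z ∈ B
    · rw [indicator_of_mem hzB]
      have := hG z (ball_subset_closedBall hzB.1)
      linarith
    · rw [indicator_of_notMem hzB, add_zero]
      exact not_lt.1 fun h => hzB ⟨hsub' hz, h⟩
  have h3 : ∫ z in ball y s, B.indicator (fun _ => m) z ≤ volume.real B * m := by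
    rw [setIntegral_indicator hBm, setIntegral_const, smul_eq_mul]
    refine mul_le_mul_of_nonneg_right (measureReal_mono inter_subset_right ?_) hm
    exact ((measure_mono inter_subset_left).trans_lt measure_ball_lt_top).ne
  have hc1 : Integrable (fun _ => T) (volume.restrict (ball y s)) := integrableOn_const hfin
  rw [integral_add hc1 hi2, setIntegral_const, smul_eq_mul] at h2
  rw [vol_mul 0 y hs two_pos] at hB
  have hv := vol_pos y hs
  have h4 := mul_le_mul_of_nonneg_right hB hm
  refine le_of_mul_le_mul_left ?_ hv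
  nlinarith

/-- the a priori bound from the mass of the Laplacian -/
theorem apriori {G D : Cm n → ℝ} {s ρ T C M : ℝ} (hs : 0 < s) (hρ : 6 * s < ρ) (hC : 0 ≤ C)
    (hM : 0 ≤ M) (hf : ∀ z ∈ ball (0 : Cm n) ρ, ContDiffAt ℝ ∞ G z)
    (h0 : ∀ z ∈ ball (0 : Cm n) ρ, 0 ≤ G z)
    (hL : ∀ z ∈ ball (0 : Cm n) ρ, ∀ k, -C ≤ (cHess G z k k).re)
    (hDc : ∀ z ∈ ball (0 : Cm n) ρ, ContinuousAt D z) (hD0 : ∀ z ∈ ball (0 : Cm n) ρ, 0 ≤ D z)
    (hD : ∀ z ∈ ball (0 : Cm n) ρ, ∀ k, (cHess G z k k).re ≤ D z)
    (hDM : ∫ z in closedBall (0 : Cm n) (4 * s), D z ≤ M)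
    (hB : volume.real (ball (0 : Cm n) s ∩ G ⁻¹' Ioi T) ≤ volume.real (ball (0 : Cm n) s) / 2)
    {y : Cm n} (hy : y ∈ closedBall (0 : Cm n) s) :
    G y ≤ C * n * s ^ 2 + 3 ^ Module.finrank ℝ (Cm n) *
      (T + 18 * M * n * s ^ 2 / volume.real (ball (0 : Cm n) s)) := by
  obtain ⟨g, hg, hc, hgG⟩ := exists_cut hs hρ hf
  have c5 : ∀ {z : Cm n}, ‖z‖ ≤ 4 * s → z ∈ ball (0 : Cm n) (5 * s) := fun h =>
    mem_ball_zero_iff.2 (by linarith)
  have cρ : ∀ {z : Cm n}, ‖z‖ ≤ 4 * s → z ∈ ball (0 : Cm n) ρ := fun h =>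
    mem_ball_zero_iff.2 (by linarith)
  have hf2 : ∀ {z : Cm n}, ‖z‖ ≤ 4 * s → ContDiffAt ℝ 2 G z := fun h =>
    (hf _ (cρ h)).of_le (by norm_cast)
  set S := ball (0 : Cm n) s \ (ball (0 : Cm n) s ∩ G ⁻¹' Ioi T) with hS
  have hBm : MeasurableSet (ball (0 : Cm n) s ∩ G ⁻¹' Ioi T) :=
    bad_meas fun z hz => hf2 (by linarith [mem_closedBall_zero_iff.1 hz])
  have hSm : MeasurableSet S := measurableSet_ball.diff hBm
  have hSf : volume S < ⊤ := (measure_mono sdiff_subset).trans_lt measure_ball_lt_top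
  have hSn : ∀ c ∈ S, ‖c‖ < s := fun c hc => mem_ball_zero_iff.1 hc.1
  have hSv : volume.real (ball (0 : Cm n) s) / 2 ≤ volume.real S := by
    rw [hS, measureReal_sdiff inter_subset_left hBm measure_ball_lt_top.ne]
    linarith
  have : IsFiniteMeasure (volume.restrict S) := ⟨by rwa [Measure.restrict_apply_univ]⟩
  let Φ : Cm n → ℝ := fun h => ∫ c in S, g (c + h)
  have hΦ : ContDiff ℝ 2 Φ := par_contDiff (volume.restrict S) 2 hg hc
  have hDi : IntegrableOn D (closedBall (0 : Cm n) (4 * s)) :=
    ContinuousOn.integrableOn_compact (isCompact_closedBall _ _)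
      fun z hz => (hDc z (cρ (mem_closedBall_zero_iff.1 hz))).continuousWithinAt
  have hΦL : ∀ h ∈ closedBall (0 : Cm n) (3 * s), ∀ k,
      -M ≤ (cHess (fun h => -Φ h) h k k).re := by
    intro h hh k
    have hh' := mem_closedBall_zero_iff.1 hh
    rw [C2.cHess_neg hΦ.contDiffAt, Matrix.neg_apply, Complex.neg_re, neg_le_neg_iff,
      par_diag hg hc _ h k]
    let E : Cm n → ℝ := (closedBall (0 : Cm n) (4 * s)).indicator D
    have hEi : Integrable E := (integrable_indicator_iff measurableSet_closedBall).2 hDi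
    have hE0 : ∀ z, 0 ≤ E z := fun z =>
      indicator_nonneg (fun z hz => hD0 z (cρ (mem_closedBall_zero_iff.1 hz))) z
    have hcc : Continuous fun c => (cHess g (c + h) k k).re :=
      Complex.continuous_re.comp ((continuous_iff_continuousAt.2 fun z =>
        (C2.contDiffAt_cHess (m := 0) hg.contDiffAt (by norm_cast) k k).continuousAt).comp
        (continuous_id.add continuous_const))
    have hci : IntegrableOn (fun c => (cHess g (c + h) k k).re) S :=
      (intOn (c := 0) (s := s) fun z _ => hcc.continuousAt).mono_set sdiff_subset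
    calc ∫ c in S, (cHess g (c + h) k k).re ≤ ∫ c in S, E (c + h) := by
          refine setIntegral_mono_on hci (hEi.comp_add_right h).integrableOn hSm fun c hc => ?_
          have h4 : ‖c + h‖ ≤ 4 * s := by linarith [norm_add_le c h, hSn c hc]
          have ev : g =ᶠ[𝓝 (c + h)] G := by
            filter_upwards [isOpen_ball.mem_nhds (c5 h4)] with z hz using hgG z hz
          rw [C2.cHess_congr ev]
          show _ ≤ (closedBall (0 : Cm n) (4 * s)).indicator D (c + h)
          rw [indicator_of_mem (mem_closedBall_zero_iff.2 h4)]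
          exact hD _ (cρ h4) k
      _ ≤ ∫ c, E (c + h) :=
          setIntegral_le_integral (hEi.comp_add_right h) (Eventually.of_forall fun c => hE0 _)
      _ = ∫ z in closedBall (0 : Cm n) (4 * s), D z := by
          rw [integral_add_right_eq_self E h, integral_indicator measurableSet_closedBall]
      _ ≤ M := hDM
  have h1 := submean (f := fun h => -Φ h) (c := 0) (by positivity : 0 < 3 * s) hM
    (fun z _ => hΦ.contDiffAt.neg) hΦL
  rw [integral_neg] at h1
  have hΦ0 : Φ 0 ≤ volume.real S * T := by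
    have : ∫ c in S, g (c + 0) ≤ ∫ _ in S, T := by
      refine setIntegral_mono_on (par_int hg.continuous hc (volume.restrict S) 0)
        (integrableOn_const hSf.ne) hSm fun c hc => ?_
      rw [add_zero, hgG c (c5 (by linarith [hSn c hc]))]
      exact not_lt.1 fun h => hc.2 ⟨hc.1, h⟩
    rwa [setIntegral_const, smul_eq_mul] at this
  have : IsFiniteMeasure (volume.restrict (ball (0 : Cm n) (3 * s))) :=
    ⟨by rw [Measure.restrict_apply_univ]; exact measure_ball_lt_top⟩
  obtain ⟨Bg, hBg⟩ := hg.continuous.bounded_above_of_compact_support hc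
  have hprod : Integrable (Function.uncurry fun (h c : Cm n) => g (c + h))
      ((volume.restrict (ball (0 : Cm n) (3 * s))).prod (volume.restrict S)) :=
    Integrable.of_bound (hg.continuous.comp (continuous_snd.add continuous_fst)).aestronglyMeasurable
      Bg (Eventually.of_forall fun c => hBg _)
  have hy' := mem_closedBall_zero_iff.1 hy
  have h2 : volume.real S * ∫ z in ball y s, G z ≤ ∫ h in ball (0 : Cm n) (3 * s), Φ h := by
    show _ ≤ ∫ h in ball (0 : Cm n) (3 * s), ∫ c in S, g (c + h)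
    rw [integral_integral_swap hprod, mul_comm]
    refine setIntegral_ge_of_const_le_real hSm hSf.ne (fun c hc => ?_) hprod.integral_prod_right
    have hc' := hSn c hc
    have e1 : ∫ h in ball (0 : Cm n) (3 * s), g (c + h) = ∫ z in ball c (3 * s), g z := by
      rw [← integral_indicator measurableSet_ball, ← integral_indicator measurableSet_ball,
        ← integral_add_left_eq_self ((ball c (3 * s)).indicator g) c]
      refine integral_congr_ae (Eventually.of_forall fun h => ?_)
      have : c + h ∈ ball c (3 * s) ↔ h ∈ ball (0 : Cm n) (3 * s) := by simp [mem_ball, dist_eq_norm]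
      by_cases hh : h ∈ ball (0 : Cm n) (3 * s)
      · rw [indicator_of_mem hh]; exact (indicator_of_mem (this.2 hh) g).symm
      · rw [indicator_of_notMem hh]; exact (indicator_of_notMem (fun x => hh (this.1 x)) g).symm
    have hn : ∀ z ∈ ball c (3 * s), ‖z‖ ≤ 4 * s := fun z hz => by
      have := norm_lt_of_mem_ball hz
      linarith
    have hsub : ball y s ⊆ ball c (3 * s) := by
      refine ball_subset_ball' ?_
      have := dist_le_norm_add_norm y c
      linarith
    rw [e1]
    calc ∫ z in ball y s, G z = ∫ z in ball y s, g z :=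
          setIntegral_congr_fun measurableSet_ball fun z hz => (hgG z (c5 (hn z (hsub hz)))).symm
      _ ≤ _ := by
          refine setIntegral_mono_set (intOn fun z _ => hg.continuous.continuousAt) ?_
            (LE.le.eventuallyLE hsub)
          refine (ae_restrict_iff' measurableSet_ball).2 (Eventually.of_forall fun z hz => ?_)
          show 0 ≤ g z
          rw [hgG z (c5 (hn z hz))]
          exact h0 z (cρ (hn z hz))
  have hn' : ∀ z ∈ closedBall y s, ‖z‖ ≤ 4 * s := fun z hz => by
    have := norm_le_of_mem_closedBall hz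
    linarith
  have h3 := submean (c := y) hs hC (fun z hz => hf2 (hn' z hz)) fun z hz => hL z (cρ (hn' z hz))
  have hv := vol_pos (0 : Cm n) hs
  have e4 : volume.real (ball y s) = volume.real (ball (0 : Cm n) s) := by
    rw [vol_ball y hs, vol_ball 0 hs]
  rw [e4] at h3
  rw [vol_mul 0 0 hs three_pos] at h1
  generalize volume.real (ball (0 : Cm n) s) = v at *
  generalize volume.real S = σ at *
  have hq : (0 : ℝ) < 3 ^ Module.finrank ℝ (Cm n) := by positivity
  generalize (3 : ℝ) ^ Module.finrank ℝ (Cm n) = q at *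
  have hσ : 0 < σ := by linarith
  have h5 : σ * (v * (G y - C * n * s ^ 2)) ≤ q * v * (σ * T + 9 * M * n * s ^ 2) := by
    have a1 := mul_le_mul_of_nonneg_left hΦ0 (mul_pos hq hv).le
    have a2 := mul_le_mul_of_nonneg_left h3 hσ.le
    nlinarith
  have h6 : 9 * M * n * s ^ 2 ≤ σ * (18 * M * n * s ^ 2 / v) := by
    have a0 : 0 ≤ 18 * M * n * s ^ 2 / v := by positivity
    have a1 := mul_le_mul_of_nonneg_right hSv a0
    have a2 : v / 2 * (18 * M * n * s ^ 2 / v) = 9 * M * n * s ^ 2 := by field_simp; ring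
    linarith
  have h7 := mul_le_mul_of_nonneg_left h6 (mul_pos hq hv).le
  refine le_of_mul_le_mul_left ?_ (mul_pos hσ hv)
  nlinarith

end Vale.Agent.P301Z.Key.Gb
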