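import Vale.Agent.P301Z.Key.Two
import Vale.Agent.P301Z.Key.Int
import Vale.Agent.P272.K.Inv.Consts

/-! P301, KEY: the mass of the metric on unit balls of the tube. -/

open scoped Manifold ContDiff ComplexOrder Topology Matrix
open Set Metric MeasureTheory Filter

noncomputable section

namespace Vale.Agent.P301Z.Key

open Vale.Agent.P272.K Vale.Agent.P272.K.INT

namespace MassX

variable {N : ℕ}

theorem per_zero {q : Fin N → ℤ} (h : ‖per q‖ ≤ 2) : per q = 0 := by
  funext i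
  have h1 := (norm_le_pi_norm (per q) i).trans h
  have h2 : ‖per q i‖ = 2 * Real.pi * |(q i : ℝ)| := by
    simp [per, abs_of_pos Real.pi_pos]
  have h3 : q i = 0 := by
    by_contra h0
    have h4 : (1 : ℝ) ≤ |(q i : ℝ)| := by exact_mod_cast Int.one_le_abs h0
    nlinarith [Real.two_le_pi]
  simp [per, h3]

theorem det_form (J B : Matrix (Fin N) (Fin N) ℂ) :
    (Jᵀ * B * J.map (starRingEnd ℂ)).det.re = B.det.re * ‖J.det‖ ^ 2 := by
  rw [Matrix.det_mul, Matrix.det_mul, Matrix.det_transpose, ← RingHom.mapMatrix_apply,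
    ← RingHom.map_det, mul_comm J.det, mul_assoc, Complex.mul_conj', ← Complex.ofReal_pow,
    Complex.re_mul_ofReal]

theorem trace_le {H B : Matrix (Fin N) (Fin N) ℂ} {c : ℝ} (hc : 0 < c) (hH : H.PosDef)
    (hB : (B - (c : ℂ) • (1 : Matrix (Fin N) (Fin N) ℂ)).PosSemidef) :
    H.trace.re ≤ N * c⁻¹ ^ (N - 1) * (H + B).det.re := by
  have h1 : ((c : ℂ) • (1 : Matrix (Fin N) (Fin N) ℂ)).PosSemidef :=
    Matrix.PosSemidef.one.smul (Complex.zero_le_real.2 hc.le)
  have h2 : B.PosSemidef := by simpa using hB.add h1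
  have h3 : (((c⁻¹ : ℝ) : ℂ) • (H + B) - 1).PosSemidef := by
    have := (hH.posSemidef.add hB).smul (Complex.zero_le_real.2 (inv_pos.2 hc).le)
    rwa [← add_sub_assoc, smul_sub, smul_smul, ← Complex.ofReal_mul, inv_mul_cancel₀ hc.ne',
      Complex.ofReal_one, one_smul] at this
  have h4 := C2.trace_le_of_inv_bound (hH.add_posSemidef h2) h3
  have h5 := (Complex.le_def.1 h2.trace_nonneg).1
  rw [Fintype.card_fin, Matrix.trace_add, Complex.add_re] at h4
  rw [Complex.zero_re] at h5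
  linarith

end MassX

open MassX in
theorem mass : MASS := by
  intro N hN M hM K c₀ hK hc₀
  have hC := hM.C_pos
  have hN0 : (0 : ℝ) < N := by exact_mod_cast hN
  refine ⟨N * c₀⁻¹ ^ (N - 1) * ((M.C + K) ^ N * M.C), by positivity, ?_⟩
  intro Y _ _ _ _ _ t F hT hB hH hβ a c R Φ hP hQ hlo v₀ hv₀
  have hT0 : 0 < TT t := by linarith
  have hl := hH.lam_pos
  obtain ⟨U, hU⟩ : ∃ U : Y → ℝ, U = fun y => F.u y + F.S y := ⟨_, rfl⟩
  have hs : SmoothFn (n := N) U := by
    rw [hU]; exact fun e x h => (F.u_sm e x h).add (hH.S_sm e x h)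
  have hb0 : IsClosedForm fun e z => ((F.lam + K * TT t : ℝ) : ℂ) • F.χ e z :=
    (IsKahler.isClosedForm F.χ_k).smul _
  obtain ⟨b, hbd⟩ : ∃ b : Fm N Y, b = fun e z => ((F.lam + K * TT t : ℝ) : ℂ) • F.χ e z +
    cHess (fun y => U (e.symm y)) z := ⟨_, rfl⟩
  have hb1 := isClosedForm_cHess hs
  have hb : IsClosedForm b := by rw [hbd]; exact hb0.add hb1
  have hbe : ∀ (e : Chart N Y) y, At e y → b e (e y) = F.w e (e y) + F.β K e (e y) := by
    intro e y h
    simp only [hbd, hU, Fib.β]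
    rw [F.w_eq e y h, C2.cHess_add (SmoothFn.two F.u_sm e y h) (SmoothFn.two hH.S_sm e y h)]
    push_cast
    module
  have e1 : intX (fun e z => (b e z).det.re) =
      (F.lam + K * TT t) ^ N * intX fun (e : Chart N Y) z => (F.χ e z).det.re := by
    rw [← intX_const_mul, hbd]
    refine (intX_det_add_cHess hb0 hs).trans (intX_congr fun e x _ => ?_)
    rw [Matrix.det_smul, Fintype.card_fin, ← Complex.ofReal_pow, Complex.re_ofReal_mul]
  obtain ⟨κ, hκ⟩ : ∃ κ : ℝ, κ = N * c₀⁻¹ ^ (N - 1) := ⟨_, rfl⟩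
  have hκ0 : 0 ≤ κ := by rw [hκ]; positivity
  have hD : IsDensity fun e z => κ * (b e z).det.re := hb.isDensity.const_mul κ
  have g0 : ∀ (e : Chart N Y) y, At e y → 0 ≤ κ * (b e (e y)).det.re := fun e y h => by
    rw [hbe e y h]
    exact mul_nonneg hκ0
      (Complex.lt_def.1 ((F.w_k.posDef e y h).add_posSemidef (hβ e y h)).det_pos).1.le
  have g1 : ContinuousOn Φ (closedBall v₀ 1) := fun v hv =>
    (hP.cont v (hv₀ hv)).continuousWithinAt
  have g2 : InjOn Φ (closedBall v₀ 1) := fun v hv v' hv' h => by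
    obtain ⟨q, hq⟩ := hP.inj v (hv₀ hv) v' (hv₀ hv') h
    have h2 : ‖per q‖ ≤ 2 := by
      have h3 : per q = v' - v := by rw [hq]; abel
      have h4 := dist_triangle_right v' v v₀
      rw [h3, ← dist_eq_norm]
      linarith [mem_closedBall.1 hv, mem_closedBall.1 hv']
    rw [hq, per_zero h2, add_zero]
  have g3 : ∀ v ∈ closedBall v₀ 1, ∀ e : Chart N Y, At e (Φ v) →
      DifferentiableAt ℂ (fun v' => e (Φ v')) v := fun v hv e he =>
    (hP.hol v (hv₀ hv) e he).differentiableAt (by simp)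
  have g4 : ContinuousOn (fun v => (cHess (F.pot a c Φ) v).trace.re) (closedBall v₀ 1) :=
    fun v hv => (TwoH.cont_trace (hQ.pot_sm v (hv₀ hv))).continuousWithinAt
  have g5 : ∀ v ∈ closedBall v₀ 1, 0 ≤ (cHess (F.pot a c Φ) v).trace.re := fun v hv => by
    have he : At (chartAt (Cm N) (Φ v)) (Φ v) := ⟨chart_mem_atlas _ _, mem_chart_source _ _⟩
    rw [← hQ.pot_eq v (hv₀ hv)]
    exact (Complex.le_def.1 (posSemidef_form (F.w_k.posDef _ _ he).posSemidef _).trace_nonneg).1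
  have g6 : ∀ v ∈ closedBall v₀ 1, ∀ e : Chart N Y, At e (Φ v) →
      (cHess (F.pot a c Φ) v).trace.re ≤
        κ * (b e (e (Φ v))).det.re * ‖(jmat (fun v' => e (Φ v')) v).det‖ ^ 2 := by
    intro v hv e he
    have hw := hQ.form F.w F.w_k.toIsHermitian.isForm v (hv₀ hv) e he
    have hβ' := hQ.form (F.β K) hH.β_form v (hv₀ hv) e he
    have hpd : (pl F.w Φ v).PosDef := by
      rw [hw]
      exact posDef_form (F.w_k.posDef e _ he) (isUnit_iff_ne_zero.2 (hP.unit v (hv₀ hv) e he))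
    have h2 := trace_le hc₀ hpd (hlo v (hv₀ hv))
    rw [← hQ.pot_eq v (hv₀ hv), mul_assoc, hbe e _ he, ← det_form, Matrix.mul_add,
      Matrix.add_mul, ← hw, ← hβ', hκ]
    exact h2
  refine (Int.int_le hD g0 (isCompact_closedBall v₀ 1) g1 g2 g3 g4 g5 g6).trans ?_
  rw [intX_const_mul, ← hκ, mul_assoc _ _ (TT t ^ N)]
  refine mul_le_mul_of_nonneg_left ?_ hκ0
  obtain ⟨I, hI, hIC⟩ := F.vol
  rw [e1, intX_eq_of_isIntegral hI]
  have h2 : (F.lam + K * TT t) ^ N ≤ ((M.C + K) * TT t) ^ N :=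
    pow_le_pow_left₀ (by positivity) (by linarith [F.lam_hi]) N
  calc _ ≤ (F.lam + K * TT t) ^ N * M.C := mul_le_mul_of_nonneg_left hIC (by positivity)
    _ ≤ ((M.C + K) * TT t) ^ N * M.C := mul_le_mul_of_nonneg_right h2 hC.le
    _ = _ := by rw [mul_pow]; ring

end Vale.Agent.P301Z.Key
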