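import Vale.Agent.P301Z.Key.Defs

/-!
# P301Z, block KEY: the statements of the rows
-/

open scoped Manifold ContDiff ComplexOrder Topology Matrix
open Set Metric MeasureTheory

noncomputable section

namespace Vale.Agent.P301Z.Key

open Vale.Agent.P272.K Vale.Agent.P272.K.C2

/-! ## Geometry of one fibre -/

/-- local formulas -/
structure Bas {N : ℕ} {M : Model N} {Y : Type} [TopologicalSpace Y] [ChartedSpace (Cm N) Y]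
    {t : ℂ} (F : Fib M Y t) : Prop where
  mem : ∀ a y, y ∈ F.U a → F.j a y ∈ ball (0 : Cm (N + 1)) 2 ∧
    M.cc a * ∏ l, F.j a y l ^ M.m a l = t
  ne : ∀ a y l, y ∈ F.U a → 1 ≤ M.m a l → F.j a y l ≠ 0
  ρ_sm : ∀ i, SmoothFn (n := N) (F.ρ i)
  χ_pb : ∀ a (e : Chart N Y) y, At e y → y ∈ F.U a →
    F.χ e (e y) = pb (F.g a e) (cHess (M.ψ a) (F.j a y)) (e y)
  ρ_hess : ∀ a i (e : Chart N Y) y, At e y → y ∈ F.U a →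
    cHess (fun z => F.ρ i (e.symm z)) (e y) = pb (F.g a e) (cHess (M.φ a i) (F.j a y)) (e y)
  ρ_dz : ∀ a i (e : Chart N Y) y p, At e y → y ∈ F.U a →
    dz p (fun z => (F.ρ i (e.symm z) : ℂ)) (e y) =
      ∑ l, (dz l (fun x => (M.φ a i x : ℂ)) (F.j a y) -
        if M.sig a i = some l then (F.j a y l)⁻¹ else 0) * jr (F.g a e) (e y) l p

def BAS : Prop :=
  ∀ (N : ℕ) (M : Model N) (_ : M.Good) (Y : Type) [TopologicalSpace Y] [ChartedSpace (Cm N) Y]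
    [IsManifold 𝓘(ℂ, Cm N) ω Y] (t : ℂ) (F : Fib M Y t), 0 < TT t → Bas F

/-- the reference forms -/
structure Her {N : ℕ} {M : Model N} {Y : Type} [TopologicalSpace Y] [ChartedSpace (Cm N) Y]
    {t : ℂ} (F : Fib M Y t) (K : ℝ) : Prop where
  lam_pos : 0 < F.lam
  P_psd : ∀ (e : Chart N Y) y, At e y → (F.P e (e y)).PosSemidef
  herm : IsHermitian (F.Hh K)
  S_sm : SmoothFn (n := N) F.S
  Ψ_sm : SmoothFn (n := N) (F.Ψ K)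
  β_form : IsForm (F.β K)
  β_eq : ∀ (e : Chart N Y) y, At e y → F.β K e (e y) =
    ((K * TT t / F.lam : ℝ) : ℂ) • F.w e (e y) + cHess (fun z => F.Ψ K (e.symm z)) (e y)
  β_sub : ∀ (e : Chart N Y) y, At e y → F.β K e (e y) =
    F.Hh K e (e y) + ∑ i, (F.ρ i y : ℂ) • cHess (fun z => F.ρ i (e.symm z)) (e y)

def HER : Prop :=
  ∀ (N : ℕ) (M : Model N) (_ : M.Good) (Y : Type) [TopologicalSpace Y] [ChartedSpace (Cm N) Y]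
    [IsManifold 𝓘(ℂ, Cm N) ω Y] (t : ℂ) (F : Fib M Y t) (K : ℝ), 0 < K → 0 < TT t → Bas F → Her F K

/-- the two reference forms are comparable -/
def REF : Prop :=
  ∀ (N : ℕ) (M : Model N) (_ : M.Good), ∃ K : ℝ, 0 < K ∧
    ∀ (Y : Type) [TopologicalSpace Y] [ChartedSpace (Cm N) Y] [IsManifold 𝓘(ℂ, Cm N) ω Y]
      (t : ℂ) (F : Fib M Y t), 1 ≤ TT t → Bas F → Her F K → ∀ (e : Chart N Y) y, At e y →
        ((2 : ℂ) • F.β K e (e y) - F.Hh K e (e y)).PosSemidef ∧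
        ((2 : ℂ) • F.Hh K e (e y) - F.β K e (e y)).PosSemidef

/-- `log (tr w⁻¹ H)` has lower supports with Laplacian at least `-δ tr w⁻¹ H` -/
def Supp {N : ℕ} {Y : Type} [TopologicalSpace Y] [ChartedSpace (Cm N) Y] (w H : Fm N Y) (δ : ℝ) :
    Prop :=
  ∀ (e : Chart N Y) y, At e y → ∃ s : Cm N → ℝ, ContDiffAt ℝ 2 s (e y) ∧
    s (e y) = Real.log (tau (w e) (H e) (e y)) ∧
    (∀ᶠ z in 𝓝 (e y), s z ≤ Real.log (tau (w e) (H e) z)) ∧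
    -δ * tau (w e) (H e) (e y) ≤ ((w e (e y))⁻¹ * cHess s (e y)).trace.re

def CL : Prop :=
  ∀ (N : ℕ) (_ : 1 ≤ N) (M : Model N) (_ : M.Good) (K : ℝ) (_ : 0 < K), ∃ C : ℝ, 0 < C ∧
    ∀ (Y : Type) [TopologicalSpace Y] [ChartedSpace (Cm N) Y] [IsManifold 𝓘(ℂ, Cm N) ω Y]
      (t : ℂ) (F : Fib M Y t), 1 ≤ TT t → Bas F → Her F K → Supp F.w (F.Hh K) (C / TT t)

/-- the maximum principle -/
def MAX : Prop :=
  ∀ (N : ℕ) (_ : 1 ≤ N) (Y : Type) [TopologicalSpace Y] [T2Space Y] [CompactSpace Y] [Nonempty Y]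
    [ChartedSpace (Cm N) Y] [IsManifold 𝓘(ℂ, Cm N) ω Y] (w H : Fm N Y) (Ψ : Y → ℝ) (A δ : ℝ),
    0 < A → 0 < δ → IsHermitian w → IsHermitian H → SmoothFn (n := N) Ψ → Supp w H δ →
    (∀ (e : Chart N Y) y, At e y → ((2 : ℂ) • ((A : ℂ) • w e (e y) +
      cHess (fun z => Ψ (e.symm z)) (e y)) - H e (e y)).PosSemidef) →
    ∃ y₀, (∀ y, Ψ y ≤ Ψ y₀) ∧ ∀ (e : Chart N Y) y, At e y →
      (((4 * A * N * Real.exp (4 * δ * (Ψ y₀ - Ψ y)) : ℝ) : ℂ) • w e (e y) - H e (e y)).PosSemidef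

/-- comparison with the diagonal model form -/
def CMP : Prop :=
  ∀ (N : ℕ) (M : Model N) (_ : M.Good) (K : ℝ) (_ : 0 < K), ∃ C : ℝ, 0 < C ∧
    ∀ (Y : Type) [TopologicalSpace Y] [ChartedSpace (Cm N) Y] [IsManifold 𝓘(ℂ, Cm N) ω Y]
      (t : ℂ) (F : Fib M Y t), 1 ≤ TT t → Bas F → ∀ a (e : Chart N Y) y, At e y → y ∈ F.U a →
        F.j a y ∈ ball (0 : Cm (N + 1)) 1 →
        ((C : ℂ) • F.Hh K e (e y) - pb (F.g a e) (M.dg a (TT t) (F.j a y)) (e y)).PosSemidef ∧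
        ((C : ℂ) • pb (F.g a e) (M.dg a (TT t) (F.j a y)) (e y) - F.Hh K e (e y)).PosSemidef

/-- a point where the metric dominates the model form lies close to a deepest stratum -/
def LOC : Prop :=
  ∀ (N : ℕ) (_ : 1 ≤ N) (M : Model N) (_ : M.Good) (C₀ : ℝ) (_ : 0 < C₀), ∃ C T₀ : ℝ, 0 < C ∧
    ∀ (Y : Type) [TopologicalSpace Y] [ChartedSpace (Cm N) Y] [IsManifold 𝓘(ℂ, Cm N) ω Y]
      (t : ℂ) (F : Fib M Y t), T₀ ≤ TT t → Bas F → ∀ a (e : Chart N Y) y, At e y → y ∈ F.U a →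
        F.j a y ∈ ball (0 : Cm (N + 1)) 1 →
        ((C₀ : ℂ) • F.w e (e y) - pb (F.g a e) (M.dg a (TT t) (F.j a y)) (e y)).PosSemidef →
        (∀ l, 1 ≤ M.m a l) ∧ ∀ l, TT t * ‖F.j a y l‖ ^ 2 ≤ C

/-- the logarithmic parametrisation exists -/
def PAR : Prop :=
  ∀ (N : ℕ) (M : Model N) (_ : M.Good) (Y : Type) [TopologicalSpace Y] [Nonempty Y]
    [ChartedSpace (Cm N) Y] [IsManifold 𝓘(ℂ, Cm N) ω Y] (t : ℂ) (F : Fib M Y t), 0 < TT t → Bas F →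
    ∀ a (c : Cm (N + 1)) (R : ℝ), (∀ l, 1 ≤ M.m a l) → M.cc a * ∏ l, c l ^ M.m a l = t →
      (∀ v ∈ Tb N R, ex c (M.B a) v ∈ ball (0 : Cm (N + 1)) 1) → ∃ Φ : Cm N → Y, Par F a c R Φ

/-- rules for pull backs under the parametrisation -/
structure Pbk {N : ℕ} {M : Model N} {Y : Type} [TopologicalSpace Y] [ChartedSpace (Cm N) Y]
    {t : ℂ} (F : Fib M Y t) (a : Fin M.na) (c : Cm (N + 1)) (R : ℝ) (Φ : Cm N → Y) : Prop where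
  form : ∀ b : Fm N Y, IsForm b → ∀ v ∈ Tb N R, ∀ e : Chart N Y, At e (Φ v) → pl b Φ v =
    (jmat (fun v' => e (Φ v')) v)ᵀ * b e (e (Φ v)) *
      (jmat (fun v' => e (Φ v')) v).map (starRingEnd ℂ)
  sm : ∀ f : Y → ℝ, SmoothFn (n := N) f → ∀ v ∈ Tb N R, ContDiffAt ℝ ∞ (fun v' => f (Φ v')) v
  hess : ∀ f : Y → ℝ, SmoothFn (n := N) f → ∀ v ∈ Tb N R,
    pl (fun e z => cHess (fun y => f (e.symm y)) z) Φ v = cHess (fun v' => f (Φ v')) v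
  jac : ∀ v ∈ Tb N R, ∀ e : Chart N Y, At e (Φ v) →
    jr (F.g a e) (e (Φ v)) * jmat (fun v' => e (Φ v')) v = jr (ex c (M.B a)) v
  jex : ∀ v, jr (ex c (M.B a)) v =
    Matrix.diagonal (ex c (M.B a) v) * (M.B a).map (Int.cast : ℤ → ℂ)
  pot_sm : ∀ v ∈ Tb N R, ContDiffAt ℝ ∞ (F.pot a c Φ) v
  pot_eq : ∀ v ∈ Tb N R, pl F.w Φ v = cHess (F.pot a c Φ) v
  ric : ∀ v ∈ Tb N R, cHess (fun v' => Real.log (cHess (F.pot a c Φ) v').det.re) v = 0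

def PBK : Prop :=
  ∀ (N : ℕ) (M : Model N) (_ : M.Good) (Y : Type) [TopologicalSpace Y] [ChartedSpace (Cm N) Y]
    [IsManifold 𝓘(ℂ, Cm N) ω Y] (t : ℂ) (F : Fib M Y t), Bas F →
    ∀ a (c : Cm (N + 1)) (R : ℝ) (Φ : Cm N → Y), Par F a c R Φ → Pbk F a c R Φ

/-- the determinant in logarithmic coordinates, and the model form in logarithmic coordinates -/
def EXB : Prop :=
  ∀ (N : ℕ) (M : Model N) (_ : M.Good), ∃ C : ℝ, 0 < C ∧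
    ∀ (Y : Type) [TopologicalSpace Y] [ChartedSpace (Cm N) Y] [IsManifold 𝓘(ℂ, Cm N) ω Y]
      (t : ℂ) (F : Fib M Y t), 0 < TT t → Bas F →
      ∀ a (c : Cm (N + 1)) (R : ℝ) (Φ : Cm N → Y), (∀ l, 1 ≤ M.m a l) → Par F a c R Φ →
        Pbk F a c R Φ → ∀ v ∈ Tb N R, ex c (M.B a) v ∈ ball (0 : Cm (N + 1)) 1 →
          (pl F.w Φ v).det.re ≤ C ∧
          ((C : ℂ) • pb (ex c (M.B a)) (M.dg a (TT t) (ex c (M.B a) v)) v -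
            (1 : Matrix (Fin N) (Fin N) ℂ)).PosSemidef ∧
          ∀ Z : ℝ, (∀ l, TT t * ‖ex c (M.B a) v l‖ ^ 2 ≤ Z) →
            (((C * (1 + Z) : ℝ) : ℂ) • (1 : Matrix (Fin N) (Fin N) ℂ) -
              pb (ex c (M.B a)) (M.dg a (TT t) (ex c (M.B a) v)) v).PosSemidef

/-- the mass of the metric on a unit ball of the tube -/
def MASS : Prop :=
  ∀ (N : ℕ) (_ : 1 ≤ N) (M : Model N) (_ : M.Good) (K c₀ : ℝ) (_ : 0 < K) (_ : 0 < c₀),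
    ∃ C : ℝ, 0 < C ∧
    ∀ (Y : Type) [TopologicalSpace Y] [T2Space Y] [CompactSpace Y] [ChartedSpace (Cm N) Y]
      [IsManifold 𝓘(ℂ, Cm N) ω Y] (t : ℂ) (F : Fib M Y t), 1 ≤ TT t → Bas F → Her F K →
      (∀ (e : Chart N Y) y, At e y → (F.β K e (e y)).PosSemidef) →
      ∀ a (c : Cm (N + 1)) (R : ℝ) (Φ : Cm N → Y), Par F a c R Φ → Pbk F a c R Φ →
        (∀ v ∈ Tb N R, (pl (F.β K) Φ v - (c₀ : ℂ) • (1 : Matrix (Fin N) (Fin N) ℂ)).PosSemidef) →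
        ∀ v₀, closedBall v₀ 1 ⊆ Tb N R →
          ∫ v in closedBall v₀ 1, (cHess (F.pot a c Φ) v).trace.re ≤ C * TT t ^ N

/-- everything the geometry gives -/
def GEO : Prop :=
  ∀ (N : ℕ) (_ : 1 ≤ N) (M : Model N) (_ : M.Good), ∃ C₁ : ℝ, 0 < C₁ ∧
    ∀ (R η : ℝ), 0 < R → 0 < η → ∃ C₂ T₀ : ℝ, 0 < C₂ ∧
      ∀ (Y : Type) [TopologicalSpace Y] [T2Space Y] [CompactSpace Y] [Nonempty Y]
        [ChartedSpace (Cm N) Y] [IsManifold 𝓘(ℂ, Cm N) ω Y] (t : ℂ) (F : Fib M Y t), T₀ ≤ TT t →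
        ∃ (a : Fin M.na) (c : Cm (N + 1)) (Φ : Cm N → Y) (φ G : Cm N → ℝ), (∀ l, 1 ≤ M.m a l) ∧
          Par F a c R Φ ∧ (∀ v ∈ Tb N R, ‖ex c (M.B a) v‖ ≤ η ∧ pl F.w Φ v = cHess φ v) ∧
          Tube N C₁ C₂ (TT t) R φ G

/-! ## Analysis on the tube -/

/-- two sided bounds -/
def TWO : Prop :=
  ∀ (N : ℕ) (_ : 1 ≤ N) (C₁ : ℝ) (_ : 0 < C₁), ∃ C : ℝ, 0 < C ∧ ∀ R : ℝ, 0 < R →
    ∃ R' : ℝ, R ≤ R' ∧ ∀ C₂ : ℝ, 0 < C₂ → ∃ T₀ : ℝ, ∀ T : ℝ, T₀ ≤ T → ∀ φ G : Cm N → ℝ,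
      Tube N C₁ C₂ T R' φ G → ∀ v ∈ Tb N R,
        (cHess φ v - ((C⁻¹ : ℝ) : ℂ) • (1 : Matrix (Fin N) (Fin N) ℂ)).PosSemidef ∧
        ((C : ℂ) • (1 : Matrix (Fin N) (Fin N) ℂ) - cHess φ v).PosSemidef

/-- Ricci flat potentials with two sided bounds on a ball -/
def RF {N : ℕ} (lam Lam : ℝ) (p : Cm N) (r : ℝ) (φ : Cm N → ℝ) : Prop :=
  ∀ v ∈ ball p r, ContDiffAt ℝ ∞ φ v ∧
    (cHess φ v - (lam : ℂ) • (1 : Matrix (Fin N) (Fin N) ℂ)).PosSemidef ∧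
    ((Lam : ℂ) • (1 : Matrix (Fin N) (Fin N) ℂ) - cHess φ v).PosSemidef ∧
    cHess (fun v' => Real.log (cHess φ v').det.re) v = 0

/-- uniform estimates of all orders -/
def UNI : Prop :=
  ∀ (N : ℕ) (lam Lam : ℝ) (_ : 0 < lam) (q : ℕ), ∃ C : ℝ, ∀ φ : Cm N → ℝ, RF lam Lam 0 1 φ →
    ∀ i i', ‖iteratedFDeriv ℝ q (fun v => cHess φ v i i') 0‖ ≤ C

/-- small derivatives on large balls -/
def SCL : Prop :=
  ∀ (N : ℕ) (lam Lam η : ℝ) (_ : 0 < lam) (_ : 0 < η) (k : ℕ), ∃ L : ℝ, 0 < L ∧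
    ∀ (φ : Cm N → ℝ) (p : Cm N), RF lam Lam p L φ → ∀ i i' q, 1 ≤ q → q ≤ k →
      ‖iteratedFDeriv ℝ q (fun v => cHess φ v i i') p‖ ≤ η

/-- smoothing by convolution with a torus invariant kernel -/
def CNV : Prop :=
  ∀ N : ℕ, ∃ c : ℕ → ℝ, ∀ (Lam : ℝ) (φ : Cm N → ℝ), 0 ≤ Lam →
    (∀ v ∈ ball (0 : Cm N) 1, ContDiffAt ℝ ∞ φ v ∧ (cHess φ v).PosSemidef ∧
      ((Lam : ℂ) • (1 : Matrix (Fin N) (Fin N) ℂ) - cHess φ v).PosSemidef) →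
    ∃ κ : Cm N → ℝ, ∀ z ∈ ball (0 : Cm N) (1 / 2), ContDiffAt ℝ ∞ κ z ∧ |φ z - κ z| ≤ c 0 * Lam ∧
      (∀ q i i', ‖iteratedFDeriv ℝ q (fun y => cHess κ y i i') z‖ ≤ c q * Lam) ∧
      ∀ B : ℝ, (∀ v ∈ ball (0 : Cm N) 1, |φ v| ≤ B) → ∀ q, ‖iteratedFDeriv ℝ q κ z‖ ≤ c q * B

/-- the algebra of the classes `GK` -/
structure GKAlg (N : ℕ) (α : ℝ) : Prop where
  mono : ∀ (ι : Type) (q : ℕ) (f : ι → Cm N → ℂ), GK α (q + 1) f → GK α q f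
  congr : ∀ (ι : Type) (q : ℕ) (f g : ι → Cm N → ℂ),
    (∃ r : ℝ, 0 < r ∧ ∀ i, ∀ x ∈ ball (0 : Cm N) r, f i x = g i x) → GK α q f → GK α q g
  const : ∀ (ι : Type) (q : ℕ) (c : ℂ), GK α q fun (_ : ι) (_ : Cm N) => c
  add : ∀ (ι : Type) (q : ℕ) (f g : ι → Cm N → ℂ), GK α q f → GK α q g →
    GK α q fun i x => f i x + g i x
  mul : ∀ (ι : Type) (q : ℕ) (f g : ι → Cm N → ℂ), GK α q f → GK α q g →
    GK α q fun i x => f i x * g i x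
  sum : ∀ (ι κ : Type) (s : Finset κ) (q : ℕ) (f : κ → ι → Cm N → ℂ), (∀ k ∈ s, GK α q (f k)) →
    GK α q fun i x => ∑ k ∈ s, f k i x
  inv : ∀ (ι : Type) (q : ℕ) (H : ι → Cm N → Matrix (Fin N) (Fin N) ℂ),
    (∀ p p', GK α q fun i x => H i x p p') →
    (∃ r lam : ℝ, 0 < r ∧ 0 < lam ∧ ∀ i, ∀ x ∈ ball (0 : Cm N) r,
      (H i x - (lam : ℂ) • (1 : Matrix (Fin N) (Fin N) ℂ)).PosSemidef) →
    (∀ p p', GK α q fun i x => (H i x)⁻¹ p p') ∧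
    ∃ r lam : ℝ, 0 < r ∧ 0 < lam ∧ ∀ i, ∀ x ∈ ball (0 : Cm N) r,
      ((H i x)⁻¹ - (lam : ℂ) • (1 : Matrix (Fin N) (Fin N) ℂ)).PosSemidef
  hess : ∀ (ι : Type) (q : ℕ) (w : ι → Cm N → ℝ), (GK α (q + 2) fun i x => (w i x : ℂ)) →
    ∀ p p', GK α q fun i x => cHess (w i) x p p'
  of_bdd : ∀ (ι : Type) (q : ℕ) (f : ι → Cm N → ℂ),
    (∃ r : ℝ, 0 < r ∧ (∀ i, ∀ x ∈ ball (0 : Cm N) r, ContDiffAt ℝ ∞ (f i) x) ∧
      ∀ j, ∃ C : ℝ, ∀ i, ∀ x ∈ ball (0 : Cm N) r, ‖iteratedFDeriv ℝ j (f i) x‖ ≤ C) → GK α q f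
  to_bdd : ∀ (ι : Type) (q : ℕ) (f : ι → Cm N → ℂ), GK α q f →
    ∃ C : ℝ, ∀ i, ‖iteratedFDeriv ℝ q (f i) 0‖ ≤ C

def GKA : Prop := ∀ (N : ℕ) (α : ℝ), 0 < α → α < 1 → GKAlg N α

/-- interpolation: bounded functions with Hölder second derivatives -/
def ITP : Prop :=
  ∀ (N : ℕ) (α : ℝ), 0 < α → α < 1 → ∀ (ι : Type) (w : ι → Cm N → ℝ) (r B : ℝ), 0 < r →
    (∀ i, ∀ x ∈ ball (0 : Cm N) r, ContDiffAt ℝ ∞ (w i) x ∧ |w i x| ≤ B) →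
    (∀ i, R.Hol α B (fderiv ℝ (fderiv ℝ (w i))) (ball (0 : Cm N) r)) →
    GK α 2 fun i x => (w i x : ℂ)

/-- the linear interior estimate with `q` derivatives -/
def LINq (q : ℕ) : Prop :=
  ∀ (N : ℕ) (α : ℝ), 0 < α → α < 1 → ∀ (ι : Type) (A : ι → Cm N → Matrix (Fin N) (Fin N) ℂ)
    (w : ι → Cm N → ℝ), (∀ p p', GK α q fun i x => A i x p p') →
    (∃ r lam : ℝ, 0 < r ∧ 0 < lam ∧ ∀ i, ∀ x ∈ ball (0 : Cm N) r,
      (A i x - (lam : ℂ) • (1 : Matrix (Fin N) (Fin N) ℂ)).PosSemidef) →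
    (GK α 1 fun i x => (w i x : ℂ)) → (GK α q fun i x => (A i x * cHess (w i) x).trace) →
    GK α (q + 2) fun i x => (w i x : ℂ)

/-- the bootstrap for the Monge-Ampère equation -/
def BOOT : Prop :=
  ∀ (N : ℕ) (α : ℝ), 0 < α → α < 1 → ∀ (ι : Type) (K : ι → Cm N → Matrix (Fin N) (Fin N) ℂ)
    (v f : ι → Cm N → ℝ), (∀ q p p', GK α q fun i x => K i x p p') →
    (∀ q, GK α q fun i x => (f i x : ℂ)) → (GK α 2 fun i x => (v i x : ℂ)) →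
    (∃ r lam : ℝ, 0 < r ∧ 0 < lam ∧ ∀ i, ∀ x ∈ ball (0 : Cm N) r,
      (K i x + cHess (v i) x - (lam : ℂ) • (1 : Matrix (Fin N) (Fin N) ℂ)).PosSemidef ∧
      Real.log (K i x + cHess (v i) x).det.re = f i x) →
    ∀ q, GK α (q + 2) fun i x => (v i x : ℂ)

/-- the start of the bootstrap: the estimate of third order -/
def STA : Prop :=
  ∀ (N : ℕ) (lam Lam : ℝ) (_ : 0 < lam), ∃ (B : ℝ) (c : ℕ → ℝ), ∀ φ : Cm N → ℝ, RF lam Lam 0 1 φ →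
    ∃ κ : Cm N → ℝ, (∀ z ∈ ball (0 : Cm N) (1 / 4), ContDiffAt ℝ ∞ κ z ∧ |φ z - κ z| ≤ B ∧
      (∀ q i i', ‖iteratedFDeriv ℝ q (fun y => cHess κ y i i') z‖ ≤ c q) ∧
      ∀ q, ‖iteratedFDeriv ℝ q (fun y => ((Real.log (cHess φ y).det.re : ℝ) : ℂ)) z‖ ≤ c q) ∧
      R.Hol (1 / 2) B (fderiv ℝ (fderiv ℝ fun y => φ y - κ y)) (ball (0 : Cm N) (1 / 4))

end Vale.Agent.P301Z.Key
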